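import Vale.Agent.P352X.CA.Spec

/-!
# P352X, block CA, row AX2: the charges are symmetric operators on the space of good fields
-/

set_option linter.all false

open MeasureTheory Filter Topology
open scoped SchwartzMap ComplexConjugate ContDiff

namespace Vale.Agent.P352X.CA

open Vale.Agent.P352 Vale.Agent.P352.GF Vale.Agent.P352.BW Vale.Agent.P352.H246
open Vale.Agent.P352.H496 Vale.Agent.P352.H755
open Vale.Agent.P352.SubConf (IsAdj IsKil chg)
open TPD (Lsc Lg pS TT)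
open UniformSpace (Completion)
open Complex (I)

noncomputable section

namespace AX2

/-- multiplication by a coordinate -/
def xS (k : Ix) : Sch →L[ℂ] Sch := KDa.mS (ContinuousLinearMap.proj k)

lemma xS_apply (k : Ix) (f : Sch) (z : V) : xS k f z = z k * f z := KDa.mS_apply _ f z

lemma ev_xS (k : Ix) (f : Sch) : ev (xS k f) = xg k (ev f) := funext (xS_apply k f)

lemma ev_d (n : Ix) (f : Sch) : ev (KDa.dS (bas n 1) f) = pd n (ev f) := by
  funext x
  rw [KDa.pd_ev]
  rfl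

lemma dS_sum (a : V) (f : Sch) : KDa.dS a f = ∑ n, (a n : ℂ) • KDa.dS (bas n 1) f := by
  ext x
  have h := congrFun (KDa.ev_dS a f) x
  simp only [dv, ← ev_d] at h
  rw [SchwartzMap.sum_apply]
  exact h

/-- multiplication by a component of a conformal Killing field -/
def mX (a b : V) (r : ℝ) (w : Ix → V) (n : Ix) : Sch →L[ℂ] Sch :=
  (a n : ℂ) • ContinuousLinearMap.id ℂ Sch + (r : ℂ) • xS n + ∑ m, ((w m n : ℂ) • xS m +
    ((2 * eta m * b m : ℝ) : ℂ) • xS m ∘L xS n - ((eta m * b n : ℝ) : ℂ) • xS m ∘L xS m)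

lemma ev_mX {X : Ix → V → ℝ} {a b : V} {r : ℝ} {w : Ix → V} (hX : Kd X a b r w) (n : Ix)
    (f : Sch) : ev (mX a b r w n f) = fun x => (X n x : ℂ) * ev f x := by
  funext x
  rw [hX.2]
  simp only [ev, mX, Fin.sum_univ_four, GF.mdot, ContinuousLinearMap.add_apply,
    ContinuousLinearMap.sub_apply, ContinuousLinearMap.smul_apply, ContinuousLinearMap.comp_apply,
    ContinuousLinearMap.id_apply, SchwartzMap.add_apply, SchwartzMap.sub_apply,
    SchwartzMap.smul_apply, xS_apply, smul_eq_mul]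
  push_cast
  ring

/-- the divergence of `X f` -/
def DX (a b : V) (r : ℝ) (w : Ix → V) : Sch →L[ℂ] Sch :=
  ∑ n, KDa.dS (bas n 1) ∘L mX a b r w n

section nr

variable {H : Type*} [NormedAddCommGroup H] [NormedSpace ℂ H] {φ : Sch →L[ℂ] H} {f0 : Sch}

/-- distributions that only see the cone -/
def NR (φ : Sch →L[ℂ] H) : Prop := ∀ f : Sch, Nl (ev f) → φ f = 0

lemma NR.d (N : NUL) (h : NR φ) (n : Ix) : NR (φ ∘L KDa.dS (bas n 1)) := fun f hf =>
  h (KDa.dS (bas n 1) f) (by rw [ev_d]; exact N.pd n _ ⟨f, rfl⟩ hf)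

lemma NR.x (N : NUL) (h : NR φ) (n : Ix) : NR (φ ∘L xS n) := fun f hf =>
  h (xS n f) (by rw [ev_xS]; exact N.xg n _ ⟨f, rfl⟩ hf)

lemma NR.one (N : NUL) (z : Z0 (ev f0)) (h : NR φ) (k : Ix) :
    φ (xS k f0) = (I * e0 k) • φ f0 := by
  have e : ev (xS k f0 - (I * e0 k) • f0) = fun x => xg k (ev f0) x - I * e0 k * ev f0 x := by
    funext x
    rw [← ev_xS]
    rfl
  have h1 := h (xS k f0 - (I * e0 k) • f0) (by rw [e]; exact N.z0 k _ ⟨f0, rfl⟩ z)
  rwa [map_sub, map_smul, sub_eq_zero] at h1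

lemma NR.two (N : NUL) (z : Z0 (ev f0)) (h : NR φ) (k l : Ix) :
    φ (xS k (xS l f0)) = (I * e0 l * (I * e0 k)) • φ f0 := by
  have h1 := (h.x N k).one N z l
  simp only [ContinuousLinearMap.comp_apply] at h1
  rw [h1, h.one N z, smul_smul]

lemma NR.mX (N : NUL) (z : Z0 (ev f0)) (h : NR φ) (a b : V) (r : ℝ) (w : Ix → V) (n : Ix) :
    φ (mX a b r w n f0) = ((a n : ℂ) + I * ((r • e0 + w o) n : ℝ) - (th b n : ℝ)) • φ f0 := by
  simp only [AX2.mX, Fin.sum_univ_four, ContinuousLinearMap.add_apply,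
    ContinuousLinearMap.sub_apply, ContinuousLinearMap.smul_apply, ContinuousLinearMap.comp_apply,
    ContinuousLinearMap.id_apply, map_add, map_sub, map_smul, h.one N z, h.two N z, smul_smul,
    ← add_smul, ← sub_smul]
  congr 1
  by_cases hn : n = 0 <;> simp [e0, th, bas, o, eta, hn] <;> ring_nf <;> simp

lemma NR.DX (N : NUL) (z : Z0 (ev f0)) (h : NR φ) (a b : V) (r : ℝ) (w : Ix → V) :
    φ (DX a b r w f0) = φ (KDa.dS a f0) + I • φ (KDa.dS (r • e0 + w o) f0) -
      φ (KDa.dS (th b) f0) := by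
  have h1 := fun n => (h.d N n).mX N z a b r w n
  simp only [ContinuousLinearMap.comp_apply] at h1
  rw [dS_sum a, dS_sum (r • e0 + w o), dS_sum (th b)]
  simp only [AX2.DX, ContinuousLinearMap.sum_apply, ContinuousLinearMap.comp_apply, map_sum,
    map_smul, h1, add_smul, sub_smul, mul_smul, Finset.sum_add_distrib, Finset.sum_sub_distrib,
    Finset.smul_sum]

end nr

variable {D : Type*} [NormedAddCommGroup D] [InnerProductSpace ℂ D] {c : Cx D}

lemma nr (h : L4 c) {R R' : Fld D} {y : TT D} (g : c.Gd R R' y) : NR y := fun f hf => by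
  obtain ⟨C, M, -, hb⟩ := h.rho.bd y (h.ext.tc R y g.cf.tl g.vv)
  have := hb f 0 fun p hp => by rw [hf p hp, norm_zero, mul_zero]
  rwa [mul_zero, norm_le_zero_iff] at this

lemma kil {X : Ix → V → ℝ} {a b : V} {r : ℝ} {w : Ix → V} (hX : Kd X a b r w) : IsKil X :=
  ⟨a, b, r, w, hX.1, hX.2⟩

lemma phi {X : Ix → V → ℝ} {a b : V} {r : ℝ} {w : Ix → V} (hX : Kd X a b r w) {R R' : Fld D}
    {y G : TT D} (g : c.Gd R R' y) (hG : c.Vv (Sg c.t X R) G) (f : Sch)
    (hf : HasCompactSupport f) :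
    (G - y ∘L DX a b r w) f = I • ((Phi c.t X R (ev f) c.Q.vac : D) : Completion D) := by
  have h1 : ∀ n, y (KDa.dS (bas n 1) (mX a b r w n f)) =
      (R (pd n fun x => (X n x : ℂ) * ev f x) c.Q.vac : D) := fun n => by
    have e : ev (KDa.dS (bas n 1) (mX a b r w n f)) = pd n fun x => (X n x : ℂ) * ev f x := by
      rw [ev_d, ev_mX hX]
    rw [g.vv _ (e ▸ (cs_pd (cs_mul ⟨⟨f, rfl⟩, hf⟩ (Mq.kil (kil hX) n)) n).2 :
      HasCompactSupport (ev _)), e]
  simp only [DX, ContinuousLinearMap.sub_apply, ContinuousLinearMap.comp_apply,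
    ContinuousLinearMap.add_apply, map_add, h1, hG f hf, Sg, Fin.sum_univ_four,
    Completion.coe_add, Completion.coe_smul]
  abel

lemma core (h : L4 c) {X : Ix → V → ℝ} {a b : V} {r : ℝ} {w : Ix → V} (hX : Kd X a b r w)
    {R R' Z Z' : Fld D} {y z G G' : TT D} (g : c.Gd R R' y) (g' : c.Gd Z Z' z)
    (hG : c.Vv (Sg c.t X R) G) (hG' : c.Vv (Sg c.t X Z) G') (f f' : Sch) :
    inner ℂ ((G - y ∘L DX a b r w) f) (z f') + inner ℂ (y f) ((G' - z ∘L DX a b r w) f') = 0 := by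
  have h1 : ∀ f f' : Sch, HasCompactSupport f → HasCompactSupport f' →
      inner ℂ ((G - y ∘L DX a b r w) f) (z f') +
        inner ℂ (y f) ((G' - z ∘L DX a b r w) f') = 0 := fun f f' hf hf' => by
    rw [phi hX g hG f hf, phi hX g' hG' f' hf', g.vv f hf, g'.vv f' hf', inner_smul_left,
      inner_smul_right, Completion.inner_coe, Completion.inner_coe,
      h.qq X R R' Z Z' _ _ (kil hX) g.cf.l g.cf.r g'.cf.l ⟨⟨f, rfl⟩, hf⟩ ⟨⟨f', rfl⟩, hf'⟩,
      Complex.conj_I]
    ring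
  have h2 := fun (f' : Sch) (hf' : HasCompactSupport f') => congrFun (h.ext.ext ℂ
    (fun f => inner ℂ ((G - y ∘L DX a b r w) f) (z f') +
      inner ℂ (y f) ((G' - z ∘L DX a b r w) f')) (fun _ => 0) (by fun_prop) continuous_const
    fun f hf => h1 f f' hf hf') f
  exact congrFun (h.ext.ext ℂ (fun f' => inner ℂ ((G - y ∘L DX a b r w) f) (z f') +
    inner ℂ (y f) ((G' - z ∘L DX a b r w) f')) (fun _ => 0) (by fun_prop) continuous_const h2) f'

lemma ah (h : L4 c) (x : Ops c) {f0 : Sch} {X : Ix → V → ℝ} {a b : V} {r : ℝ} {w : Ix → V}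
    (hX : Kd X a b r w) (G : x.W → TT D) (T : x.W →ₗ[ℂ] x.W)
    (hG : ∀ R R' (y : x.W), c.Gd R R' y → c.Vv (Sg c.t X R) (G y))
    (hT : ∀ y : x.W, (∀ u : x.W, NR (u : TT D)) →
      (T y : TT D) f0 = G y f0 - (y : TT D) (DX a b r w f0)) : (x.dat f0).AH T := fun y z => by
  have n : ∀ u : x.W, NR (u : TT D) := fun u =>
    let ⟨_, _, g⟩ := (x.mem u).1 u.2
    nr h g
  obtain ⟨R, R', g⟩ := (x.mem y).1 y.2
  obtain ⟨Z, Z', g'⟩ := (x.mem z).1 z.2
  show inner ℂ ((T y : TT D) f0) ((z : TT D) f0) + inner ℂ ((y : TT D) f0) ((T z : TT D) f0) = 0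
  rw [hT y n, hT z n]
  exact core h hX g g' (hG _ _ _ g) (hG _ _ _ g') f0 f0

lemma as0 : As 0 := fun _ _ => by simp

lemma dS0 (f : Sch) : KDa.dS 0 f = 0 := by
  rw [dS_sum]
  simp

lemma th0 : th 0 = 0 := by simp [th]

end AX2

open AX2

variable {D : Type*} [NormedAddCommGroup D] [InnerProductSpace ℂ D]

theorem ax2_row (c : Cx D) (h : L4 c) (x : Ops c) (f0 : Sch) (z : Z0 (ev f0)) :
    (x.dat f0).Ax2 where
  hP a y y' := by
    have h1 := ah h x (f0 := f0) (X := Xc a) (a := a) (b := 0) (r := 0) (w := 0)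
      ⟨as0, fun n p => by simp [Xc, GF.mdot]⟩ (fun _ => 0) (-x.P a)
      (fun R R' y g f hf => by
        rw [h.tra a R R' _ _ g.cf ⟨⟨f, rfl⟩, hf⟩, Completion.coe_zero]
        rfl)
      (fun y n => by
        rw [(n y).DX h.nul z]
        simp [th0, dS0, x.hP]) y y'
    simp only [Dat.ii, LinearMap.neg_apply, map_neg, inner_neg_left, inner_neg_right] at h1
    show (x.dat f0).ii (x.P a y) y' + (x.dat f0).ii y (x.P a y') = 0
    simp only [Dat.ii]
    linear_combination -h1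
  hS := ah h x (X := Xd) (a := 0) (b := 0) (r := 1) (w := 0)
    ⟨as0, fun n p => by simp [Xd, GF.mdot]⟩ (fun y => x.S y) _
    (fun R R' y g => (x.hS R R' y g).vv)
    fun y n => by
      rw [(n y).DX h.nul z]
      simp [th0, dS0, x.hP, Ops.dat]
  hM w hw := ah h x (X := Xw w) (a := 0) (b := 0) (r := 0) (w := w)
    ⟨hw, fun n p => by simp [Xw, GF.mdot]⟩ (fun y => x.M w y) _
    (fun R R' y g => (x.hM w R R' y hw g).vv)
    fun y n => by
      rw [(n y).DX h.nul z]
      simp [th0, dS0, x.hP, Ops.dat]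
  hK b := ah h x (X := Xb b) (a := 0) (b := b) (r := 0) (w := 0)
    ⟨as0, fun n p => by simp [Xb]⟩
    (fun y => (x.K b y : TT D) + ∑ k, (((2 * GF.mdot (bas k 1) b : ℝ) : ℂ) • (x.S y : TT D) +
      (x.M (wd (bas k 1) b) y : TT D)) ∘L xS k) _
    (fun R R' y g f hf => by
      have h1 : ∀ k, HasCompactSupport (xS k f) := fun k =>
        (ev_xS k f ▸ hf.mul_left : HasCompactSupport (ev (xS k f)))
      simp only [ContinuousLinearMap.add_apply, ContinuousLinearMap.sum_apply,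
        ContinuousLinearMap.comp_apply, ContinuousLinearMap.smul_apply, (x.hK b R R' y g).vv f hf,
        (x.hS R R' y g).vv _ (h1 _), (x.hM _ R R' y (h.mat.aswd _ _) g).vv _ (h1 _), ev_xS,
        Cx.Kb, Cx.Tb, Fin.sum_univ_four, Completion.coe_add, Completion.coe_sub,
        Completion.coe_smul]
      abel)
    fun y n => by
      rw [(n y).DX h.nul z]
      simp only [ContinuousLinearMap.add_apply, ContinuousLinearMap.sum_apply,
        ContinuousLinearMap.comp_apply, ContinuousLinearMap.smul_apply, (n _).one h.nul z,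
        Fin.sum_univ_four]
      simp [dS0, x.hP, Ops.dat, e0, bas, o, GF.mdot, eta, smul_smul]
      module

end

end Vale.Agent.P352X.CA
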