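import Vale.Agent.P352X.TPD.Defs

/-!
# P352X, block CA, layer A: the conformal algebra on a pre-Hilbert space (see notes/P352/ca.md)
-/

set_option linter.all false

open Filter Topology
open scoped ComplexConjugate

namespace Vale.Agent.P352X.CA

open Vale.Agent.P352 Vale.Agent.P352.GF Vale.Agent.P352.H246
open TPD (Lsc Lg)
open Complex (I)

noncomputable section

/-! ## matrices and tensors -/

/-- infinitesimal Lorentz transformations `x ↦ ∑ m, x m * w m` -/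
def As (w : Ix → V) : Prop := ∀ m n, eta n * w m n = -(eta m * w n m)

/-- the product of matrices -/
def mm (A B : Ix → V) : Ix → V := fun m n => ∑ k, A m k * B k n

/-- `x ↦ 2 (b.x) a - 2 (a.x) b` -/
def wd (a b : V) : Ix → V := fun m n => 2 * (eta m * b m) * a n - 2 * (eta m * a m) * b n

/-- the unit vector of the time axis -/
def e0 : V := bas o 1

/-- the reflection of the spatial part -/
def th (b : V) : V := (2 * b o) • e0 - b

/-- the generator of the null rotations `Lg (e • e2 0)` -/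
def w0 : Ix → V := (1 / 2 : ℝ) • wd (ex 0) va

section ten

variable {W : Type*} [AddCommGroup W] [Module ℂ W] {k : ℕ}

/-- the tensor representation -/
def tl (L : Ix → V) (y : (Fin k → Ix) → W) (μ : Fin k → Ix) : W :=
  ∑ ν : Fin k → Ix, ((∏ i, L (ν i) (μ i) : ℝ) : ℂ) • y ν

/-- its derivative -/
def gw (w : Ix → V) (y : (Fin k → Ix) → W) (μ : Fin k → Ix) : W :=
  ∑ i, ∑ n, (w n (μ i) : ℂ) • y (Function.update μ i n)

/-- a new contravariant index -/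
def cons (R : V → W →ₗ[ℂ] W) (y : (Fin k → Ix) → W) (ν : Fin (k + 1) → Ix) : W :=
  (eta (ν 0) : ℂ) • R (bas (ν 0) 1) (y (Fin.tail ν))

end ten

/-- row TEN: tensor identities -/
structure TEN (W : Type*) [AddCommGroup W] [Module ℂ W] : Prop where
  one : ∀ k (y : (Fin k → Ix) → W), tl GF.one y = y
  mul : ∀ k L L' (y : (Fin k → Ix) → W), tl L (tl L' y) = tl (mm L' L) y
  int : ∀ k L w w' (y : (Fin k → Ix) → W), mm L w = mm w' L → gw w (tl L y) = tl L (gw w' y)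
  lin : ∀ k w w' (r : ℝ) (y : (Fin k → Ix) → W) μ,
    gw (w + r • w') y μ = gw w y μ + (r : ℂ) • gw w' y μ
  cons : ∀ k L (y : (Fin (k + 1) → Ix) → W) ν, tl L y ν =
    ∑ n, (L n (ν 0) : ℂ) • tl L (fun μ => y (Fin.cons n μ)) (Fin.tail ν)

/-- row TEN (second part): the derivative of the tensor representation -/
def TDER : Prop := ∀ k (L : ℝ → Ix → V) (w : Ix → V) (φ : ℝ → (Fin k → Ix) → ℂ)
  (φ' : (Fin k → Ix) → ℂ) μ, L 0 = GF.one → (∀ m n, HasDerivAt (fun e => L e m n) (w m n) 0) →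
    (∀ ν, HasDerivAt (fun e => φ e ν) (φ' ν) 0) →
    HasDerivAt (fun e => tl (L e) (φ e) μ) (gw w (φ 0) μ + φ' μ) 0

/-- row MAT: matrix identities -/
structure MAT : Prop where
  inv : ∀ L, IsLor L → mm L (linv L) = GF.one ∧ mm (linv L) L = GF.one
  sim : ∀ L L', (fun m => sim 1 L 0 (L' m)) = mm L' L
  aswd : ∀ a b, As (wd a b)
  cnj : ∀ L w, IsLor L → As w → As (mm (mm L w) (linv L)) ∧ As (mm (mm (linv L) w) L)
  wd : ∀ L a b, IsLor L → mm L (wd (GF.sim 1 L 0 a) (GF.sim 1 L 0 b)) = mm (wd a b) L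
  lg0 : Lg ((0 : ℝ) • e2 0) = GF.one
  lgd : ∀ m n, HasDerivAt (fun e : ℝ => Lg (e • e2 0) m n) (w0 m n) 0
  lgw : ∀ e : ℝ, mm (Lg (e • e2 0)) w0 = mm w0 (Lg (e • e2 0))
  lsw : ∀ s, 0 < s → mm (Lsc 1 s) w0 = mm (Real.sqrt s • w0) (Lsc 1 s)
  lsb : ∀ s m n, 0 < s → s ≤ 1 → |Lsc 1 s m n| ≤ 2 / Real.sqrt s
  ls1 : ∀ r, 0 < r → Lsc r r = GF.one
  spw : ∀ S : Submodule ℝ (Ix → V), (∀ L, IsLor L →
    CA.wd (GF.sim 1 L 0 (ex 0)) (GF.sim 1 L 0 va) ∈ S) → ∀ w, As w → w ∈ S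
  spv : ∀ S : Submodule ℝ V, (∀ L, IsLor L → GF.sim 1 L 0 va ∈ S) → S = ⊤

/-! ## the abstract structure -/

/-- the data: `P`, `K`, `S`, `M` are the actions of the conformal charges at the origin, `al` is the
action of the similitudes, and `ip` is the state at the point `i e0` -/
structure Dat (W H : Type*) [AddCommGroup W] [Module ℂ W] [NormedAddCommGroup H]
    [InnerProductSpace ℂ H] where
  ip : W →ₗ[ℂ] H
  al : ℝ → (Ix → V) → W →ₗ[ℂ] W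
  P : V → W →ₗ[ℂ] W
  K : V → W →ₗ[ℂ] W
  S : W →ₗ[ℂ] W
  M : (Ix → V) → W →ₗ[ℂ] W

variable {W H : Type*} [AddCommGroup W] [Module ℂ W] [NormedAddCommGroup H]
  [InnerProductSpace ℂ H]

namespace Dat

variable (A : Dat W H)

/-- the scalar product -/
def ii (y z : W) : ℂ := inner ℂ (A.ip y) (A.ip z)

/-- anti-hermitian operators -/
def AH (G : W →ₗ[ℂ] W) : Prop := ∀ y z, A.ii (G y) z + A.ii y (G z) = 0

/-- multiplets of rank `k` and dimension `d` -/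
def Mu (k : ℕ) (d : ℂ) (y : (Fin k → Ix) → W) : Prop := ∀ (s : ℝ) L μ, 0 < s → IsLor L →
  y μ = (s : ℂ) ^ (4 - d) • tl L (fun ν => A.al s L (y ν)) μ

/-- the elements of dimension `d` -/
def Wd (d : ℂ) : Submodule ℂ W := Submodule.span ℂ {z | ∃ k y μ, A.Mu k d y ∧ z = y μ}

/-- the derivatives of dimension `d` -/
def Ds (d : ℂ) : Submodule ℂ W := Submodule.span ℂ {z | ∃ a, ∃ y ∈ A.Wd (d - 1), z = A.P a y}

/-- primaries -/
def Pm (p : W) : Prop := ∀ b, A.K b p = 0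

/-- iterated derivatives -/
def pw (α : List Ix) (z : W) : W := α.foldl (fun z m => A.P (bas m 1) z) z

/-- linearity, covariance, commutators with the derivatives -/
structure Ax1 : Prop where
  Plin : ∀ a b (r : ℝ) y, A.P (a + r • b) y = A.P a y + (r : ℂ) • A.P b y
  Klin : ∀ a b (r : ℝ) y, A.K (a + r • b) y = A.K a y + (r : ℂ) • A.K b y
  Mlin : ∀ w w' (r : ℝ) y, As w → As w' → A.M (w + r • w') y = A.M w y + (r : ℂ) • A.M w' y
  one : ∀ y, A.al 1 GF.one y = y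
  alP : ∀ s L a y, 0 < s → IsLor L → A.P (sim s L 0 a) (A.al s L y) = A.al s L (A.P a y)
  alK : ∀ s L b y, 0 < s → IsLor L →
    A.K (sim 1 L 0 b) (A.al s L y) = (s : ℂ) • A.al s L (A.K b y)
  alS : ∀ s L y, 0 < s → IsLor L → A.S (A.al s L y) = A.al s L (A.S y)
  alM : ∀ s L w w' y, 0 < s → IsLor L → As w → As w' → mm L w = mm w' L →
    A.M w (A.al s L y) = A.al s L (A.M w' y)
  SP : ∀ a y, A.S (A.P a y) = A.P a (A.S y) + A.P a y
  KP : ∀ a b y, A.K b (A.P a y) =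
    A.P a (A.K b y) - ((2 * mdot a b : ℝ) : ℂ) • A.S y - A.M (wd a b) y

/-- the charges are symmetric operators -/
structure Ax2 : Prop where
  hP : ∀ a, A.AH (A.P a)
  hS : A.AH (A.S - I • A.P e0)
  hM : ∀ w, As w → A.AH (A.M w - I • A.P (w o))
  hK : ∀ b, A.AH (A.K b + (2 * I * b o) • A.S + I • A.M (wd e0 b) + A.P (th b))

/-- the generators of the similitudes -/
def Der : Prop := ∀ (s : ℝ → ℝ) (L : ℝ → Ix → V) (r : ℝ) w y z, s 0 = 1 → L 0 = GF.one →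
  (∀ e, 0 < s e ∧ IsLor (L e)) → As w → HasDerivAt s r 0 →
  (∀ m n, HasDerivAt (fun e => L e m n) (w m n) 0) →
  HasDerivAt (fun e => A.ii (A.al (s e) (L e) y) (A.al (s e) (L e) z))
    (A.ii (I • A.P (r • e0 + w o) y - (4 * r : ℂ) • y) z +
      A.ii y (I • A.P (r • e0 + w o) z - (4 * r : ℂ) • z)) 0

/-- the spectrum condition -/
def Bd : Prop := ∀ y, ∃ C : ℝ, ∀ r s, 0 < r → r ≤ 1 → 0 < s → s ≤ 1 →
  ‖A.ip (A.al (Real.sqrt (r * s)) (Lsc r s) y)‖ ≤ C / (r * s) ^ 2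

/-- all axioms -/
structure Ax : Prop extends A.Ax1, A.Ax2 where
  inj : Function.Injective A.ip
  der : A.Der
  bd : A.Bd
  ten : TEN W
  tder : TDER
  mat : MAT

/-- row MUL: operations on multiplets -/
structure MUL : Prop where
  add : ∀ k d y z (c : ℂ), A.Mu k d y → A.Mu k d z → A.Mu k d fun μ => y μ + c • z μ
  S : ∀ k d y, A.Mu k d y → A.Mu k d fun μ => A.S (y μ)
  P : ∀ k d y, A.Mu k d y → A.Mu (k + 1) (d + 1) (cons A.P y)
  K : ∀ k d y, A.Mu k d y → A.Mu (k + 1) (d - 1) (cons A.K y)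
  inv : ∀ k d y (s : ℝ) L μ, A.Mu k d y → 0 < s → IsLor L →
    A.al s L (y μ) = (s : ℂ) ^ (d - 4) • tl (linv L) y μ
  Pe : ∀ a y, A.P a y = ∑ m, (a m : ℂ) • A.P (bas m 1) y
  Ke : ∀ b y, A.K b y = ∑ m, (b m : ℂ) • A.K (bas m 1) y
  WP : ∀ d a, ∀ y ∈ A.Wd d, A.P a y ∈ A.Wd (d + 1)
  WK : ∀ d b, ∀ y ∈ A.Wd d, A.K b y ∈ A.Wd (d - 1)
  WS : ∀ d, ∀ y ∈ A.Wd d, A.S y ∈ A.Wd d
  Wa : ∀ d s L, 0 < s → IsLor L → ∀ y ∈ A.Wd d, A.al s L y ∈ A.Wd d
  Da : ∀ d s L, 0 < s → IsLor L → ∀ y ∈ A.Ds d, A.al s L y ∈ A.Ds d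
  Pa : ∀ s L p, 0 < s → IsLor L → A.Pm p → A.Pm (A.al s L p)
  DW : ∀ d, A.Ds d ≤ A.Wd d

/-- row KIL: lower bounds for the weights -/
structure KIL : Prop where
  neg : ∀ d : ℂ, d.re < 0 → A.Wd d = ⊥
  tw : ∀ k (y : (Fin k → Ix) → W) (d : ℂ) (n : ℕ), d.re + k < n → (∀ (s : ℝ) μ, 0 < s → s ≤ 1 →
    y μ = ((Real.sqrt s : ℂ) ^ (4 - d) * (Real.sqrt s : ℂ) ^ n) •
      tl (Lsc 1 s) (fun ν => A.al (Real.sqrt (1 * s)) (Lsc 1 s) (y ν)) μ) → y = 0

/-- families that are covariant under the null rotations -/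
def Gc {k : ℕ} (y : (Fin k → Ix) → W) : Prop := ∀ (e : ℝ) μ,
  y μ = tl (Lg (e • e2 0)) (fun ν => A.al 1 (Lg (e • e2 0)) (y ν)) μ

/-- row LO1: the difference of the charge and the generator of the null rotations -/
def LO1 : Prop := ∀ k k' (y : (Fin k → Ix) → W) (z : (Fin k' → Ix) → W) μ ν, A.Gc y → A.Gc z →
  A.ii (A.M w0 (y μ) + gw w0 y μ) (z ν) + A.ii (y μ) (A.M w0 (z ν) + gw w0 z ν) = 0

/-- row LO2: the null rotations -/
def LO2 : Prop := ∀ k d y μ, A.Mu k d y → A.M w0 (y μ) = -gw w0 y μ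

/-- row LOR: the Lorentz charges act geometrically -/
structure LOR : Prop where
  geo : ∀ k d y w μ, A.Mu k d y → As w → A.M w (y μ) = -gw w y μ
  WM : ∀ d w, As w → ∀ y ∈ A.Wd d, A.M w y ∈ A.Wd d
  SM : ∀ d w, As w → ∀ y ∈ A.Wd d, A.S (A.M w y) = A.M w (A.S y)

/-- row QA: the difference of the dilation charge and the generator of the dilations -/
def QA : Prop := ∀ d d', ∀ y ∈ A.Wd d, ∀ z ∈ A.Wd d',
  A.ii (A.S y - d • y) z + A.ii y (A.S z - d' • z) = 0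

/-- row ADJ: adjoints -/
structure ADJ : Prop where
  K : ∀ b y z, A.ii (A.K b y) z = A.ii y (-A.K b z - (4 * I * b o) • A.S z -
    (2 * I) • A.M (wd e0 b) z - (4 : ℂ) • A.P (th b) z)
  S : ∀ y z, A.Pm y → A.Pm z → A.ii (A.S y) z = A.ii y (A.S z)
  pos : ∀ y, A.ii y y = 0 → y = 0

/-- row QK: the commutator of the dilation charge and the special conformal charges -/
def QK : Prop := ∀ d b, ∀ y ∈ A.Wd d, A.S (A.K b y) = A.K b (A.S y) - A.K b y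

/-- row DIL: the dilation charge -/
def DIL : Prop := ∀ d : ℂ, ∀ y ∈ A.Wd d, A.S y = (d.re : ℂ) • y

/-- spans of finitely many multiplets -/
def FG (d : ℂ) (N : Submodule ℂ W) : Prop := ∃ (n : ℕ) (k : Fin n → ℕ)
  (y : ∀ i, (Fin (k i) → Ix) → W), (∀ i, A.Mu (k i) d (y i)) ∧
    N = Submodule.span ℂ {z | ∃ i μ, z = y i μ}

/-- row TOW: finite dimensional towers -/
def TOW : Prop := ∀ d : ℂ, ∀ y ∈ A.Wd d, ∃ (N : ℕ → Submodule ℂ W) (n : ℕ), y ∈ N 0 ∧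
  (∀ j, n ≤ j → N j = ⊥) ∧ ∀ j, FiniteDimensional ℂ (N j) ∧ N j ≤ A.Wd (d - j) ∧
    (∀ b, ∀ z ∈ N j, A.K b z ∈ N (j + 1)) ∧ (∀ a, ∀ z ∈ N (j + 1), A.P a z ∈ N j) ∧
    ∀ w, As w → ∀ z ∈ N j, A.M w z ∈ N j

/-- row PRI: primary parts -/
def PRI : Prop := ∀ d, ∀ y ∈ A.Wd d, ∃ p ∈ A.Wd d, A.Pm p ∧ y - p ∈ A.Ds d

/-- row UNI: primaries are not derivatives -/
def UNI : Prop := ∀ d, ∀ p ∈ A.Ds d, A.Pm p → p = 0

/-- row DSC: descendants -/
def DSC : Prop := ∀ d, ∀ y ∈ A.Wd d, y ∈ Submodule.span ℂ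
  {z | ∃ k e p ν α, A.Mu k e p ∧ (∀ μ, A.Pm (p μ)) ∧ z = A.pw α (p ν)}

/-- the result of layer A -/
structure OUT : Prop where
  lor : A.LOR
  dil : A.DIL
  dsc : A.DSC

/-- the rows of layer A -/
structure Rows : Prop where
  mul : A.Ax → A.MUL
  kil : A.Ax → A.KIL
  lo1 : A.Ax → A.LO1
  lo2 : A.Ax → A.KIL → A.LO1 → A.LO2
  lor : A.Ax → A.MUL → A.LO2 → A.LOR
  qa : A.Ax → A.QA
  adj : A.Ax → A.ADJ
  qk : A.Ax → A.MUL → A.KIL → A.LOR → A.QA → A.QK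
  dil : A.Ax → A.MUL → A.KIL → A.QA → A.ADJ → A.QK → A.DIL
  tow : A.Ax → A.MUL → A.KIL → A.LOR → A.DIL → A.TOW
  pri : A.Ax → A.ADJ → A.DIL → A.TOW → A.PRI
  uni : A.Ax → A.MUL → A.KIL → A.LOR → A.ADJ → A.DIL → A.PRI → A.UNI
  dsc : A.Ax → A.MUL → A.KIL → A.PRI → A.UNI → A.DSC

theorem out (r : A.Rows) (h : A.Ax) : A.OUT :=
  have m := r.mul h
  have k := r.kil h
  have l := r.lor h m (r.lo2 h k (r.lo1 h))
  have q := r.qa h
  have a := r.adj h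
  have d := r.dil h m k q a (r.qk h m k l q)
  have p := r.pri h a d (r.tow h m k l d)
  ⟨l, d, r.dsc h m k p (r.uni h m k l a d p)⟩

end Dat

end

end Vale.Agent.P352X.CA
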