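import Vale.Agent.P352X.CA.Spec

/-!
# P352X, block CA, row BA: the algebra of charges and localized operators
-/

set_option linter.all false

open MeasureTheory Filter Topology
open scoped SchwartzMap ComplexConjugate ContDiff

namespace Vale.Agent.P352X.CA

open Vale.Agent.P352 Vale.Agent.P352.GF Vale.Agent.P352.BW Vale.Agent.P352.H246
open Vale.Agent.P352.H496 Vale.Agent.P352.H755
open Vale.Agent.P352.SubConf (IsAdj IsKil)

noncomputable section

variable {D : Type*} [NormedAddCommGroup D] [InnerProductSpace ℂ D] {c : Cx D}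

namespace Ba

variable {K K' : Set V} {Y Y' Z Z' : D → D} {u X : Ix → V → ℝ}

theorem jc_mono (h : K ⊆ K') : Jc K ⊆ Jc K' := fun _ ⟨x, h1, h2⟩ => ⟨x, h h1, h2⟩

theorem in_bar {O : Set V} {f : Fn} (hf : In O f) : In O (bar f) :=
  ⟨H246.isTest_bar hf.1, (cs_bar ⟨hf.1, hf.2.1⟩).2, by rw [H246.tsupport_bar]; exact hf.2.2⟩

theorem sep {f g : Fn} (hf : tsupport f ⊆ K) (hg : In (Jc K)ᶜ g) : Sep g f :=
  fun _ hx y hy => not_le.1 fun h => hg.2.2 hx ⟨y, hf hy, h⟩

theorem sep_symm {f g : Fn} (h : Sep f g) : Sep g f := fun x hx y hy => by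
  refine lt_of_eq_of_lt (Finset.sum_congr rfl fun m _ => ?_) (h y hy x hx)
  ring

theorem chadj (hu : ∀ m, Tst (u m)) (hX : IsKil X) (v w : D) :
    inner ℂ (c.Ch u X v) w = inner ℂ v (c.Ch u X w) := by
  simp only [Cx.Ch, smt, sum_inner, inner_sum]
  refine Finset.sum_congr rfl fun m _ => Finset.sum_congr rfl fun n _ => ?_
  rw [c.hT.herm m n _ _ _ (tstIs (kil_tst hX (hu m) n))]
  refine congrArg (fun f => inner ℂ v (c.t m n f w)) (funext fun x => ?_)
  exact Complex.conj_ofReal _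

theorem lin (h : ∀ v w, inner ℂ (Y v) w = inner ℂ v (Y' w)) (v w : D) (z : ℂ) :
    Y (v + z • w) = Y v + z • Y w :=
  ext_inner_right ℂ fun y => by
    rw [h, inner_add_left, inner_add_left, inner_smul_left, inner_smul_left, h, h]

theorem sub (h : c.Lo K Y Y') (v w : D) : Y (v - w) = Y v - Y w := by
  simpa [sub_eq_add_neg] using lin h.adj v w (-1)

theorem adj' (h : c.Lo K Y Y') (v w : D) : inner ℂ (Y' v) w = inner ℂ v (Y w) := by
  rw [← inner_conj_symm, ← h.adj, inner_conj_symm]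

theorem symm (h : c.Lo K Y Y') : c.Lo K Y' Y :=
  ⟨adj' h, fun m n g v hg => ext_inner_right ℂ fun y => by
    rw [c.hT.herm m n g _ _ hg.1, adj' h, adj' h, c.hT.herm m n g _ _ hg.1,
      h.loc m n _ y (in_bar hg)]⟩

theorem lom (hK : K ⊆ K') (h : c.Lo K Y Y') : c.Lo K' Y Y' :=
  ⟨h.adj, fun m n g v hg => h.loc m n g v
    ⟨hg.1, hg.2.1, hg.2.2.trans (Set.compl_subset_compl.2 (jc_mono hK))⟩⟩

theorem mul (h : c.Lo K Y Y') (h' : c.Lo K Z Z') :
    c.Lo K (fun v => Y (Z v)) fun v => Z' (Y' v) :=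
  ⟨fun v w => by rw [h.adj, h'.adj], fun m n g v hg => by rw [h.loc m n g _ hg, h'.loc m n g _ hg]⟩

theorem qf {A B : Fld D} {f : Fn} (hA : c.Q.fld A) (h : IsAdj A B) (hf : CS f)
    (hK : tsupport f ⊆ K) : c.Lo K (A f) (B (bar f)) :=
  ⟨fun v w => h f v w hf.1, fun m n g v hg => c.hT.loc m n A g f v hA hg.1 hf.1 (sep hK hg)⟩

theorem tlin (m n : Ix) {g : Fn} (hg : IsTest g) (v w : D) (z : ℂ) :
    c.t m n g (v + z • w) = c.t m n g v + z • c.t m n g w :=
  lin (fun v w => c.hT.herm m n g v w hg) v w z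

theorem al (h : Al c.Q Set.univ Y Y') : ∃ K, IsCompact K ∧ c.Lo K Y Y' := by
  induction h with
  | one => exact ⟨∅, isCompact_empty, fun _ _ => rfl, fun _ _ _ _ _ => rfl⟩
  | add X X' Y Y' _ _ h1 h2 =>
    obtain ⟨K, k1, h1⟩ := h1
    obtain ⟨K', k2, h2⟩ := h2
    have h3 := lom (K' := K ∪ K') Set.subset_union_left h1
    have h4 := lom (K' := K ∪ K') Set.subset_union_right h2
    refine ⟨K ∪ K', k1.union k2, fun v w => ?_, fun m n g v hg => ?_⟩
    · rw [inner_add_left, inner_add_right, h1.adj, h2.adj]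
    · rw [← h3.loc m n g v hg, ← h4.loc m n g v hg]
      simpa using tlin (c := c) m n hg.1 (X v) (Y v) 1
  | smul z X X' _ h1 =>
    obtain ⟨K, k1, h1⟩ := h1
    refine ⟨K, k1, fun v w => ?_, fun m n g v hg => ?_⟩
    · rw [inner_smul_left, inner_smul_right, h1.adj]
      rfl
    · have h2 := tlin (c := c) m n hg.1 0 0 1
      have h3 := tlin (c := c) m n hg.1 0 (X v) z
      rw [one_smul, one_smul, add_zero, left_eq_add] at h2
      rw [← h1.loc m n g v hg]
      simpa [h2] using h3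
  | fld A B g X X' hA _ hAB hg _ h1 =>
    obtain ⟨K, k1, h1⟩ := h1
    exact ⟨tsupport g ∪ K, hg.2.1.isCompact.union k1,
      mul (qf hA hAB ⟨hg.1, hg.2.1⟩ Set.subset_union_left) (lom Set.subset_union_right h1)⟩

end Ba

open Ba in
/-- **row BA** -/
theorem ba_row (c : Cx D) : BA c where
  U1 := Uone
  surj s L a v hs hL := ⟨c.Q.U s⁻¹ (linv L) (yinv s L a) v, by
    rw [c.mul s L a s⁻¹ (linv L) _ v hs (inv_pos.2 hs) hL (isLor_linv hL), linv_id hL,
      mul_inv_cancel₀ hs.ne', sim_right hs hL, Uone]⟩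
  chadj _ _ v w hu hX := chadj hu hX v w
  chlin u X X' r v hu hX hX' := by
    rw [Cx.Ch, Cx.Ch, Cx.Ch, ← smt_add c.hT (fun m n => kil_tst hX (hu m) n)
      fun m n => kil_tst hX' (hu m) n]
    refine congrArg (fun F => smt c.t F v) ?_
    funext m n x
    ring
  chv _ _ v w z hu hX := lin (chadj hu hX) v w z
  chtm g X v _ _ := by
    rw [Cx.Ch, smt, Finset.sum_eq_single o]
    · simp only [tm, if_true]
    · refine fun m _ hm => Finset.sum_eq_zero fun n _ => ?_
      simp only [tm, if_neg hm, mul_zero]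
      exact t_zero c.hT m n v
    · exact fun h => absurd (Finset.mem_univ _) h
  mono K K' u hK h := by
    obtain ⟨h1, Ξ, h2, ⟨R, h3⟩, h4⟩ := h
    exact ⟨h1, Ξ, h2, ⟨R, fun z hz => h3 z (jc_mono hK hz)⟩, fun z hz => h4 z (jc_mono hK hz)⟩
  lov _ _ _ v w z h := lin h.adj v w z
  symm _ _ _ := symm
  lom _ _ _ _ := lom
  mul _ _ _ _ _ := mul
  der K u X Y Y' Z v h := by
    simp only [Cx.dl, sub h]
    abel
  dladj K u X Y Y' v w hu hX h := by
    simp only [Cx.dl, inner_sub_left, inner_sub_right, h.adj, chadj hu hX]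
    ring
  fld K P P' f h hf hK := ⟨fun v w => h.adj f v w hf, fun m n g v hg =>
    (h.loct m n f g v hf ⟨hg.1, hg.2.1⟩ (sep_symm (sep hK hg))).symm⟩
  qf _ _ _ _ := qf
  al _ _ := Ba.al

end

end Vale.Agent.P352X.CA
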