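import Vale.Agent.P352X.CA.Spec
import Vale.Agent.P352X.Api3d

/-!
# P352X, block CA, row BDR: anisotropic scaling
-/

set_option linter.all false

namespace Vale.Agent.P352X.CA

open Vale.Agent.P352 Vale.Agent.P352.GF Vale.Agent.P352.BW Vale.Agent.P352.H246
open TPD (Lsc pS)

theorem BDR.norm_le {r s : ℝ} (r0 : 0 < r) (r1 : r ≤ 1) (s0 : 0 < s) (s1 : s ≤ 1) (q : V) :
    ‖scp r s q‖ ≤ 4 * ‖q‖ := by
  have h := Real.sqrt_le_one.2 (mul_le_one₀ r1 s0.le s1)
  have h1 := mul_le_of_le_one_left (abs_nonneg (al q)) r1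
  have h2 := mul_le_of_le_one_left (abs_nonneg (be q)) s1
  have h3 := mul_le_of_le_one_left (norm_nonneg (tx q)) h
  refine (norm_pt_le _ _ _).trans ?_
  rw [abs_mul, abs_mul, abs_of_pos r0, abs_of_pos s0, norm_smul, Real.norm_of_nonneg
    (Real.sqrt_nonneg _)]
  linarith [abs_al_le q, abs_be_le q, norm_tx_le q]

variable {D : Type*} [NormedAddCommGroup D] [InnerProductSpace ℂ D]

theorem bdr_row (c : Cx D) (h : RHO c) : BDR c := fun y f hy => by
  obtain ⟨C, M, -, hC⟩ := h.bd y hy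
  obtain ⟨m, C', -, hd⟩ := ft_decay M
  refine ⟨C * (4 ^ M * (C' * sn m f)), fun r s r0 r1 s0 s1 => ?_⟩
  rw [mul_div_assoc]
  refine hC _ _ fun p _ => ?_
  have e : ev (pS (Real.sqrt (r * s)) (Lsc r s) f) = fun z => ev f (scp r s z) := funext fun z =>
    (TPD.pS_apply (Real.sqrt_pos.2 (mul_pos r0 s0)) (Grp.lsc r0 s0).1 f z).trans
      (congrArg f ((Grp.lsc r0 s0).2 z))
  have hp := BDR.norm_le s0 s1 r0 r1 (scp s⁻¹ r⁻¹ p)
  rw [scp_scp _ s0.le r0.le, mul_inv_cancel₀ s0.ne', mul_inv_cancel₀ r0.ne', scp_one] at hp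
  have h4 : (1 + ‖p‖) ^ M ≤ 4 ^ M * (1 + ‖scp s⁻¹ r⁻¹ p‖) ^ M := by
    rw [← mul_pow]
    exact pow_le_pow_left₀ (by positivity) (by linarith) M
  rw [e, ft_scp r0 s0, norm_mul, Complex.norm_real, Real.norm_of_nonneg (by positivity),
    mul_left_comm, div_eq_inv_mul]
  refine mul_le_mul_of_nonneg_left ((mul_le_mul_of_nonneg_right h4 (norm_nonneg _)).trans ?_)
    (by positivity)
  rw [mul_assoc]
  exact mul_le_mul_of_nonneg_left (hd f _) (by positivity)

end Vale.Agent.P352X.CA
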