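import Vale.Agent.P352X.CA.Spec
import Vale.Agent.P352X.Api2b

/-!
# P352X, block CA, row CLA: the charges preserve locality
-/

set_option linter.all false

open Set

namespace Vale.Agent.P352X.CA

open Vale.Agent.P352 Vale.Agent.P352.GF Vale.Agent.P352.H246
open Vale.Agent.P352.H496 Vale.Agent.P352.H755
open Vale.Agent.P352.SubConf (IsKil)
open Complex (I)

variable {D : Type*} [NormedAddCommGroup D] [InnerProductSpace ℂ D]

namespace Cla

/-- operators with an adjoint are linear -/
theorem lin_of_adj {Y Y' : D → D} (h : ∀ v w, inner ℂ (Y v) w = inner ℂ v (Y' w)) :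
    IsLinearMap ℂ Y :=
  ⟨fun v w => ext_inner_right ℂ fun z => by simp only [h, inner_add_left],
    fun a v => ext_inner_right ℂ fun z => by simp only [h, inner_smul_left]⟩

variable {c : Cx D} (g : PUG) (b : BA c) (i : IND c) {X : Ix → V → ℝ} {P P' : Fld D}
  (hX : IsKil X) (h : c.F0 P P') {f f' : Fn}

include b i hX h

theorem phi {K : Set V} {u : Ix → V → ℝ} (hK : IsCompact K) (hu : Den K u) (hf : H755.CS f)
    (hs : tsupport f ⊆ K) (v : D) : Phi c.t X P f v = c.dl u X (P f) v :=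
  i.phi K u X P f _ v hK hu hX hf hs (b.fld _ _ _ _ h hf subset_rfl)

theorem lin (hf : H755.CS f) (hf' : H755.CS f') (z : ℂ) (v : D) :
    Phi c.t X P (fun x => f x + z * f' x) v = Phi c.t X P f v + z • Phi c.t X P f' v := by
  have hK := hf.2.isCompact.union hf'.2.isCompact
  obtain ⟨u, hu⟩ := i.ex _ hK
  rw [phi b i hX h hK hu (cs_add hf hf' z) ((tsupport_add _ _).trans
      (union_subset_union_right _ tsupport_mul_subset_right)),
    phi b i hX h hK hu hf subset_union_left, phi b i hX h hK hu hf' subset_union_right, Cx.dl,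
    Cx.dl, Cx.dl, h.lin _ _ _ _ hf hf', h.lin _ _ _ _ hf hf', b.chv _ _ _ _ _ hu.1 hX, smul_sub]
  abel

include g in
/-- the commutator commutes with the operators that are local relative to `P` and `t` -/
theorem loc {C : D → D} (hC : IsLinearMap ℂ C) {S : Set V} (hS : IsCompact S)
    (h1 : ∀ f v, H755.CS f → tsupport f ⊆ cc S → P f (C v) = C (P f v))
    (h2 : ∀ m n f v, H755.CS f → tsupport f ⊆ cc S → c.t m n f (C v) = C (c.t m n f v))
    (hf : H755.CS f) (hs : tsupport f ⊆ cc S) (v : D) :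
    c.iP X P f (C v) = C (c.iP X P f v) := by
  rw [Cx.iP, Cx.iP, hC.map_smul]
  refine congrArg _ (Ap.in_ind (O := cc S) (P := fun f => Phi c.t X P f (C v) = C (Phi c.t X P f v))
    ?_ (fun f f' a a' e e' => ?_) (fun x hx => ?_) ⟨hf.1, hf.2, hs⟩)
  · have z : ∀ v, Phi c.t X P (fun _ => 0) v = 0 := fun v => by
      simpa using lin b i hX h cs_zero cs_zero (-1) v
    rw [z, z, hC.map_zero]
  · have k := lin b i hX h ⟨a.1, a.2.1⟩ ⟨a'.1, a'.2.1⟩ 1
    simp only [one_mul, one_smul] at k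
    rw [k, k, e, e', hC.map_add]
  obtain ⟨ε, hε, hb⟩ := Metric.isOpen_iff.1 (H846.isOpen_cc hS) x hx
  have r0 : 0 < ε / 32 := by positivity
  obtain ⟨k, hk, ks⟩ := H846.small_ok x r0
  refine ⟨_, Metric.closedBall_mem_nhds x r0, fun f a => ?_⟩
  have e := phi b i hX h (isCompact_closedBall _ _) (g.ok _ _ hk) ⟨a.1, a.2.1⟩
    (a.2.2.trans inter_subset_left)
  have q : ∀ v, c.Ch (tm k) X (C v) = C (c.Ch (tm k) X v) := fun v => by
    rw [b.chtm _ _ _ hk.1 hX, b.chtm _ _ _ hk.1 hX]
    refine (Finset.sum_congr rfl fun n _ => ?_).trans (map_sum (hC.mk' C) _ _).symm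
    have s : tsupport (fun x => ((eta n * X n x * k x : ℝ) : ℂ)) ⊆ tsupport k :=
      closure_mono fun z hz e => hz (by simp [e])
    exact h2 _ _ _ _ ⟨(kil_tst hX hk.1 n).isTest, hk.1.2.isCompact.of_isClosed_subset
      (isClosed_tsupport _) s⟩ ((s.trans ks).trans
        ((Metric.closedBall_subset_ball (by linarith)).trans hb))
  have q' := fun v => h1 f v ⟨a.1, a.2.1⟩ (a.2.2.trans inter_subset_right)
  rw [e, e, Cx.dl, Cx.dl, q', q, q, q', hC.map_sub]

end Cla

open Cla in
/-- **CLA** -/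
theorem cla_row (c : Cx D) (g : PUG) (b : BA c) (i : IND c) : CLA c := by
  intro X P P' hX h h'
  refine ⟨fun f f' z v hf hf' => ?_, fun f v w hf => ?_, fun C f f' v hC hf hf' s => ?_,
    fun m n f f' v hf hf' s => ?_⟩
  · rw [Cx.iP, Cx.iP, Cx.iP, lin b i hX h hf hf', smul_add, smul_comm I z]
  · obtain ⟨u, hu⟩ := i.ex _ hf.2.isCompact
    rw [Cx.iP, Cx.iP, phi b i hX h hf.2.isCompact hu hf subset_rfl,
      phi b i hX h' hf.2.isCompact hu (cs_bar hf) (tsupport_bar f).le, inner_smul_left,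
      inner_smul_right, b.dladj _ _ _ _ _ _ _ hu.1 hX (b.fld _ _ _ _ h hf subset_rfl),
      Complex.conj_I, neg_mul_neg]
  · exact loc g b i hX h ⟨H755.fadd hC hf'.1, H755.fsmul hC hf'.1⟩ hf'.2.isCompact
      (fun f v a s => h.loc C f f' v hC a hf' (H15.sep_symm fun x hx y hy => s hy x hx))
      (fun m n f v a s => c.hT.loc m n C f f' v hC a.1 hf'.1
        (H15.sep_symm fun x hx y hy => s hy x hx))
      hf (fun y hy x hx => H15.sep_symm s x hx y hy) v
  · exact loc g b i hX h (lin_of_adj fun v w => c.hT.herm m n f' v w hf'.1) hf'.2.isCompact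
      (fun f v a s => h.loct m n f f' v a hf' (H15.sep_symm fun x hx y hy => s hy x hx))
      (fun k l f v a s => c.self k l m n f f' v a.1 hf'.1
        (H15.sep_symm fun x hx y hy => s hy x hx))
      hf (fun y hy x hx => H15.sep_symm s x hx y hy) v

end Vale.Agent.P352X.CA
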