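import Vale.Agent.P352X.CA.Spec
import Vale.Agent.P352X.EB.JB
import Vale.Agent.P352X.EB.ANA

/-!
# P352X, block CA, row CLB: the Bose fields of the theory are tempered local fields
-/

set_option linter.all false

open Filter Topology
open scoped SchwartzMap ComplexConjugate

namespace Vale.Agent.P352X.CA

open Vale.Agent.P352 Vale.Agent.P352.GF Vale.Agent.P352.H246 Vale.Agent.P352.H755
open Vale.Agent.P352.SubConf (IsAdj)
open Vale.Agent.P352.H148 (Od)
open EB (snw)
open EB.JBp

noncomputable section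

variable {D : Type*} [NormedAddCommGroup D] [InnerProductSpace ℂ D]

namespace CLB

variable {Λ : Type*} (P : Λ → Fld D)

/-- words -/
def wr (u : List (Λ × Sch)) (v : D) : D := u.foldr (fun p w => P p.1 (ev p.2) w) v

theorem wr_app (u u' : List (Λ × Sch)) (v : D) : wr P (u ++ u') v = wr P u (wr P u' v) :=
  List.foldr_append

variable {P} {P' : Λ → Fld D} (h : ∀ a, Od (P a) (P' a))

include h

theorem wr_adj (u : List (Λ × Sch)) (w : D) :
    ∃ w', ∀ v, inner ℂ w (wr P u v) = inner ℂ w' v := by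
  induction u generalizing w with
  | nil => exact ⟨w, fun v => rfl⟩
  | cons p u ih =>
    obtain ⟨w', k⟩ := ih (P' p.1 (bar (ev p.2)) w)
    refine ⟨w', fun v => ?_⟩
    rw [← k, ← inner_conj_symm, ← inner_conj_symm (P' _ _ _), ← (h p.1).adj _ _ _ ⟨_, rfl⟩]
    rfl

/-- the last slot -/
def sl (a : Λ) (v : D) (u : List (Λ × Sch)) : Sch →ₗ[ℂ] D :=
  mkL (fun f => wr P u (P a (ev f) v)) fun f g z => ext_inner_left ℂ fun w => by
    obtain ⟨w', k⟩ := wr_adj h u w
    rw [inner_add_right, inner_smul_right, k, k, k, ← inner_smul_right, ← inner_add_right,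
      ← (h a).lin _ _ z v ⟨f, rfl⟩ ⟨g, rfl⟩]
    rfl

theorem sl_cont (a : Λ) (v : D) (u : List (Λ × Sch)) : Continuous (sl h a v u) := by
  haveI := EB.ana_row.barr
  refine cont_of_weak _ dense_univ fun z _ => ?_
  obtain ⟨w', k⟩ := wr_adj h u z
  exact (continuous_const.inner ((h a).cont v)).congr fun f => (k _).symm

/-- joint bounds for words of operator valued distributions -/
theorem joint (ls : List Λ) (v : D) : ∃ (m : ℕ) (C : ℝ), 0 ≤ C ∧
    ∀ u : List (Λ × Sch), u.map Prod.fst = ls → ‖wr P u v‖ ≤ C * snw m u := by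
  induction ls using List.reverseRecOn generalizing v with
  | nil =>
    refine ⟨0, ‖v‖, norm_nonneg _, fun u hu => ?_⟩
    obtain rfl := List.map_eq_nil_iff.1 hu
    simp [snw, wr]
  | append_singleton ls a ih =>
    haveI := EB.ana_row.baire
    obtain ⟨m, k, C, hC, e⟩ := ubp
      (fun u : {u : List (Λ × Sch) // u.map Prod.fst = ls} => sl h a v u.1)
      (fun u => sl_cont h a v u.1) (fun m u => m * snw m u.1) fun f => by
        obtain ⟨m, C, hC, e⟩ := ih (P a (ev f) v)
        refine ⟨max m ⌈C⌉₊, fun u => (e u.1 u.2).trans ?_⟩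
        refine mul_le_mul ((Nat.le_ceil C).trans ?_) (snw_mono (le_max_left _ _) _) (snw0 _ _)
          (Nat.cast_nonneg _)
        exact_mod_cast le_max_right _ _
    refine ⟨max m k, C * m, by positivity, fun u hu => ?_⟩
    obtain ⟨u', w, rfl, hu', hw⟩ := List.map_eq_append_iff.1 hu
    obtain ⟨p, w', rfl, rfl, hw'⟩ := List.map_eq_cons_iff.1 hw
    obtain rfl := List.map_eq_nil_iff.1 hw'
    rw [wr_app, snw_snoc]
    refine (e ⟨u', hu'⟩ p.2).trans ?_
    calc C * (m * snw m u') * sn k p.2 = C * m * (snw m u' * sn k p.2) := by ring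
      _ ≤ _ := mul_le_mul_of_nonneg_left (mul_le_mul (snw_mono (le_max_left _ _) _)
        (sn_mono (le_max_right _ _) _) (sn0 _ _) (snw0 _ _)) (by positivity)

omit h

/-- an operator valued distribution satisfies the joint bounds -/
theorem jb (c : Cx D) {A B : Fld D} (h : Od A B) : c.JB A := fun ls rs v => by
  obtain ⟨m, C, hC, e⟩ := joint (P := fun a : Option I2 => a.elim A fun i => c.t i.1 i.2)
    (P' := fun a => a.elim B fun i => c.t i.1 i.2) (fun a => by
      cases a
      exacts [h, ⟨c.hT.lin _ _, c.hT.cont _ _, c.hT.herm _ _⟩])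
    (ls.map some ++ none :: rs.map some) v
  refine ⟨m, C, hC, fun u u' f hu hu' _ => ?_⟩
  have k := e (u.map (Prod.map some id) ++ (none, f) :: u'.map (Prod.map some id))
    (by simp [← hu, ← hu', Function.comp_def])
  simpa [wr, Cx.ap, snw, List.foldr_map, Function.comp_def, mul_assoc] using k

theorem f0 (c : Cx D) {A B : Fld D} (hA : c.Q.fld A) (h : IsAdj A B)
    (l : ∀ C f g v, c.Q.fld C → IsTest f → IsTest g → Sep f g → A f (C g v) = C g (A f v)) :
    c.F0 A B :=
  ⟨fun f g z v hf hg => c.Q.lin A f g z v hA hf.1 hg.1, fun f v w hf => h f v w hf.1,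
    fun C f g v hC hf hg => l C f g v hC hf.1 hg.1,
    fun m n f g v hf hg s => (c.hT.loc m n A g f v hA hg.1 hf.1 (H15.sep_symm s)).symm⟩

end CLB

open CLB

/-- **CLB** -/
theorem clb_row (c : Cx D) (b : BA c) : CLB c := fun A B hA hB h => by
  have a := c.Q.bose_fld A hA
  refine ⟨⟨f0 c a h fun C f g v => c.Q.loc A C f g v hA, f0 c hB (H755.adj_symm h) ?_,
    jb c ⟨fun f g z v => c.Q.lin A f g z v a, fun v => c.Q.cont A v a, h⟩,
    jb c ⟨fun f g z v => c.Q.lin B f g z v hB, fun v => c.Q.cont B v hB, H755.adj_symm h⟩⟩,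
    fun y f v hf => c.Q.transl A y f v a hf.1, fun y f v hf => c.Q.transl B y f v hB hf.1⟩
  intro C f g v hC hf hg s
  obtain ⟨C', hC', k⟩ := c.Q.adj C hC
  refine ext_inner_right ℂ fun w => ?_
  rw [H755.adj_symm h _ _ _ hf, k _ _ _ hg, k _ _ _ hg, H755.adj_symm h _ _ _ hf,
    c.Q.loc A C' _ _ w hA hC' (isTest_bar hf) (isTest_bar hg)]
  rwa [GF.Sep, tsupport_bar, tsupport_bar]

end

end Vale.Agent.P352X.CA
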