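import Vale.Agent.P352X.CA.Spec
import Vale.Agent.P352X.Api2b
import Vale.Agent.P352X.R.LIE

/-!
# P352X, block CA, row CLM: operations on local fields
-/

set_option linter.all false

open MeasureTheory Filter Topology
open scoped SchwartzMap ComplexConjugate ContDiff

namespace Vale.Agent.P352X.CA

open Vale.Agent.P352 Vale.Agent.P352.GF Vale.Agent.P352.BW Vale.Agent.P352.H246
open Vale.Agent.P352.H496 Vale.Agent.P352.H755
open EB (snw)

noncomputable section

variable {D : Type*} [NormedAddCommGroup D] [InnerProductSpace ℂ D] {c : Cx D}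

namespace Clm

/-- operators with an adjoint are linear -/
theorem lin_adj {Y Y' : D → D} (h : ∀ v w, inner ℂ (Y v) w = inner ℂ v (Y' w)) (v w : D) (z : ℂ) :
    Y (v + z • w) = Y v + z • Y w :=
  ext_inner_right ℂ fun u => by
    rw [h, inner_add_left, inner_smul_left, inner_add_left, inner_smul_left, h, h]

theorem zero_adj {Y Y' : D → D} (h : ∀ v w, inner ℂ (Y v) w = inner ℂ v (Y' w)) : Y 0 = 0 :=
  ext_inner_right ℂ fun u => by rw [h, inner_zero_left, inner_zero_left]

theorem t_lin (m n : Ix) {g : Fn} (hg : IsTest g) (v w : D) (z : ℂ) :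
    c.t m n g (v + z • w) = c.t m n g v + z • c.t m n g w :=
  lin_adj (fun v w => c.hT.herm m n g v w hg) v w z

theorem t_zero (m n : Ix) {g : Fn} (hg : IsTest g) : c.t m n g 0 = 0 :=
  zero_adj fun v w => c.hT.herm m n g v w hg

theorem f_lin {C : Fld D} (hC : c.Q.fld C) {g : Fn} (hg : IsTest g) (v w : D) (z : ℂ) :
    C g (v + z • w) = C g v + z • C g w :=
  let ⟨_, _, h⟩ := c.Q.adj C hC
  lin_adj (fun v w => h g v w hg) v w z

theorem f_zero {C : Fld D} (hC : c.Q.fld C) {g : Fn} (hg : IsTest g) : C g 0 = 0 :=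
  let ⟨_, _, h⟩ := c.Q.adj C hC
  zero_adj fun v w => h g v w hg

theorem ap_lin (u : List (I2 × Sch)) (v w : D) (z : ℂ) :
    c.ap u (v + z • w) = c.ap u v + z • c.ap u w := by
  induction u with
  | nil => rfl
  | cons p u ih =>
    show c.t _ _ _ (c.ap u _) = c.t _ _ _ (c.ap u v) + z • c.t _ _ _ (c.ap u w)
    rw [ih, t_lin _ _ ⟨p.2, rfl⟩]

theorem ap_zero (u : List (I2 × Sch)) : c.ap u (0 : D) = 0 := by
  induction u with
  | nil => rfl
  | cons p u ih =>
    show c.t _ _ _ (c.ap u _) = 0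
    rw [ih, t_zero _ _ ⟨p.2, rfl⟩]

theorem lor_one : IsLor GF.one := by
  refine ⟨fun m n => ?_, by simp [GF.one, bas], ?_⟩
  · simp only [GF.mdot, GF.one, bas]
    by_cases h : n = m
    · subst h; simp
    · rw [if_neg h]
      refine Finset.sum_eq_zero fun k _ => ?_
      by_cases h1 : k = m
      · subst h1; simp [Ne.symm h]
      · simp [h1]
  · have : Matrix.of GF.one = (1 : Matrix Ix Ix ℝ) := by
      ext m n
      simp [GF.one, bas, Matrix.one_apply, eq_comm]
    exact (congrArg Matrix.det this).trans Matrix.det_one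

theorem iso_lin {U : D → D} (h : ∀ v w, inner ℂ (U v) (U w) = inner ℂ v w) (v w : D) (z : ℂ) :
    U (v + z • w) = U v + z • U w := by
  rw [← sub_eq_zero, ← inner_self_eq_zero (𝕜 := ℂ)]
  simp only [inner_sub_left, inner_sub_right, inner_add_left, inner_add_right, inner_smul_left,
    inner_smul_right, h]
  ring

theorem iso_zero {U : D → D} (h : ∀ v w, inner ℂ (U v) (U w) = inner ℂ v w) : U 0 = 0 := by
  rw [← inner_self_eq_zero (𝕜 := ℂ), h, inner_zero_left]

theorem snw_nonneg (m : ℕ) (u : List (I2 × Sch)) : 0 ≤ snw m u :=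
  List.prod_nonneg fun x hx => by
    obtain ⟨p, -, rfl⟩ := List.mem_map.1 hx
    exact Lie.sn_nonneg _ _

theorem snw_mono {k m : ℕ} (h : k ≤ m) (u : List (I2 × Sch)) : snw k u ≤ snw m u := by
  induction u with
  | nil => exact le_rfl
  | cons p u ih =>
    show sn k p.2 * snw k u ≤ sn m p.2 * snw m u
    exact mul_le_mul (Lie.sn_mono h _) ih (snw_nonneg _ _) (Lie.sn_nonneg _ _)

theorem tri_mono {k m : ℕ} (h : k ≤ m) {C : ℝ} (hC : 0 ≤ C) (u u' : List (I2 × Sch)) (f : Sch) :
    C * snw k u * sn k f * snw k u' ≤ C * snw m u * sn m f * snw m u' := by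
  have := snw_nonneg k u
  have := snw_nonneg m u
  have := snw_nonneg k u'
  have := Lie.sn_nonneg k f
  have := Lie.sn_nonneg m f
  have := snw_mono h u
  have := snw_mono h u'
  have := Lie.sn_mono h f
  gcongr

theorem cs_bar {f : Fn} (hf : CS f) : CS (bar f) := by
  obtain ⟨⟨g, rfl⟩, h⟩ := hf
  exact ⟨⟨KDa.barL g, rfl⟩, h.comp_left (g := star) (star_zero _)⟩

/-! ## zero, sums -/

theorem f0_zero : c.F0 0 0 where
  lin _ _ _ _ _ _ := by simp
  adj _ _ _ _ := by simp
  loc C f g v hC _ hg _ := (f_zero hC hg.1).symm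
  loct m n f g v _ hg _ := (t_zero m n hg.1).symm

theorem jb_zero : c.JB 0 := fun _ _ _ => ⟨0, 0, le_rfl, fun u _ _ _ _ _ => by
  show ‖c.ap u 0‖ ≤ _
  rw [ap_zero]
  simp⟩

theorem c0_zero : c.C0 0 0 := ⟨f0_zero, f0_zero, jb_zero, jb_zero⟩

theorem cj_zero (a : V) : c.Cj 1 GF.one a 0 0 := fun _ _ _ =>
  (iso_zero fun v w => c.Q.U_inner 1 _ a v w one_pos lor_one).symm

theorem cf_zero : c.CF 0 0 := ⟨c0_zero, cj_zero, cj_zero⟩

variable {P P' R R' : Fld D}

theorem f0_add (z : ℂ) (h : c.F0 P P') (k : c.F0 R R') : c.F0 (lc P z R) (lc P' (conj z) R') where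
  lin f g y v hf hg := by
    simp only [lc, h.lin f g y v hf hg, k.lin f g y v hf hg]
    module
  adj f v w hf := by
    simp only [lc, inner_add_left, inner_add_right, inner_smul_left, inner_smul_right,
      h.adj f v w hf, k.adj f v w hf]
  loc C f g v hC hf hg s := by
    simp only [lc, f_lin hC hg.1, h.loc C f g v hC hf hg s, k.loc C f g v hC hf hg s]
  loct m n f g v hf hg s := by
    simp only [lc, t_lin m n hg.1, h.loct m n f g v hf hg s, k.loct m n f g v hf hg s]

theorem jb_add (z : ℂ) (h : c.JB P) (k : c.JB R) : c.JB (lc P z R) := fun ls rs v => by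
  obtain ⟨m, C, hC, h⟩ := h ls rs v
  obtain ⟨m', C', hC', k⟩ := k ls rs v
  refine ⟨max m m', C + ‖z‖ * C', by positivity, fun u u' f e e' hf => ?_⟩
  have a := (h u u' f e e' hf).trans (tri_mono (le_max_left m m') hC u u' f)
  have b := (k u u' f e e' hf).trans (tri_mono (le_max_right m m') hC' u u' f)
  simp only [lc, ap_lin]
  refine (norm_add_le _ _).trans ?_
  rw [norm_smul]
  have := mul_le_mul_of_nonneg_left b (norm_nonneg z)
  linarith

theorem c0_add (z : ℂ) (h : c.C0 P P') (k : c.C0 R R') : c.C0 (lc P z R) (lc P' (conj z) R') := by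
  refine ⟨f0_add z h.l k.l, ?_, jb_add z h.jl k.jl, jb_add _ h.jr k.jr⟩
  simpa only [Complex.conj_conj] using f0_add (conj z) h.r k.r

theorem cj_add (z : ℂ) {a : V} (h : c.Cj 1 GF.one a P P) (k : c.Cj 1 GF.one a R R) :
    c.Cj 1 GF.one a (lc P z R) (lc P z R) := fun f v hf => by
  simp only [lc, h f v hf, k f v hf,
    iso_lin fun v w => c.Q.U_inner 1 _ a v w one_pos lor_one]

theorem cf_add (z : ℂ) (h : c.CF P P') (k : c.CF R R') : c.CF (lc P z R) (lc P' (conj z) R') :=
  ⟨c0_add z h.toC0 k.toC0, fun a => cj_add z (h.tl a) (k.tl a),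
    fun a => cj_add _ (h.tr a) (k.tr a)⟩

theorem sum_ind (G : Fld D → Fld D → Prop) (h0 : G 0 0)
    (ha : ∀ P P' R R' (z : ℂ), G P P' → G R R' → G (lc P z R) (lc P' (conj z) R'))
    {ι : Type} (z : ι → ℂ) (P P' : ι → Fld D) (h : ∀ i, G (P i) (P' i)) (s : Finset ι) :
    G (fun f v => ∑ i ∈ s, z i • P i f v) fun f v => ∑ i ∈ s, conj (z i) • P' i f v := by
  classical
  induction s using Finset.induction_on with
  | empty => exact h0
  | insert j s hj ih =>
    have := ha _ _ _ _ (z j) ih (h j)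
    simp only [Finset.sum_insert hj]
    convert this using 1 <;> funext f v <;> simp only [lc, add_comm]

/-! ## operations on the test function -/

/-- local operations on test functions -/
structure Op (A : Fn → Fn) : Prop where
  ex : ∃ L : Sch →L[ℂ] Sch, ∀ f, ev (L f) = A (ev f)
  supp : ∀ f, tsupport (A f) ⊆ tsupport f
  bar : ∀ f, IsTest f → bar (A f) = A (bar f)

variable {A : Fn → Fn}

theorem Op.cs (o : Op A) {f : Fn} (hf : CS f) : CS (A f) := by
  obtain ⟨L, e⟩ := o.ex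
  obtain ⟨⟨g, rfl⟩, h⟩ := hf
  exact ⟨⟨L g, e g⟩, h.of_isClosed_subset (isClosed_tsupport _) (o.supp _)⟩

theorem Op.lin (o : Op A) {f g : Fn} (hf : IsTest f) (hg : IsTest g) (z : ℂ) :
    A (fun x => f x + z * g x) = fun x => A f x + z * A g x := by
  obtain ⟨L, e⟩ := o.ex
  obtain ⟨f, rfl⟩ := hf
  obtain ⟨g, rfl⟩ := hg
  have := e (f + z • g)
  rw [map_add, map_smul] at this
  rw [← e, ← e]
  exact this.symm

theorem Op.sep (o : Op A) {f g : Fn} (s : Sep f g) : Sep (A f) g := fun x hx => s x (o.supp f hx)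

theorem Op.f0 (o : Op A) (h : c.F0 P P') : c.F0 (fun f => P (A f)) fun f => P' (A f) where
  lin f g z v hf hg := by
    simp only [o.lin hf.1 hg.1]
    exact h.lin _ _ z v (o.cs hf) (o.cs hg)
  adj f v w hf := by
    simp only [← o.bar f hf.1]
    exact h.adj _ v w (o.cs hf)
  loc C f g v hC hf hg s := h.loc C _ g v hC (o.cs hf) hg (o.sep s)
  loct m n f g v hf hg s := h.loct m n _ g v (o.cs hf) hg (o.sep s)

theorem Op.jb (o : Op A) (h : c.JB P) : c.JB fun f => P (A f) := fun ls rs v => by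
  obtain ⟨m, C, hC, h⟩ := h ls rs v
  obtain ⟨L, e⟩ := o.ex
  obtain ⟨C', m', hC', h'⟩ := ST.clm_sn' (L.restrictScalars ℝ) m
  refine ⟨max m m', C * C', by positivity, fun u u' f e1 e2 hf => ?_⟩
  have hc : HasCompactSupport (L f) := by
    have := (o.cs ⟨⟨f, rfl⟩, hf⟩).2
    rwa [← e] at this
  have a := h u u' (L f) e1 e2 hc
  rw [e] at a
  refine a.trans ?_
  have b : sn m (L f) ≤ C' * sn (max m m') f := by
    have := h' f
    rw [← Api4.sn_eq, ← Api4.sn_eq] at this
    exact this.trans (mul_le_mul_of_nonneg_left (Lie.sn_mono (le_max_right _ _) f) hC')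
  have := snw_nonneg m u
  have := snw_nonneg (max m m') u
  have := snw_nonneg m u'
  have := Lie.sn_nonneg m (L f)
  have := Lie.sn_nonneg (max m m') f
  have := snw_mono (le_max_left m m') u
  have := snw_mono (le_max_left m m') u'
  calc _ ≤ C * snw (max m m') u * (C' * sn (max m m') f) * snw (max m m') u' := by gcongr
    _ = _ := by ring

theorem Op.c0 (o : Op A) (h : c.C0 P P') : c.C0 (fun f => P (A f)) fun f => P' (A f) :=
  ⟨o.f0 h.l, o.f0 h.r, o.jb h.jl, o.jb h.jr⟩

theorem op_mul {q : V → ℝ} (hq : q.HasTemperateGrowth) : Op fun f x => (q x : ℂ) * f x where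
  ex := ⟨SchwartzMap.smulLeftCLM ℂ fun x => (q x : ℂ), fun f => funext fun x =>
    SchwartzMap.smulLeftCLM_apply_apply (Complex.ofRealCLM.hasTemperateGrowth.comp hq) f x⟩
  supp f := tsupport_mul_subset_right
  bar f _ := funext fun x => by simp [GF.bar]

theorem op_dv (a : V) : Op (dv a) where
  ex := ⟨KDa.dS a, KDa.ev_dS a⟩
  supp := Ap.tsupport_dv a
  bar f hf := funext fun x => by
    obtain ⟨g, rfl⟩ := hf
    exact (Ap.dv_bar (g.differentiableAt) a).symm

theorem cj_df (b : V) {a : V} (h : c.Cj 1 GF.one a P P) : c.Cj 1 GF.one a (Df b P) (Df b P) :=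
  fun f v hf => by
    have e : ∀ x, sim 1 GF.one a x = x + a := fun x => by
      funext n
      simp [sim, GF.one, bas, add_comm]
    have := h _ v ((op_dv b).cs hf)
    simp only [Df, this, e]
    congr 2
    funext x
    exact (Ap.dv_tr a b f x).symm

theorem f0_cg (h : c.F0 P P') (e : ∀ f v, CS f → R f v = P f v)
    (e' : ∀ f v, CS f → R' f v = P' f v) : c.F0 R R' where
  lin f g z v hf hg := by
    have : CS fun x => f x + z * g x := by
      obtain ⟨⟨F, rfl⟩, h1⟩ := hf
      obtain ⟨⟨G, rfl⟩, h2⟩ := hg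
      exact ⟨⟨F + z • G, rfl⟩, h1.add h2.mul_left⟩
    rw [e _ _ this, e _ _ hf, e _ _ hg, h.lin f g z v hf hg]
  adj f v w hf := by rw [e _ _ hf, e' _ _ (cs_bar hf), h.adj f v w hf]
  loc C f g v hC hf hg s := by rw [e _ _ hf, e _ _ hf, h.loc C f g v hC hf hg s]
  loct m n f g v hf hg s := by rw [e _ _ hf, e _ _ hf, h.loct m n f g v hf hg s]

theorem jb_cg (h : c.JB P) (e : ∀ f v, CS f → R f v = P f v) : c.JB R := fun ls rs v => by
  obtain ⟨m, C, hC, h⟩ := h ls rs v
  refine ⟨m, C, hC, fun u u' f e1 e2 hf => ?_⟩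
  rw [e _ _ ⟨⟨f, rfl⟩, hf⟩]
  exact h u u' f e1 e2 hf

end Clm

open Clm in
/-- **row CLM** -/
theorem clm_row (c : Cx D) : CLM c where
  zero := cf_zero
  add _ _ _ _ z := c0_add z
  addf _ _ _ _ z := cf_add z
  sum _ _ z P P' h := sum_ind c.C0 c0_zero (fun _ _ _ _ z => c0_add z) z P P' h _
  sumf _ _ z P P' h := sum_ind c.CF cf_zero (fun _ _ _ _ z => cf_add z) z P P' h _
  mul _ _ _ hq h := (op_mul hq).c0 h
  df _ _ a h := (op_dv a).c0 h
  dff _ _ a h := ⟨(op_dv a).c0 h.toC0, fun b => cj_df a (h.tl b), fun b => cj_df a (h.tr b)⟩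
  cg _ _ _ _ h e e' := ⟨f0_cg h.l e e', f0_cg h.r e' e, jb_cg h.jl e, jb_cg h.jr e'⟩

end

end Vale.Agent.P352X.CA
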