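import Vale.Agent.P352X.CA.Spec

/-!
# P352X, block CA, row DEC: the fields at the origin are translation covariant
-/

set_option linter.all false

open MeasureTheory Filter Topology
open scoped SchwartzMap ComplexConjugate ContDiff

namespace Vale.Agent.P352X.CA

open Vale.Agent.P352 Vale.Agent.P352.GF Vale.Agent.P352.BW Vale.Agent.P352.H246
open Vale.Agent.P352.H496 Vale.Agent.P352.H755
open Vale.Agent.P352.SubConf (IsAdj IsKil)

noncomputable section

namespace DECa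

lemma as0 : As (0 : Ix → V) := fun m n => by simp

lemma kd_d (a : V) : Kd (fun n x => Xd n (x + a)) a 0 1 0 :=
  ⟨as0, fun n x => by simp [Xd, GF.mdot, add_comm]⟩

lemma kd_w (a : V) {w : Ix → V} (hw : As w) :
    Kd (fun n x => Xw w n (x + a)) (fun n => ∑ m, a m * w m n) 0 0 w :=
  ⟨hw, fun n x => by
    simp only [Xw, GF.mdot, Pi.add_apply, Pi.zero_apply, Fin.sum_univ_four]
    ring⟩

lemma kd_b (a b : V) (hw : As (wd a b)) : Kd (fun n x => Xb b n (x + a))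
    (fun n => 2 * GF.mdot b a * a n - GF.mdot a a * b n) b (2 * GF.mdot a b) (wd a b) :=
  ⟨hw, fun n x => by
    simp only [Xb, wd, GF.mdot, Pi.add_apply, Fin.sum_univ_four]
    ring⟩

lemma xw0 : Xw 0 = Xc 0 := by
  funext n x
  simp [Xw, Xc]

lemma xb0 : Xb 0 = Xc 0 := by
  funext n x
  simp [Xb, Xc]

lemma vec_eq (a : V) : a = 0 + a 0 • bas 0 1 + a 1 • bas 1 1 + a 2 • bas 2 1 + a 3 • bas 3 1 := by
  funext n
  fin_cases n <;> simp [bas]

lemma xg_tr (k : Ix) (f : Fn) (a : V) : (fun x => xg k f (sim 1 GF.one a x)) =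
    fun x => xg k (fun y => f (sim 1 GF.one a y)) x + (a k : ℂ) * f (sim 1 GF.one a x) := by
  funext x
  simp only [xg, sim_one', Pi.add_apply]
  push_cast
  ring

lemma cs_xg {f : Fn} (hf : CS f) (k : Ix) : CS (xg k f) := cs_mul hf (Mq.coord k)

variable {D : Type*} [NormedAddCommGroup D] [InnerProductSpace ℂ D] {c : Cx D} {P P' : Fld D}

lemma symm (hP : c.CF P P') : c.CF P' P := ⟨⟨hP.r, hP.l, hP.jr, hP.jl⟩, hP.tr, hP.tl⟩

lemma dec0 (h : L3 c) {X : Ix → V → ℝ} {a b : V} {r : ℝ} {w : Ix → V} (hK : Kd X a b r w)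
    (hP : c.CF P P') {f : Fn} (hf : CS f) (v : D) : Sg c.t X P f v =
      (r : ℂ) • Sg c.t Xd P f v + Sg c.t (Xw w) P f v + Sg c.t (Xb b) P f v := by
  have e : X = fun n x => (fun n x => (fun n x => Xb b n x + 1 * Xw w n x) n x + r * Xd n x) n x +
      1 * Xc a n x := by
    funext n x
    rw [hK.2]
    simp only [Xb, Xw, Xd, Xc]
    ring
  have k0 := h.pk.kw w hK.1
  have k1 := kil_add (kil_b b) k0 1
  have k2 := kil_add k1 kil_d r
  rw [e, h.sg.linX _ _ 1 P P' f v k2 (h.pk.kc a) hP.l hf, h.sg.linX _ _ r P P' f v k1 kil_d hP.l hf,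
    h.sg.linX _ _ 1 P P' f v (kil_b b) k0 hP.l hf, h.tra a P P' f v hP hf]
  simp only [Complex.ofReal_one, one_smul, add_zero]
  abel

lemma trX (h : L3 c) {X : Ix → V → ℝ} (hX : IsKil X) (hP : c.CF P P') (a : V) {f : Fn} (hf : CS f)
    (v : D) : Sg c.t X P f (c.Q.U 1 GF.one a v) = c.Q.U 1 GF.one a
      (Sg c.t (fun n x => X n (x + a)) P (fun x => f (sim 1 GF.one a x)) v) := by
  have := h.cov.sg 1 GF.one a X P P' P P' one_pos H496.isLor_one hX hP.l hP.l (hP.tl a) f v hf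
  rwa [h.pk.tr] at this

lemma tl_s (h : L3 c) (hP : c.CF P P') (a : V) :
    c.Cj 1 GF.one a (Sg c.t Xd P) (Sg c.t Xd P) := by
  intro f v hf
  have hf' := cs_transl hf a
  rw [trX h kil_d hP a hf, dec0 h (kd_d a) hP hf', xw0, xb0, h.tra 0 P P' _ v hP hf']
  simp

lemma tl_w (h : L3 c) {w : Ix → V} (hw : As w) (hP : c.CF P P') (a : V) :
    c.Cj 1 GF.one a (Sg c.t (Xw w) P) (Sg c.t (Xw w) P) := by
  intro f v hf
  have hf' := cs_transl hf a
  rw [trX h (h.pk.kw w hw) hP a hf, dec0 h (kd_w a hw) hP hf', xb0, h.tra 0 P P' _ v hP hf']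
  simp

lemma tl_tb (h : L3 c) (hP : c.CF P P') (a' b a : V) :
    c.Cj 1 GF.one a (c.Tb a' b P) (c.Tb a' b P) := by
  intro f v hf
  unfold Cx.Tb
  rw [tl_s h hP a f v hf, tl_w h (h.mat.aswd a' b) hP a f v hf, U_add one_pos H496.isLor_one,
    U_smul one_pos H496.isLor_one]

lemma tb_sum (h : L3 c) (hP : c.CF P P') (a b : V) {f : Fn} (hf : CS f) (v : D) :
    c.Tb a b P f v = ∑ k, (a k : ℂ) • c.Tb (bas k 1) b P f v := by
  have h0 : c.Tb 0 b P f v = 0 := by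
    have := h.sg.tba 0 0 (-1) b P P' f v hP.l hf
    simpa using this
  conv_lhs => rw [vec_eq a]
  rw [h.sg.tba _ _ _ b P P' f v hP.l hf, h.sg.tba _ _ _ b P P' f v hP.l hf,
    h.sg.tba _ _ _ b P P' f v hP.l hf, h.sg.tba _ _ _ b P P' f v hP.l hf, h0, Fin.sum_univ_four,
    zero_add]

lemma tl_k (h : L3 c) (hP : c.CF P P') (b a : V) :
    c.Cj 1 GF.one a (c.Kb b P) (c.Kb b P) := by
  intro f v hf
  have hf' := cs_transl hf a
  have e1 : ∀ k, c.Tb (bas k 1) b P (xg k f) (c.Q.U 1 GF.one a v) = c.Q.U 1 GF.one a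
      (c.Tb (bas k 1) b P (xg k fun y => f (sim 1 GF.one a y)) v +
        (a k : ℂ) • c.Tb (bas k 1) b P (fun y => f (sim 1 GF.one a y)) v) := by
    intro k
    rw [tl_tb h hP _ b a _ v (cs_xg hf k), xg_tr,
      (h.sg.tb _ b P P' hP.toC0).l.lin _ _ _ v (cs_xg hf' k) hf']
  have e2 : Sg c.t (fun n x => Xb b n (x + a)) P (fun y => f (sim 1 GF.one a y)) v =
      c.Kb b P (fun y => f (sim 1 GF.one a y)) v +
      ∑ k, (c.Tb (bas k 1) b P (xg k fun y => f (sim 1 GF.one a y)) v +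
        (a k : ℂ) • c.Tb (bas k 1) b P (fun y => f (sim 1 GF.one a y)) v) := by
    rw [dec0 h (kd_b a b (h.mat.aswd a b)) hP hf', Finset.sum_add_distrib, ← tb_sum h hP a b hf' v]
    unfold Cx.Kb
    simp only [Cx.Tb]
    abel
  show Sg c.t (Xb b) P f _ - ∑ k, c.Tb (bas k 1) b P (xg k f) _ = _
  rw [trX h (kil_b b) hP a hf, e2, U_add one_pos H496.isLor_one, U_sum']
  simp only [e1]
  abel

end DECa

open DECa in
/-- row DEC -/
theorem dec_row {D : Type*} [NormedAddCommGroup D] [InnerProductSpace ℂ D] (c : Cx D) (h : L3 c) :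
    DEC c where
  s P P' hP := ⟨h.sg.c0 _ P P' kil_d hP.toC0, tl_s h hP, tl_s h (symm hP)⟩
  w w P P' hw hP := ⟨h.sg.c0 _ P P' (h.pk.kw w hw) hP.toC0, tl_w h hw hP, tl_w h hw (symm hP)⟩
  k b P P' hP := ⟨h.sg.kb b P P' hP.toC0, tl_k h hP b, tl_k h (symm hP) b⟩
  dec X a b r w P P' f v hK hP hf := by
    rw [dec0 h hK hP hf]
    unfold Cx.Kb
    abel

end

end Vale.Agent.P352X.CA
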