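import Vale.Agent.P352X.CA.Spec

/-!
# P352X, block CA, row DER: the generators of the similitudes
-/

set_option linter.all false

open Filter Topology

namespace Vale.Agent.P352X.CA

open Vale.Agent.P352 Vale.Agent.P352.GF Vale.Agent.P352.H496
open TPD (pS TT pS_apply)
open KDa (dS mS mS_apply pd_ev)
open Complex (I)

noncomputable section

namespace DER

/-- the linear map of a matrix -/
def ml : (Ix → V) →L[ℝ] V →L[ℝ] V :=
  ∑ m, ContinuousLinearMap.smulRightL ℝ V V (.proj m) ∘L .proj m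

lemma ml_apply (L : Ix → V) (x : V) (n : Ix) : ml L x n = ∑ m, x m * L m n := by
  simp [ml, Finset.sum_apply]

lemma ml_one : ml GF.one = 1 := by
  ext x n
  simp [ml_apply, GF.one, bas]

lemma dS_apply (a : V) (f : Sch) (x : V) : dS a f x = fderiv ℝ f x a := rfl

lemma fd_sum (f : Sch) (x a : V) : fderiv ℝ f x a = ∑ n, (a n : ℂ) * fderiv ℝ f x (bas n 1) := by
  simpa only [dv, pd_ev] using show fderiv ℝ f x a = _ from congrFun (KDa.ev_dS a f) x

lemma pS_one (f : Sch) : pS 1 GF.one f = f := by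
  ext x
  rw [pS_apply one_pos H496.isLor_one]
  exact congrArg f (funext fun n => by simp [sim, GF.one, bas])

variable {D : Type*} [NormedAddCommGroup D] [InnerProductSpace ℂ D] {c : Cx D} {y : TT D} {f : Sch}

lemma nl (h : RHO c) (t : c.TC y) (n : Nl (ev f)) : y f = 0 := by
  obtain ⟨C, M, -, k⟩ := h.bd y t
  simpa using k f 0 fun p hp => by simp [n p hp]

lemma xd (h : L1 c) (t : c.TC y) (z : Z0 (ev f)) (m n : Ix) :
    y (mS (.proj m) (dS (bas n 1) f)) =
      (I * e0 m) • y (dS (bas n 1) f) - (GF.one m n : ℂ) • y f := by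
  have e : (fun x => xg m (ev f) x - I * e0 m * ev f x) = ev (mS (.proj m) f - (I * e0 m) • f) :=
    funext fun x => show _ = mS _ f x - _ by rw [mS_apply]; rfl
  have k := h.nul.pd n _ ⟨_, e.symm⟩ (h.nul.z0 m _ ⟨f, rfl⟩ z)
  rw [eq_sub_iff_add_eq, ← sub_eq_zero, ← map_smul, ← map_smul, ← map_add, ← map_sub]
  refine nl h.rho t (Eq.mp (congrArg Nl (funext fun x => ?_)) k)
  have d := (f.differentiableAt (x := x)).hasFDerivAt
  have d' := (((Complex.ofRealCLM ∘L ContinuousLinearMap.proj m : V →L[ℝ] ℂ).hasFDerivAt.mul d).sub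
    (d.const_mul (I * e0 m))).fderiv
  rw [e, pd_ev, show ⇑(mS (.proj m) f - (I * e0 m) • f) = _ from e.symm]
  refine (congrArg (· (bas n 1)) d').trans ?_
  show _ = mS _ _ x + _ * f x - _ * dS _ f x
  rw [mS_apply, dS_apply]
  by_cases q : m = n <;> simp [GF.one, bas, q, eq_comm] <;> ring

/-- the derivative of the state -/
lemma der (h : L1 c) (t : c.TC y) (z : Z0 (ev f)) {s : ℝ → ℝ} {L : ℝ → Ix → V} {r : ℝ} {w : Ix → V}
    (s0 : s 0 = 1) (L0 : L 0 = GF.one) (p : ∀ e, 0 < s e ∧ IsLor (L e)) (a : As w)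
    (ds : HasDerivAt s r 0) (dL : ∀ m n, HasDerivAt (fun e => L e m n) (w m n) 0) :
    HasDerivAt (fun e => y (pS (s e) (L e) f))
      (I • y (dS (r • e0 + w o) f) - (4 * r : ℂ) • y f) 0 := by
  have d := ds.smul (ml.hasFDerivAt.comp_hasDerivAt 0
    (hasDerivAt_pi.2 fun m => hasDerivAt_pi.2 (dL m)))
  have := (y.continuous.tendsto _).comp (h.lie.der V _ (fun _ => 0) _ 0 f
    (∑ m, ∑ n, ((r * GF.one m n + w m n : ℝ) : ℂ) • mS (.proj m) (dS (bas n 1) f))
    (fun e => pS (s e) (L e) f) d (hasDerivAt_const _ _) (by simp [s0, L0, ml_one]) rfl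
    (.of_forall fun e x => by
      rw [pS_apply (p e).1 (p e).2]
      exact congrArg f (funext fun n => by simp [sim, ml_apply]))
    fun x => by
      rw [fd_sum, Finset.sum_comm]
      simp only [SchwartzMap.sum_apply, SchwartzMap.smul_apply, mS_apply, dS_apply, smul_eq_mul,
        ← mul_assoc, ← Finset.sum_mul]
      refine Finset.sum_congr rfl fun n _ => congrArg (· * _) ?_
      norm_cast
      simp [s0, L0, ml_apply, GF.one, bas, mul_add, Finset.sum_add_distrib, mul_comm, add_comm])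
  rw [hasDerivAt_iff_tendsto_slope_zero]
  convert this using 1
  · funext e
    simp only [Function.comp, zero_add, s0, L0, pS_one, y.map_smul_of_tower, map_sub]
  · have w0 : ∀ m, w m m = 0 := fun m => by
      have := a m m
      unfold eta at this
      split_ifs at this <;> linarith
    have e : dS (r • e0 + w o) f = ∑ n, ((r • e0 + w o) n : ℂ) • dS (bas n 1) f := by
      ext x
      simp only [SchwartzMap.sum_apply, SchwartzMap.smul_apply, dS_apply, smul_eq_mul, ← fd_sum]
    simp only [e, map_sum, map_smul, xd h t z, smul_sub, Finset.sum_sub_distrib, smul_smul,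
      ← Finset.sum_smul, Finset.smul_sum]
    congr 2
    · rw [Finset.sum_comm]
      refine Finset.sum_congr rfl fun n _ => ?_
      rw [← Finset.sum_smul]
      simp [e0, GF.one, bas, apply_ite, mul_comm]
    · congr 1
      simp [GF.one, bas, w0, apply_ite]

end DER

variable {D : Type*} [NormedAddCommGroup D] [InnerProductSpace ℂ D]

/-- row DER -/
theorem der_row (c : Cx D) (h : L4 c) (x : Ops c) (f0 : Sch) (z : Z0 (ev f0)) : (x.dat f0).Der := by
  intro s L r w y y' s0 L0 p a ds dL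
  have t : ∀ y : x.W, c.TC y := fun y => by
    obtain ⟨R, R', g⟩ := (x.mem _).1 y.2
    exact h.ext.tc R y g.cf.tl g.vv
  have k := fun y : x.W => DER.der h.toL1 (t y) z s0 L0 p a ds dL
  have q : ∀ y : x.W, (x.dat f0).ip (I • (x.dat f0).P (r • e0 + w o) y - (4 * r : ℂ) • y) =
      I • (y : TT D) (dS (r • e0 + w o) f0) - (4 * r : ℂ) • (y : TT D) f0 := fun y => by
    rw [map_sub, map_smul, map_smul]
    exact congrArg (fun u : TT D => I • u f0 - _) (x.hP _ y)
  refine (((k y).inner ℂ (k y')).congr_of_eventuallyEq (.of_forall fun e => ?_)).congr_deriv ?_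
  · show inner ℂ ((x.al _ _ y : TT D) f0) ((x.al _ _ y' : TT D) f0) = _
    rw [x.hal _ _ _ (p e).1 (p e).2, x.hal _ _ _ (p e).1 (p e).2]
    exact Grp.ug_inner (p e).1 (p e).2 _ _ _
  · rw [Dat.ii, Dat.ii, q, q, s0, L0, DER.pS_one, add_comm]
    rfl

end

end Vale.Agent.P352X.CA
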