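import Vale.Agent.P352X.CA.Alg

/-!
# P352X, block CA, row DIL: the dilation charge acts by the real part of the dimension
-/

set_option linter.all false

open scoped ComplexConjugate

namespace Vale.Agent.P352X.CA

variable {W H : Type*} [AddCommGroup W] [Module ℂ W] [NormedAddCommGroup H]
  [InnerProductSpace ℂ H] (A : Dat W H)

namespace DIL

theorem sub_l (y y' z : W) (c : ℂ) : A.ii (y - c • y') z = A.ii y z - conj c * A.ii y' z := by
  simp only [Dat.ii, map_sub, map_smul, inner_sub_left, inner_smul_left]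

theorem sub_r (y z z' : W) (c : ℂ) : A.ii y (z - c • z') = A.ii y z - c * A.ii y z' := by
  simp only [Dat.ii, map_sub, map_smul, inner_sub_right, inner_smul_right]

/-- `S - Re d` is antihermitian on the elements of dimension `d` -/
theorem ah (q : A.QA) {d : ℂ} {y z : W} (hy : y ∈ A.Wd d) (hz : z ∈ A.Wd d) :
    A.ii (A.S y - (d.re : ℂ) • y) z + A.ii y (A.S z - (d.re : ℂ) • z) = 0 := by
  have := q d d y hy z hz
  rw [sub_l, sub_r] at this ⊢
  rw [Complex.conj_ofReal]
  linear_combination this + A.ii y z * Complex.add_conj d + A.ii y z * Complex.ofReal_mul 2 d.re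
    + A.ii y z * d.re * Complex.ofReal_ofNat 2

theorem mem (m : A.MUL) {d : ℂ} {y : W} (hy : y ∈ A.Wd d) : A.S y - (d.re : ℂ) • y ∈ A.Wd d :=
  (A.Wd d).sub_mem (m.WS d y hy) ((A.Wd d).smul_mem _ hy)

theorem pm (c : A.QK) {d : ℂ} {y : W} (hy : y ∈ A.Wd d)
    (k : ∀ b, A.S (A.K b y) = ((d - 1).re : ℂ) • A.K b y) : A.Pm (A.S y - (d.re : ℂ) • y) :=
  fun b => by
    have := c d b y hy
    rw [k, eq_sub_iff_add_eq, Complex.sub_re, Complex.one_re, Complex.ofReal_sub,
      Complex.ofReal_one, sub_smul, one_smul, sub_add_cancel] at this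
    rw [map_sub, map_smul, ← this, sub_self]

theorem prim (m : A.MUL) (q : A.QA) (a : A.ADJ) (c : A.QK) {d : ℂ} {y : W} (hy : y ∈ A.Wd d)
    (p : A.Pm y) : A.S y - (d.re : ℂ) • y = 0 := by
  have p' := pm A c hy fun b => by rw [p b, map_zero, smul_zero]
  have h1 := ah A q hy (mem A m hy)
  have h2 := a.S _ _ p p'
  refine a.pos _ ?_
  have h3 := sub_l A (A.S y) y (A.S y - (d.re : ℂ) • y) d.re
  rw [sub_r A y (A.S _), ← h2] at h1
  rw [Complex.conj_ofReal] at h3
  linear_combination (h1 + h3) / 2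

end DIL

open DIL in
/-- **DIL** -/
theorem dil_row (h : A.Ax) (m : A.MUL) (k : A.KIL) (q : A.QA) (a : A.ADJ) (c : A.QK) : A.DIL := by
  have key : ∀ (n : ℕ) (d : ℂ), d.re < n → ∀ y ∈ A.Wd d, A.S y = (d.re : ℂ) • y := by
    intro n
    induction n with
    | zero =>
      intro d hd y hy
      rw [k.neg d (by simpa using hd), Submodule.mem_bot] at hy
      rw [hy, map_zero, smul_zero]
    | succ n ih =>
      intro d hd y hy
      have p := DIL.pm A c hy fun b => ih (d - 1) (by
        rw [Complex.sub_re, Complex.one_re]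
        push_cast at hd
        linarith) _ (m.WK d b y hy)
      have e := ah A q hy (mem A m hy)
      rw [prim A m q a c (mem A m hy) p, Dat.ii, Dat.ii, map_zero, inner_zero_right, add_zero] at e
      exact sub_eq_zero.1 (a.pos _ e)
  intro d
  exact (exists_nat_gt d.re).elim fun n hn => key n d hn

end Vale.Agent.P352X.CA
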