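import Vale.Agent.P352X.EB.Pub
import Vale.Agent.P352.H755.ChDefs
import Vale.Agent.P352.H15.NPDefs

open Filter Topology

namespace Vale.Agent.P352X

open Vale.Agent.P352.GF Vale.Agent.P352.H246 Vale.Agent.P352.SubConf Vale.Agent.P352.H755
open Vale.Agent.P352.H15 (IsSim)
open UniformSpace (Completion)

noncomputable section

variable {D : Type*} [NormedAddCommGroup D] [InnerProductSpace ℂ D]

/-- A field, as a family of operators from `D` to the Hilbert space. -/
def co (A : Fld D) : Fn → D → Completion D := fun f v => (A f v : D)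

/-- The charge of the current `X^n t_{mn}` acts on the components `P μ` (with formal adjoints
`P' μ`) as the infinitesimal conformal transformation `X` acts on a primary tensor field of rank `k`
and dimension `Δ`: the commutator of the charge with `P μ` is
`i (-X^n ∂_n P^μ - (Δ + k) / 4 (∂_n X^n) P^μ + ∑ i, (∂_n X^(μ i)) P^(μ 1, .., n, .., μ k))`. -/
def Act (t : Ix → Ix → Fld D) (X : Ix → V → ℝ) (k : ℕ) (Δ : ℝ)
    (P P' : (Fin k → Ix) → Fn → D → Completion D) : Prop :=
  ∀ μ f (w v : D) F, In Set.univ f → IsCutoff F → Tendsto (fun R =>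
    inner ℂ (chg (fun m n => co (t m n)) X (F R) w) (P μ f v) -
      inner ℂ (P' μ (bar f) w) (chg (fun m n => co (t m n)) X (F R) v)) atTop
    (𝓝 (Complex.I * inner ℂ (w : Completion D) (∑ n, P μ (pd n fun x => X n x * f x) v -
      (((Δ + k) / 4 : ℝ) : ℂ) • P μ (fun x => (∑ n, pd n (fun y => (X n y : ℂ)) x) * f x) v +
      ∑ i, ∑ n, P (Function.update μ i n) (fun x => pd n (fun y => (X (μ i) y : ℂ)) x * f x) v)))

/-- **Conformal primaries.** The `P μ` are local fields (relatively local like `A`), they form a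
tensor of rank `k` with scaling dimension `d`, and all conformal charges of `t` act on them as on a
primary field of dimension `Re d`. -/
structure Prim (Q : Theory D) (t : Ix → Ix → Fld D) (A : Fld D) (k : ℕ) (d : ℂ)
    (P P' : (Fin k → Ix) → Fn → D → Completion D) : Prop where
  loc : ∀ μ, IsLocF Q A (P μ) (P' μ)
  cov : ∀ μ (s : ℝ) L f (v z : D), 0 < s → IsLor L → IsTest f →
    inner ℂ (Q.U s L 0 z : Completion D) (P μ f (Q.U s L 0 v)) = ∑ ν : Fin k → Ix,
      (s : ℂ) ^ (4 - d) * (∏ i, L (ν i) (μ i) : ℝ) *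
        inner ℂ (z : Completion D) (P ν (fun x => f (sim s L 0 x)) v)
  act : ∀ X, IsKil X → Act t X k d.re P P'

/-- The field `A` is a finite linear combination of derivatives of conformal primaries. -/
def Desc (Q : Theory D) (t : Ix → Ix → Fld D) (A : Fld D) : Prop :=
  ∃ (n : ℕ) (k : Fin n → ℕ) (d c : Fin n → ℂ) (α : Fin n → List Ix) (μ : ∀ i, Fin (k i) → Ix)
    (P P' : ∀ i, (Fin (k i) → Ix) → Fn → D → Completion D),
    (∀ i, Prim Q t A (k i) (d i) (P i) (P' i)) ∧
    ∀ f v, IsTest f → co A f v = ∑ i, c i • P i (μ i) ((α i).foldr pd f) v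

/-- **Conformal field theories.** The vacuum is invariant under the conformal charges of `t`
(conformal Ward identities for all polynomials `Y` in the fields). On every Bose tensor field with a
scaling dimension `d` the charges of `t` generate the similitudes, with the dimension `Re d`, and
its components are finite linear combinations of derivatives of conformal primaries. -/
structure CFT (Q : Theory D) (t : Ix → Ix → Fld D) : Prop where
  ward : ∀ X Y Y' F, IsKil X → Al Q Set.univ Y Y' → IsCutoff F → Tendsto (fun R =>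
    inner ℂ (chg (fun m n => co (t m n)) X (F R) Q.vac) ((Y Q.vac : D) : Completion D) -
      inner ℂ ((Y' Q.vac : D) : Completion D) (chg (fun m n => co (t m n)) X (F R) Q.vac))
    atTop (𝓝 0)
  sim : ∀ k d (Φ Φ' : (Fin k → Ix) → Fld D) r X, IsTc Q k d Φ →
    (∀ μ, Q.bose (Φ μ) ∧ IsAdj (Φ μ) (Φ' μ)) → IsSim r X →
    Act t (fun n x => X x n) k d.re (fun μ => co (Φ μ)) fun μ => co (Φ' μ)
  desc : ∀ k d Φ μ, IsTc Q k d Φ → (∀ μ, Q.bose (Φ μ)) → Desc Q t (Φ μ)

end

end Vale.Agent.P352X
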