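import Vale.Agent.P352X.CA.Alg
import Vale.Agent.P352X.CA.Pub
import Vale.Agent.P352X.EB.Spec
import Vale.Agent.P352.H755.ChJ

/-!
# P352X, block CA, layer B: vocabulary (see notes/P352/ca.md)
-/

set_option linter.all false

open MeasureTheory Filter Topology
open scoped SchwartzMap ComplexConjugate ContDiff

namespace Vale.Agent.P352X.CA

open Vale.Agent.P352 Vale.Agent.P352.GF Vale.Agent.P352.BW Vale.Agent.P352.H246
open Vale.Agent.P352.H496 Vale.Agent.P352.H755
open Vale.Agent.P352.SubConf (IsAdj IsKil)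
open TPD (Lsc Lg pS TT)
open EB (snw)
open UniformSpace (Completion)
open Complex (I)

noncomputable section

/-! ## vector fields and densities -/

/-- constant vector fields -/
def Xc (a : V) : Ix → V → ℝ := fun n _ => a n

/-- infinitesimal Lorentz transformations -/
def Xw (w : Ix → V) : Ix → V → ℝ := fun n x => ∑ m, x m * w m n

/-- the pull back of a vector field by a similitude -/
def pk (s : ℝ) (L : Ix → V) (a : V) (X : Ix → V → ℝ) : Ix → V → ℝ := fun n x =>
  s⁻¹ * ∑ m, X m (sim s L a x) * linv L m n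

/-- the pull back of a one form by a similitude -/
def pu (s : ℝ) (L : Ix → V) (a : V) (u : Ix → V → ℝ) : Ix → V → ℝ := fun m x =>
  s * ∑ n, L m n * u n (sim s L a x)

/-- `g dt` -/
def tm (g : V → ℝ) : Ix → V → ℝ := fun m x => if m = o then g x else 0

/-- the one form `u` is a charge density for `K`: near the causal hull of `K` it is the differential
of a function that is one in the far future and zero in the far past -/
def Den (K : Set V) (u : Ix → V → ℝ) : Prop := (∀ m, Tst (u m)) ∧ ∃ Ξ : V → ℝ, ContDiff ℝ ∞ Ξ ∧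
  (∃ R, ∀ z ∈ Jc K, (R ≤ z o → ∀ᶠ x in 𝓝 z, Ξ x = 1) ∧ (z o ≤ -R → ∀ᶠ x in 𝓝 z, Ξ x = 0)) ∧
  ∀ z ∈ Jc K, ∀ᶠ x in 𝓝 z, ∀ m, u m x = dr m Ξ x

/-- `X` is the conformal Killing field with the data `a, b, r, w` -/
def Kd (X : Ix → V → ℝ) (a b : V) (r : ℝ) (w : Ix → V) : Prop := As w ∧ ∀ n x,
  X n x = a n + r * x n + ∑ m, x m * w m n + 2 * GF.mdot b x * x n - GF.mdot x x * b n

/-- the closed forward cone -/
def Cn : Set V := {p | 0 ≤ p o ∧ 0 ≤ GF.mdot p p}

/-- the Fourier transform vanishes on the cone -/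
def Nl (f : Fn) : Prop := ∀ p ∈ Cn, ft f p = 0

/-- a test function that represents the point `i e0` -/
def Z0 (f : Fn) : Prop := ∀ p ∈ Cn, ft f p = Complex.exp (-(p o : ℂ))

variable {D : Type*} [NormedAddCommGroup D] [InnerProductSpace ℂ D]

/-- derivatives of fields -/
def Df (a : V) (P : Fld D) : Fld D := fun f => P (dv a f)

/-- linear combinations of fields -/
def lc (P : Fld D) (z : ℂ) (R : Fld D) : Fld D := fun f v => P f v + z • R f v

/-- the right side of `Act` -/
def rhs (X : Ix → V → ℝ) (k : ℕ) (Δ : ℝ) (P : (Fin k → Ix) → Fld D) (μ : Fin k → Ix) (f : Fn)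
    (v : D) : D := ∑ n, P μ (pd n fun x => X n x * f x) v -
  (((Δ + k) / 4 : ℝ) : ℂ) • P μ (fun x => (∑ n, pd n (fun y => (X n y : ℂ)) x) * f x) v +
  ∑ i, ∑ n, P (Function.update μ i n) (fun x => pd n (fun y => (X (μ i) y : ℂ)) x * f x) v

/-- **The context**: a theory with a traceless stress tensor -/
structure Cx (D : Type*) [NormedAddCommGroup D] [InnerProductSpace ℂ D] where
  Q : Theory D
  t : Ix → Ix → Fld D
  hT : IsT Q t
  self : ∀ m n k l f g v, IsTest f → IsTest g → Sep f g →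
    t m n f (t k l g v) = t k l g (t m n f v)
  cov : ∀ m n s L a f v, 0 < s → IsLor L → IsTest f → t m n f (Q.U s L a v) =
    ∑ k, ∑ l, (L k m * L l n : ℂ) • Q.U s L a (t k l (fun x => f (sim s L a x)) v)
  mul : ∀ s L a s' L' a' v, 0 < s → 0 < s' → IsLor L → IsLor L' →
    Q.U s L a (Q.U s' L' a' v) = Q.U (s * s') (fun m => sim 1 L 0 (L' m)) (sim s L a a') v
  mix : ∀ v w : D, Tendsto (fun r : ℝ => inner ℂ w (Q.U (Real.sqrt (r * 1)) (Lsc r 1) 0 v))
    (𝓝[>] 0) (𝓝 (inner ℂ w Q.vac * inner ℂ Q.vac v))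

namespace Cx

variable (c : Cx D)

/-- the charge of the current `X^n t_mn` with the density `u` -/
def Ch (u X : Ix → V → ℝ) (v : D) : D := smt c.t (fun m n x => eta n * X n x * u m x) v

/-- the commutator with the charge -/
def dl (u X : Ix → V → ℝ) (Y : D → D) (v : D) : D := c.Ch u X (Y v) - Y (c.Ch u X v)

/-- operators that are localized in `K` relative to `t` -/
structure Lo (K : Set V) (Y Y' : D → D) : Prop where
  adj : ∀ v w, inner ℂ (Y v) w = inner ℂ v (Y' w)
  loc : ∀ m n g v, In (Jc K)ᶜ g → c.t m n g (Y v) = Y (c.t m n g v)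

/-- the vacuum is invariant under the charge of `X` -/
def Vac (X : Ix → V → ℝ) : Prop := ∀ K u Y Y', IsCompact K → Den K u → c.Lo K Y Y' →
  inner ℂ c.Q.vac (c.dl u X Y c.Q.vac) = 0

/-- words in `t` -/
def ap (u : List (I2 × Sch)) (v : D) : D := u.foldr (fun p w => c.t p.1.1 p.1.2 (ev p.2) w) v

/-- joint tempered bounds -/
def JB (P : Fld D) : Prop := ∀ (ls rs : List I2) (v : D), ∃ (m : ℕ) (C : ℝ), 0 ≤ C ∧
  ∀ (u u' : List (I2 × Sch)) (f : Sch), u.map Prod.fst = ls → u'.map Prod.fst = rs →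
    HasCompactSupport f → ‖c.ap u (P (ev f) (c.ap u' v))‖ ≤ C * snw m u * sn m f * snw m u'

/-- local fields on test functions with compact support -/
structure F0 (P P' : Fld D) : Prop where
  lin : ∀ (f g : Fn) (z : ℂ) v, CS f → CS g → P (fun x => f x + z * g x) v = P f v + z • P g v
  adj : ∀ f v w, CS f → inner ℂ (P f v) w = inner ℂ v (P' (bar f) w)
  loc : ∀ C f g v, c.Q.fld C → CS f → CS g → Sep f g → P f (C g v) = C g (P f v)
  loct : ∀ m n f g v, CS f → CS g → Sep f g → P f (c.t m n g v) = c.t m n g (P f v)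

/-- tempered local fields with their adjoints -/
structure C0 (P P' : Fld D) : Prop where
  l : c.F0 P P'
  r : c.F0 P' P
  jl : c.JB P
  jr : c.JB P'

/-- `R` is the transform of `Z` under the similitude `x ↦ s L x + a` -/
def Cj (s : ℝ) (L : Ix → V) (a : V) (R Z : Fld D) : Prop := ∀ f v, CS f →
  R f (c.Q.U s L a v) = c.Q.U s L a (Z (fun x => f (sim s L a x)) v)

/-- translation covariant tempered local fields -/
structure CF (P P' : Fld D) : Prop extends c.C0 P P' where
  tl : ∀ a, c.Cj 1 GF.one a P P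
  tr : ∀ a, c.Cj 1 GF.one a P' P'

/-- `y` is the field `P` applied to the vacuum -/
def Vv (P : Fld D) (y : TT D) : Prop := ∀ f : Sch, HasCompactSupport f →
  y f = (P (ev f) c.Q.vac : D)

/-- good fields: all transforms are local -/
structure Gd (P P' : Fld D) (y : TT D) : Prop where
  cf : c.CF P P'
  gc : ∀ s L, 0 < s → IsLor L → ∃ R R', c.CF R R' ∧ c.Cj s L 0 R P
  vv : c.Vv P y

/-- translation covariant distributions -/
def TC (y : TT D) : Prop := ∀ a f, Ut c.Q a (y f) = y (ST.tsl a f)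

/-- `i [Q_X, P]` -/
def iP (X : Ix → V → ℝ) (P : Fld D) : Fld D := fun f v => I • Phi c.t X P f v

/-- the charge of `∂_a (Xb b)` at the origin -/
def Tb (a b : V) (P : Fld D) : Fld D := fun f v =>
  ((2 * GF.mdot a b : ℝ) : ℂ) • Sg c.t Xd P f v + Sg c.t (Xw (wd a b)) P f v

/-- the special conformal charges at the origin -/
def Kb (b : V) (P : Fld D) : Fld D := fun f v =>
  Sg c.t (Xb b) P f v - ∑ k, c.Tb (bas k 1) b P (xg k f) v

end Cx

/-- the space of good fields and the operations on it -/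
structure Ops (c : Cx D) where
  W : Submodule ℂ (TT D)
  S : W →ₗ[ℂ] W
  M : (Ix → V) → W →ₗ[ℂ] W
  K : V → W →ₗ[ℂ] W
  P : V → W →ₗ[ℂ] W
  al : ℝ → (Ix → V) → W →ₗ[ℂ] W
  mem : ∀ y, y ∈ W ↔ ∃ R R', c.Gd R R' y
  hS : ∀ R R' (y : W), c.Gd R R' y → c.Gd (Sg c.t Xd R) (Sg c.t Xd R') (S y)
  hM : ∀ w R R' (y : W), As w → c.Gd R R' y →
    c.Gd (Sg c.t (Xw w) R) (Sg c.t (Xw w) R') (M w y)
  hK : ∀ b R R' (y : W), c.Gd R R' y → c.Gd (c.Kb b R) (c.Kb b R') (K b y)
  hP : ∀ a (y : W), (P a y : TT D) = (y : TT D) ∘L KDa.dS a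
  hal : ∀ s L (y : W), 0 < s → IsLor L → (al s L y : TT D) = Ug c.Q s L 0 ∘L (y : TT D) ∘L pS s L

/-- the data of layer A -/
def Ops.dat {c : Cx D} (x : Ops c) (f0 : Sch) : Dat x.W (Completion D) where
  ip := { toFun := fun y => (y : TT D) f0, map_add' := fun _ _ => rfl, map_smul' := fun _ _ => rfl }
  al := x.al
  P := x.P
  K := x.K
  S := x.S
  M := x.M

end

end Vale.Agent.P352X.CA
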