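import Vale.Agent.P352X.CA.Spec

/-!
# P352X, block CA: the assembly
-/

set_option linter.all false

open MeasureTheory Filter Topology
open scoped SchwartzMap ComplexConjugate ContDiff

namespace Vale.Agent.P352X.CA

open Vale.Agent.P352 Vale.Agent.P352.GF Vale.Agent.P352.BW Vale.Agent.P352.H246
open Vale.Agent.P352.H496 Vale.Agent.P352.H755
open Vale.Agent.P352.SubConf (IsAdj IsKil chg)
open Vale.Agent.P352.H15 (IsSim)
open TPD (Lsc Lg pS TT)
open UniformSpace (Completion)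
open Complex (I)

noncomputable section

variable {D : Type*} [NormedAddCommGroup D] [InnerProductSpace ℂ D] {c : Cx D}

theorem l1_of (r : Rows c) (m : MAT) (lie : LIE) : L1 c :=
  have ind := r.ind r.pug r.ba
  { mat := m, pug := r.pug, pk := r.pk m, nul := r.nul, lie := lie, ba := r.ba, ind := ind
    puc := r.puc r.pug r.ba, cla := r.cla r.pug r.ba ind, clj := r.clj r.pug r.ba ind
    clb := r.clb r.ba, clm := r.clm, sep := r.sep, ext := r.ext, rho := r.rho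
    bdr := r.bdr r.rho }

theorem l2_of (r : Rows c) (h : L1 c) : L2 c :=
  { h with vac := r.vac h (r.vc0 h), sg := r.sg h }

theorem l4_of (r : Rows c) (h : L2 c) : L4 c :=
  have h3 : L3 c := { h with tra := r.tra h, cov := r.cov h, rel := r.rel h, qq := r.qq h }
  { h3 with dec := r.dec h3, gd := r.gd h3 (r.dec h3) }

/-- everything -/
structure All (x : Ops c) (f0 : Sch) : Prop extends L4 c where
  wrd : WRD c
  act : ACT c
  z0 : Z0 (ev f0)
  ax : (x.dat f0).Ax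
  out : (x.dat f0).OUT
  ini : INI x f0
  lft : LFT x
  cvp : CVP x f0

theorem tc_of (h : L4 c) (x : Ops c) (y : x.W) : c.TC y := by
  obtain ⟨R, R', g⟩ := (x.mem y).1 y.2
  exact h.ext.tc R y g.cf.tl g.vv

theorem ax_of (r : Rows c) (h : L4 c) (x : Ops c) {f0 : Sch} (hz : Z0 (ev f0)) (t : TEN x.W)
    (td : TDER) : (x.dat f0).Ax where
  toAx1 := r.ax1 h x f0
  toAx2 := r.ax2 h x f0 hz
  inj := (injective_iff_map_eq_zero _).2 fun y hy =>
    Subtype.ext (h.rho.inj y f0 (tc_of h x y) hz hy)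
  der := r.der h x f0 hz
  bd := fun y => by
    obtain ⟨C, hC⟩ := h.bdr y f0 (tc_of h x y)
    refine ⟨C, fun r s hr hr1 hs hs1 => ?_⟩
    have h1 : 0 < Real.sqrt (r * s) := Real.sqrt_pos.2 (mul_pos hr hs)
    have h2 : IsLor (Lsc r s) := (Grp.lsc hr hs).1
    have e : (x.dat f0).ip ((x.dat f0).al (Real.sqrt (r * s)) (Lsc r s) y) =
        ueC c.Q h1 h2 0 ((y : TT D) (pS (Real.sqrt (r * s)) (Lsc r s) f0)) := by
      show (x.al _ _ y : TT D) f0 = _
      rw [x.hal _ _ y h1 h2, ueC_apply, ← Ug_apply c.Q h1 h2]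
      rfl
    rw [e, LinearIsometry.norm_map]
    exact hC r s hr hr1 hs hs1
  ten := t
  tder := td
  mat := h.mat

theorem all_of (r : Rows c) (m : MAT) (lie : LIE) (td : TDER) (t : ∀ x : Ops c, TEN x.W)
    (a : ∀ (x : Ops c) f0, (x.dat f0).Rows) : ∃ (x : Ops c) (f0 : Sch), All x f0 := by
  have h1 := l1_of r m lie
  have h2 := l2_of r h1
  have h := l4_of r h2
  obtain ⟨x⟩ := r.wsp h
  obtain ⟨f0, hz⟩ := h.nul.ex
  have ax := ax_of r h x hz (t x) td
  exact ⟨x, f0, { h with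
    wrd := r.wrd h2, act := r.act h1, z0 := hz, ax := ax, out := Dat.out _ (a x f0) ax
    ini := r.ini h x f0, lft := r.lft h x, cvp := r.cvp h x f0 }⟩

/-- iterated derivatives of fields -/
def Dl (α : List Ix) (P : Fld D) : Fld D := fun f => P (α.foldr pd f)

lemma dv_bas (m : Ix) (f : Fn) : dv (bas m 1) f = pd m f := by
  funext x
  simp only [dv, bas]
  rw [Finset.sum_eq_single m (fun n _ hn => by simp [hn]) (by simp)]
  simp

lemma cs_fold (α : List Ix) {f : Fn} (hf : CS f) : CS (α.foldr pd f) := by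
  induction α with
  | nil => exact hf
  | cons m α ih => exact cs_pd ih m

/-- iterated derivatives on Schwartz space -/
def dl (α : List Ix) : Sch →L[ℂ] Sch :=
  α.foldr (fun m T => KDa.dS (bas m 1) ∘L T) (ContinuousLinearMap.id ℂ Sch)

lemma ev_dl (α : List Ix) (g : Sch) : ev (dl α g) = α.foldr pd (ev g) := by
  induction α with
  | nil => rfl
  | cons m α ih =>
    show ev (KDa.dS (bas m 1) (dl α g)) = pd m _
    rw [KDa.ev_dS, dv_bas, ih]

lemma coe_sum {ι : Type*} (s : Finset ι) (v : ι → D) :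
    ((∑ i ∈ s, v i : D) : Completion D) = ∑ i ∈ s, (v i : Completion D) :=
  map_sum (Completion.toComplL (𝕜 := ℂ) (E := D)) v s

variable {x : Ops c} {f0 : Sch}

/-- primary multiplets of good fields -/
structure PG (x : Ops c) (f0 : Sch) (k : ℕ) (d : ℂ) (P P' : (Fin k → Ix) → Fld D)
    (y : (Fin k → Ix) → x.W) : Prop where
  gd : ∀ μ, c.Gd (P μ) (P' μ) (y μ)
  mu : (x.dat f0).Mu k d y
  act : ∀ X μ f v, IsKil X → CS f → Phi c.t X (P μ) f v = I • rhs X k d.re P μ f v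

/-- descendants of good primaries -/
def DG (x : Ops c) (f0 : Sch) (A : Fld D) : Prop :=
  ∃ (n : ℕ) (k : Fin n → ℕ) (d z : Fin n → ℂ) (α : Fin n → List Ix) (μ : ∀ i, Fin (k i) → Ix)
    (P P' : ∀ i, (Fin (k i) → Ix) → Fld D) (y : ∀ i, (Fin (k i) → Ix) → x.W),
    (∀ i, PG x f0 (k i) (d i) (P i) (P' i) (y i)) ∧
    ∀ f v, CS f → A f v = ∑ i, z i • P i (μ i) ((α i).foldr pd f) v

/-- components of Bose multiplets -/
def BC (Q : Theory D) (B : Fld D) : Prop := ∃ k d Φ μ, IsTc Q k d Φ ∧ (∀ μ, Q.bose (Φ μ)) ∧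
  ∀ f v, IsTest f → B f v = Φ μ f v

/-- sums of components of Bose multiplets -/
def SBC (Q : Theory D) (A : Fld D) : Prop := ∃ (n : ℕ) (B : Fin n → Fld D), (∀ i, BC Q (B i)) ∧
  ∀ f v, IsTest f → A f v = ∑ i, B i f v

namespace All

variable (a : All x f0)
include a

theorem phi {k : ℕ} {d : ℂ} {P P' : (Fin k → Ix) → Fld D} {y : (Fin k → Ix) → x.W}
    (g : ∀ μ, c.Gd (P μ) (P' μ) (y μ)) (m : (x.dat f0).Mu k d y) {X : Ix → V → ℝ} {p b : V}
    {r : ℝ} {w : Ix → V} (hb : ∀ μ, x.K b (y μ) = 0) (hX : Kd X p b r w) (μ : Fin k → Ix) (f : Fn)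
    (v : D) (hf : CS f) : Phi c.t X (P μ) f v = I • rhs X k d.re P μ f v :=
  a.lft k d.re P P' y X p b r w g
    (fun μ => a.out.dil d _ (Submodule.subset_span ⟨k, y, μ, m, rfl⟩))
    (fun w μ hw => a.out.lor.geo k d y w μ m hw) hb hX μ f v hf

theorem sim (k : ℕ) (d : ℂ) (Φ Φ' : (Fin k → Ix) → Fld D) (r : ℝ) (X : V → V)
    (hΦ : IsTc c.Q k d Φ) (h : ∀ μ, c.Q.bose (Φ μ) ∧ IsAdj (Φ μ) (Φ' μ)) (hX : IsSim r X) :
    Act c.t (fun n x => X x n) k d.re (fun μ => co (Φ μ)) fun μ => co (Φ' μ) := by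
  choose B hB hB' using fun μ => c.Q.adj (Φ μ) (c.Q.bose_fld _ (h μ).1)
  obtain ⟨y, gy, my⟩ := a.ini k d Φ B hΦ fun μ => ⟨(h μ).1, hB μ, hB' μ⟩
  obtain ⟨p, w, hw, hx⟩ := hX
  have hK : Kd (fun n x => X x n) p 0 r w := ⟨hw, fun n x => by simp [hx, GF.mdot]⟩
  have h0 : ∀ μ, x.K 0 (y μ) = 0 := fun μ => by
    have e := a.ax.Klin 0 0 1 (y μ)
    simp only [smul_zero, add_zero, Complex.ofReal_one, one_smul] at e
    exact left_eq_add.1 e
  refine a.act _ k d.re Φ B _ _ ⟨p, 0, r, w, hK⟩ (fun μ => (gy μ).cf.l)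
    (fun μ f v hf => ⟨rfl, ?_⟩) (a.phi gy my h0 hK)
  show ((Φ' μ f v : D) : Completion D) = _
  congr 1
  refine ext_inner_left ℂ fun u => ?_
  have e1 := (h μ).2 (bar f) u v (isTest_bar hf.1)
  have e2 := hB' μ (bar f) u v (isTest_bar hf.1)
  rw [H246.bar_bar] at e1 e2
  rw [← e1, e2]

theorem gd_pw (α : List Ix) {P P' : Fld D} {z : x.W} (g : c.Gd P P' z) :
    c.Gd (Dl α P) (Dl α P') ((x.dat f0).pw α z : x.W) := by
  induction α generalizing P P' z with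
  | nil => exact g
  | cons m α ih =>
    have g1 := a.gd.df (bas m 1) P P' z g
    rw [← x.hP] at g1
    have e : ∀ R : Fld D, Dl (m :: α) R = Dl α (Df (bas m 1) R) := fun R => by
      funext f
      simp only [Dl, Df, dv_bas, List.foldr_cons]
    rw [e, e]
    exact ih g1

theorem dg_of {A B : Fld D} {y : x.W} (g : c.CF A B) (gv : c.Vv A y) (hy : y ∈ Submodule.span ℂ
    {z | ∃ k e p ν α, (x.dat f0).Mu k e p ∧ (∀ μ, (x.dat f0).Pm (p μ)) ∧
      z = (x.dat f0).pw α (p ν)}) : DG x f0 A := by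
  obtain ⟨n, z, u, hu⟩ := Submodule.mem_span_set'.1 hy
  choose k e p ν α hp hpm hz using fun i => (u i).2
  choose P P' hP using fun i μ => (x.mem (p i μ : TT D)).1 (p i μ).2
  refine ⟨n, k, e, z, α, ν, P, P', p, fun i => ⟨hP i, hp i, fun X μ f v hX hf => ?_⟩, ?_⟩
  · obtain ⟨q, b, r, w, hX⟩ := hX
    exact a.phi (hP i) (hp i) (fun μ => hpm i μ b) hX μ f v hf
  · have gi := fun i => a.gd_pw (α i) (hP i (ν i))
    refine a.gd.uniq A B _ _ y g gv
      (a.clm.sumf (Fin n) z _ _ fun i => (gi i).cf) fun f hf => ?_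
    rw [← hu, coe_sum, Submodule.coe_sum, ContinuousLinearMap.sum_apply]
    refine Finset.sum_congr rfl fun i _ => ?_
    rw [Completion.coe_smul, hz i]
    exact congrArg (z i • ·) ((gi i).vv f hf)

theorem dg_sum {A : Fld D} (hA : c.Q.bose A) (h : SBC c.Q A) : DG x f0 A := by
  obtain ⟨n, B, hB, e⟩ := h
  choose k d Φ μ hΦ h hB using hB
  choose Φ' h1 h2 using fun i ν => c.Q.adj (Φ i ν) (c.Q.bose_fld _ (h i ν))
  choose y gy my using fun i =>
    a.ini (k i) (d i) (Φ i) (Φ' i) (hΦ i) fun ν => ⟨h i ν, h1 i ν, h2 i ν⟩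
  obtain ⟨A', h3, h4⟩ := c.Q.adj A (c.Q.bose_fld _ hA)
  refine a.dg_of (y := ∑ i, y i (μ i)) (a.clb A A' hA h3 h4) (fun f hf => ?_)
    (Submodule.sum_mem _ fun i _ =>
      a.out.dsc (d i) _ (Submodule.subset_span ⟨k i, y i, μ i, my i, rfl⟩))
  rw [e _ _ ⟨f, rfl⟩, coe_sum, Submodule.coe_sum, ContinuousLinearMap.sum_apply]
  refine Finset.sum_congr rfl fun i _ => ?_
  rw [hB i _ _ ⟨f, rfl⟩]
  exact (gy i (μ i)).vv f hf

theorem dg (k : ℕ) (d : ℂ) (Φ : (Fin k → Ix) → Fld D) (μ : Fin k → Ix) (hΦ : IsTc c.Q k d Φ)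
    (h : ∀ μ, c.Q.bose (Φ μ)) : DG x f0 (Φ μ) :=
  a.dg_sum (h μ) ⟨1, fun _ => Φ μ, fun _ => ⟨k, d, Φ, μ, hΦ, h, fun _ _ _ => rfl⟩,
    fun _ _ _ => by simp⟩

theorem desc {A : Fld D} (hA : c.Q.bose A) (h : DG x f0 A) : Desc c.Q c.t A := by
  obtain ⟨n, k, d, z, α, μ, P, P', y, g, e⟩ := h
  choose Ψ Ψ' hΨ h1 h2 using fun i ν => a.ext.loc (P i ν) (P' i ν) A ((g i).gd ν).cf hA
  refine ⟨n, k, d, z, α, μ, Ψ, Ψ', fun i => ⟨hΨ i,
    a.cvp (k i) (d i) (P i) (P' i) (y i) A (Ψ i) (Ψ' i) (g i).gd (g i).mu (hΨ i) (h1 i),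
    fun X hX => a.act X (k i) _ (P i) (P' i) (Ψ i) (Ψ' i) hX (fun ν => ((g i).gd ν).cf.l)
      (fun ν f v hf => ⟨h1 i ν f v hf, h2 i ν f v hf⟩)
      fun ν f v hf => (g i).act X ν f v hX hf⟩, ?_⟩
  rintro _ v ⟨G, rfl⟩
  refine ext_inner_left ℂ fun u => ?_
  refine congrFun (a.ext.ext ℂ (fun G => inner ℂ u (co A (ev G) v))
    (fun G => inner ℂ u (∑ i, z i • Ψ i (μ i) ((α i).foldr pd (ev G)) v)) ?_ ?_ fun G hG => ?_) G
  · exact continuous_const.inner ((Completion.continuous_coe D).comp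
      (c.Q.cont A v (c.Q.bose_fld A hA)))
  · refine continuous_const.inner (continuous_finset_sum _ fun i _ => ?_)
    simp only [← ev_dl]
    exact (((hΨ i (μ i)).cont v).comp (dl (α i)).continuous).const_smul (z i)
  · have hc : CS (ev G) := ⟨⟨G, rfl⟩, hG⟩
    show inner ℂ u ((A (ev G) v : D) : Completion D) = _
    rw [e _ v hc, coe_sum]
    congr 1
    refine Finset.sum_congr rfl fun i _ => ?_
    rw [Completion.coe_smul, h1 i _ _ v (cs_fold _ hc)]

theorem cft : CFT c.Q c.t where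
  ward := a.wrd
  sim := a.sim
  desc := fun k d Φ μ hΦ h => a.desc (h μ) (a.dg k d Φ μ hΦ h)

end All

end

end Vale.Agent.P352X.CA
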