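import Vale.Agent.P352X.EB.Wire

/-!
# P352X, block CA: the fields of the extension
-/

set_option linter.all false

open MeasureTheory Filter Topology
open scoped SchwartzMap ComplexConjugate ContDiff

namespace Vale.Agent.P352X.EB

open Vale.Agent.P352 Vale.Agent.P352.GF Vale.Agent.P352.BW Vale.Agent.P352.H246
open Vale.Agent.P352.H496 Vale.Agent.P352.H755 Vale.Agent.P352.H15
open Vale.Agent.P352.SubConf (IsAdj)
open UniformSpace (Completion)

noncomputable section

variable {D : Type*} [NormedAddCommGroup D] [InnerProductSpace ℂ D] {c : Ctx D}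

/-- the fields of `Q'` are Bose fields and sums of `L` and extended components -/
def Gen (Q : Theory D) {D' : Submodule ℂ (Completion D)} (Q' : Theory D') (e : Fld D → Fld D')
    (L : Fld D') : Prop := ∀ A, Q'.fld A → Q'.bose A ∧ ∃ (n : ℕ) (B : Fin n → Fld D'),
  (∀ i, B i = L ∨ ∃ C, Comp Q C ∧ ∀ f v, IsTest f → B i f v = e C f v) ∧
    ∀ f v, A f v = ∑ i, B i f v

variable (c) in
/-- the extension with the local potential -/
def FIN2 : Prop := TdAll c.Q → ∃ (D' : Submodule ℂ (Completion D)) (Q' : Theory D')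
  (e : Fld D → Fld D') (L : Fld D'), Ext c.Q Q' e ∧ Q'.IsStress (fun m n => e (c.T m n)) ∧
    Q'.IsScalar L 2 ∧ (∀ f v, IsTest f →
      GF.tr (fun m n => e (c.T m n)) f v = (3 : ℂ) • L (box f) v) ∧ Gen c.Q Q' e L

open Fin'

theorem fin_of2 (t : E0 c) (x : Lt c (Lab c.Q)) (h0 : x.dag none = none) (h1 : x.φ none = c.l)
    (h2 : ∀ p, x.Is (some p) p.1.1 p.1.2 ∧ x.dag (some p) ≠ none)
    (h3 : ∀ B, Comp c.Q B → ∃ p : Lb c.Q, p.1.1 = B) (w : WP x) (F : FS x) (V' : CV x)
    (r : REC x) : FIN2 c := by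
  intro hD
  have G := t.grp
  have sp := @dec_spec D _ _ c hD h3
  have adj : ∀ B B' f (v : x.Dn) (u : D), c.Q.fld B → IsAdj B B' → IsTest f →
      inner ℂ (ee x B f v : Completion D) (u : Completion D) =
        inner ℂ (v : Completion D) (B' (bar f) u : Completion D) := by
    intro B B' f v u hB hA hf
    have e : B' (bar f) u = ∑ i, ((dec c.Q B).2 i).1.2 (bar f) u :=
      ext_inner_left ℂ fun y => by
        rw [← hA f y u hf, sp hB f y hf, sum_inner, inner_sum]
        exact Finset.sum_congr rfl fun i _ => ((dec c.Q B).2 i).2.2.2.1 f y u hf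
    rw [e, coe_sum, inner_sum, ee, Submodule.coe_sum, sum_inner]
    exact Finset.sum_congr rfl fun i _ => F.aff _ _ _ f v u (h2 _).1 hf
  have agree : ∀ B f (v : x.Dn) (u : D), c.Q.fld B → IsTest f → (v : Completion D) = u →
      (ee x B f v : Completion D) = (B f u : D) := by
    intro B f v u hB hf e
    obtain ⟨B', -, hA⟩ := c.Q.adj B hB
    refine ext_D fun y => ?_
    rw [adj B B' f v y hB hA hf, e, Completion.inner_coe, Completion.inner_coe, hA f u y hf]
  have cyc : ∀ S : Submodule ℂ x.Dn, (∀ v : x.Dn, (v : Completion D) = c.Om → v ∈ S) →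
      (∀ p f v, IsTest f → v ∈ S → x.o (some p) f v ∈ S) →
      Dense (Subtype.val '' (S : Set x.Dn)) := by
    intro S a1 a2
    have d := c.Q.cyclic ((S.map x.Dn.subtype).comap
      (Completion.toComplL : D →L[ℂ] Completion D).toLinearMap)
      ⟨⟨c.Om, F.vac⟩, a1 _ rfl, rfl⟩ (by
        rintro B f u hB hf ⟨v, hv, e⟩
        exact ⟨ee x B f v, S.sum_mem fun i _ => a2 _ f v hf hv, agree B f v u hB hf e⟩)
    exact (Completion.denseRange_coe.dense_image (Completion.continuous_coe D) d).mono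
      (by rintro _ ⟨u, ⟨v, hv, e⟩, rfl⟩; exact ⟨v, hv, e⟩)
  have cyc' : ∀ P : Lab c.Q → Prop, (∀ p, P (some p)) → ∀ S : Submodule ℂ x.Dn,
      (∀ v : x.Dn, (v : Completion D) = c.Om → v ∈ S) →
      (∀ a f v, P a → IsTest f → v ∈ S → x.o a f v ∈ S) → Dense (S : Set x.Dn) :=
    fun P hP S a1 a2 v => by
      rw [closure_subtype]
      exact cyc S a1 (fun p f v hf hv => a2 _ f v (hP p) hf hv) _
  have den : Dense (x.Dn : Set (Completion D)) :=
    (cyc ⊤ (fun _ _ => trivial) fun _ _ _ _ _ => trivial).mono (by rintro _ ⟨v, -, rfl⟩; exact v.2)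
  have ud : ∀ s L a (v : x.Dn), 0 < s → IsLor L →
      (x.Ud s L a v : Completion D) = Ug c.Q s L a v := fun s L a v hs hL => by
    rw [Lt.Ud, dif_pos (show Ug c.Q s L a v ∈ x.Dn from V'.mem ⟨s, L, a, hs, hL⟩ _ v.2)]
  have ex : ∀ (P : Lab c.Q → Prop) (Q' : Theory x.Dn), (∀ p, P (some p)) →
      (Q'.vac : Completion D) = c.Om → Q'.U = x.Ud → (∀ B, Q'.bose B ↔ x.Fs P B) →
      Ext c.Q Q' (ee x) := fun P Q' hP a1 a2 a3 =>
    ⟨den, a1, fun s L a v hs hL => by rw [a2, ud s L a v hs hL, Ug_apply _ hs hL],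
      fun B _ => (a3 _).2 ⟨_, _, fun i => hP _, rfl⟩, adj, agree⟩
  obtain ⟨Q0, a1, a2, a3, a4⟩ := r (· ≠ none) (fun a ha => by
    cases a with
    | none => exact absurd rfl ha
    | some p => exact (h2 p).2) (cyc' _ fun p => Option.some_ne_none p)
  obtain ⟨Q1, b1, b2, b3, b4⟩ := r (fun _ => True) (fun _ _ => trivial) (cyc' _ fun _ => trivial)
  have s0 := t.str c.Q c.A c.T x.Dn Q0 (ee x) c.hN.toRep c.hT
    (ex _ Q0 (fun p => Option.some_ne_none p) a1 a2 a4) fun A hA => by
      obtain ⟨n, b, hb, rfl⟩ := (a3 A).1 hA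
      choose p hp using fun i => Option.ne_none_iff_exists'.1 (hb i)
      refine ⟨n, fun i => (p i).1.1, fun i => (h2 (p i)).1.1, fun f v hf => ?_⟩
      refine Finset.sum_congr rfl fun i _ => Subtype.ext (ext_D fun y => ?_)
      rw [hp, F.aff _ _ _ f v y (h2 _).1 hf, adj _ _ f v y (h2 _).1.1 (p i).2.2.2.1 hf]
  have enl : IsEnl Q0 Q1 := ⟨Subtype.ext (b1.trans a1.symm), b2.trans a2.symm,
    fun A hA => (b3 A).2 (((a3 A).1 hA).imp fun n h => h.imp fun b h => ⟨fun _ => trivial, h.2⟩),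
    fun A hA => (b4 A).2 (((a4 A).1 hA).imp fun n h => h.imp fun b h => ⟨fun _ => trivial, h.2⟩)⟩
  refine ⟨x.Dn, Q1, ee x, x.o none, ex _ Q1 (fun _ => trivial) b1 b2 b4,
    H746.isStress_enl enl s0, ⟨(b4 _).2 ⟨1, fun _ => none, fun _ => trivial, ?_⟩, ?_, ?_⟩, ?_,
    fun A hA => ⟨(b4 A).2 ((b3 A).1 hA), ?_⟩⟩
  · funext f v
    simp
  · have := F.herm none
    rwa [h0] at this
  · intro s L a f v hs hL hf
    apply Subtype.ext
    have := V'.cov none ⟨s, L, a, hs, hL⟩ 1 (fun _ => ((s ^ 2 : ℝ) : ℂ)) (fun _ => none) f v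
      (x.Ud s L a v) (fun g hg => by
        have := G.pot s L a g hs hL hg
        simp only [h0, h1, Finset.univ_unique, Finset.sum_singleton, Complex.conj_ofReal]
        show _ = _ • Ug c.Q s L a (c.l fun y => g (sim s L a y))
        rw [this, Complex.coe_smul, smul_smul, mul_inv_cancel₀ (pow_pos hs 2).ne', one_smul])
      hf (ud s L a v hs hL)
    rw [b2, this, Submodule.coe_smul, ud _ _ _ _ hs hL]
    simp only [Finset.univ_unique, Finset.sum_singleton]
    rw [show (4 - 2 : ℝ) = (2 : ℕ) by norm_num, Real.rpow_natCast]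
    rfl
  · have hc : ∀ f v, In Set.univ f →
        GF.tr (fun m n => ee x (c.T m n)) f v = (3 : ℂ) • x.o none (box f) v := by
      intro f v hf
      let ι := Option (Σ m : Ix, Fin (dec c.Q (c.T m m)).1)
      let κ : ι → ℂ := fun i => i.elim (-3) fun j => eta j.1
      let b : ι → Lab c.Q := fun i => i.elim none fun j => some ((dec c.Q (c.T j.1 j.1)).2 j.2)
      let g : ι → Fn := fun i => i.elim (box f) fun _ => f
      let e := (Fintype.equivFin ι).symm
      have z := V'.zero _ (fun i => κ (e i)) (fun i => b (e i)) (fun i => g (e i)) v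
        (fun i => by
          cases h : e i with
          | none => exact Ap.in_box hf
          | some j => exact hf) (by
          rw [e.sum_comp fun i => κ i • x.φ (b i) (g i), Fintype.sum_option, Fintype.sum_sigma]
          simp only [κ, b, g, Option.elim, h1, neg_smul, c.hl.trace f hf.1, GF.tr, coe_sum,
            Completion.coe_smul, ← Finset.smul_sum]
          rw [neg_add_eq_zero]
          refine Finset.sum_congr rfl fun m _ => congrArg _ ?_
          rw [sp (c.Q.bose_fld _ (c.hT.bose m m)) f _ hf.1, coe_sum]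
          exact Finset.sum_congr rfl fun i _ => ((h2 _).1.2.2.2 f hf.1).1.symm)
      rw [e.sum_comp fun i => κ i • x.o (b i) (g i) v, Fintype.sum_option, Fintype.sum_sigma] at z
      simp only [κ, b, g, Option.elim, neg_smul, ← Finset.smul_sum] at z
      exact (neg_add_eq_zero.1 z).symm
    rintro _ v ⟨f, rfl⟩
    obtain ⟨P, hP⟩ := box_clm
    obtain ⟨-, u, -, -, u2, -, u4⟩ := ST.exists_cut f
    have c1 : Continuous fun g : Sch => GF.tr (fun m n => ee x (c.T m n)) (ev g) v :=
      continuous_finset_sum _ fun m _ =>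
        (continuous_finset_sum _ fun i _ => F.cont (some ((dec c.Q (c.T m m)).2 i)) v).const_smul
          (eta m : ℂ)
    have c2 : Continuous fun g : Sch => (3 : ℂ) • x.o none (box (ev g)) v := by
      simp only [← hP]
      exact ((F.cont none v).comp P.continuous).const_smul (3 : ℂ)
    exact tendsto_nhds_unique ((c1.tendsto f).comp u4) (((c2.tendsto f).comp u4).congr
      fun n => (hc _ v ⟨⟨u n, rfl⟩, u2 n, Set.subset_univ _⟩).symm)

  · obtain ⟨n, b, -, rfl⟩ := (b3 A).1 hA
    refine ⟨n, fun i => x.o (b i), fun i => ?_, fun _ _ => rfl⟩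
    rcases hb : b i with _ | p
    · exact Or.inl (by simp only [hb])
    · refine Or.inr ⟨p.1.1, p.2.1, fun f v hf => Subtype.ext (ext_D fun y => ?_)⟩
      simp only [hb]
      rw [F.aff _ _ _ f v y (h2 _).1 hf, adj _ _ f v y (h2 _).1.1 p.2.2.2.1 hf]

theorem fin_thm2 (c : Ctx D) (g : G1 c) (hE : EBd c.Q) : FIN2 c := by
  have t := e0_thm c g
  have m := mb_row t hE
  obtain ⟨x, h0, h1, h2, h3⟩ :=
    let_row t (stl_row t (tml_row t (flow_row t) (jl_row t) m)) (stf_row t m)
  have t1 : E1 x := { t with ops := ops_row t (mu1_row t) (mu2_row t (mu1_row t)) x }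
  have e := ext_row t1 (tmp_row t1 (jb_row t1))
  have w := wp_row t1 e
  have v := cv_row t1 e w (fs_row w)
  exact fin_of2 t x h0 h1 h2 h3 w (fs_row w) v (rec_row t (fs_row w) v)

theorem final3g (Q : Theory D) (T : Ix → Ix → Fld D)
    (hT : Q.IsStress T) (A : (V → V) → D → D) (hA : ND.PCh Q T A) (hD : TdAll Q)
    (N : Set V → VonNeumannAlgebra (Completion D)) (hN : LNm Q A N) (hU : UVac Q) (hE : EBd Q) :
    ∃ (D' : Submodule ℂ (Completion D)) (Q' : Theory D') (e : Fld D → Fld D') (L : Fld D'),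
      Ext Q Q' e ∧ Q'.IsStress (fun m n => e (T m n)) ∧ Q'.IsScalar L 2 ∧
      (∀ f v, IsTest f → tr (fun m n => e (T m n)) f v = (3 : ℂ) • L (box f) v) ∧
      Gen Q Q' e L := by
  obtain ⟨wp, wm, t, hP⟩ := tp_of Q T hT A hA (tfGen_of hD) N hN hU
  obtain ⟨c, rfl, rfl, e⟩ := ctx_row D Q T A N wp wm t True hT hA (tfGen_of hD) hN hU fun _ => hP
  haveI : Fact c.tp := ⟨e ▸ trivial⟩
  exact fin_thm2 c (main c).1 hE hD

end

end Vale.Agent.P352X.EB
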