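import Vale.Agent.P352X.CA.Spec

/-!
# P352X, block CA, row GD: good fields
-/

set_option linter.all false

namespace Vale.Agent.P352X.CA

open Vale.Agent.P352 Vale.Agent.P352.GF Vale.Agent.P352.BW Vale.Agent.P352.H246
open Vale.Agent.P352.H496 Vale.Agent.P352.H755
open TPD (pS TT)
open UniformSpace (Completion)

noncomputable section

variable {D : Type*} [NormedAddCommGroup D] [InnerProductSpace ℂ D] {c : Cx D}

namespace GDa

variable {s : ℝ} {L : Ix → V}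

lemma ev_pS (hs : 0 < s) (hL : IsLor L) (f : Sch) :
    ev (pS s L f) = fun x => ev f (sim s L 0 x) := funext (TPD.pS_apply hs hL f)

lemma hcs_sim (g : PUG) (hs : 0 < s) (hL : IsLor L) {f : Fn} (h : HasCompactSupport f) :
    HasCompactSupport fun x => f (sim s L 0 x) :=
  .intro (g.cpt s L 0 _ hs hL h) fun x hx => image_eq_zero_of_notMem_tsupport hx

lemma cs_sim (g : PUG) (hs : 0 < s) (hL : IsLor L) {f : Fn} (h : CS f) :
    CS fun x => f (sim s L 0 x) :=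
  ⟨h.1.elim fun F e => ⟨pS s L F, e ▸ ev_pS hs hL F⟩, hcs_sim g hs hL h.2⟩

lemma sim_sim (s s' : ℝ) (L L' : Ix → V) (x : V) :
    sim (s * s') (fun m => sim 1 L 0 (L' m)) 0 x = sim s L 0 (sim s' L' 0 x) := by
  funext n
  simp only [sim, Pi.zero_apply, zero_add, one_mul, Fin.sum_univ_four]
  ring

lemma sim0 (s : ℝ) (L : Ix → V) : sim s L 0 0 = 0 := by
  funext n
  simp [sim]

lemma mm_assoc (A B C : Ix → V) : mm (mm A B) C = mm A (mm B C) := by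
  funext m n
  simp only [mm, Fin.sum_univ_four]
  ring

lemma one_mm (A : Ix → V) : mm GF.one A = A := by
  funext m n
  simp [mm, GF.one, bas]

lemma vv (e : EXT c) {P P' : Fld D} (h : c.CF P P') : ∃ z, c.Vv P z := e.vac P P' _ h.l h.jl

lemma al (h : L3 c) {P P' : Fld D} {y : TT D} (hs : 0 < s) (hL : IsLor L) (p : c.Gd P P' y) :
    ∃ R R', c.Gd R R' (Ug c.Q s L 0 ∘L y ∘L pS s L) ∧ c.Cj s L 0 R P := by
  obtain ⟨R, R', a1, a2⟩ := p.gc s L hs hL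
  refine ⟨R, R', ⟨a1, fun s' L' hs' hL' => ?_, fun f hf => ?_⟩, a2⟩
  · obtain ⟨Z, Z', b1, b2⟩ := p.gc _ _ (mul_pos hs' hs) (ue_lor hL' hL)
    refine ⟨Z, Z', b1, fun f v hf => ?_⟩
    obtain ⟨w, rfl⟩ := h.ba.surj s L 0 v hs hL
    rw [a2 _ w (cs_sim h.pug hs' hL' hf), c.mul _ _ _ _ _ _ _ hs' hs hL' hL,
      c.mul _ _ _ _ _ _ _ hs' hs hL' hL, sim0, b2 f w hf]
    simp only [sim_sim]
  · have e := a2 _ c.Q.vac ⟨⟨f, rfl⟩, hf⟩
    have k : HasCompactSupport (ev (pS s L f)) := by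
      rw [ev_pS hs hL]
      exact hcs_sim h.pug hs hL hf
    rw [c.Q.U_vac s L 0 hs hL] at e
    rw [e, ← ue_coe hs hL, ← Ug_apply _ hs hL, ← ev_pS hs hL, ← p.vv _ k]
    rfl

lemma uniq (h : L3 c) {P P' R R' : Fld D} {y : TT D} (p : c.CF P P') (a : c.Vv P y)
    (r : c.CF R R') (b : c.Vv R y) (f : Fn) (v : D) (hf : CS f) : P f v = R f v := by
  have k := h.clm.add _ _ _ _ (-1) p.toC0 r.toC0
  have := h.sep _ _ k.l k.r (fun f ⟨⟨F, e⟩, hf⟩ => by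
    subst e
    rw [lc, Completion.coe_injective _ ((a F hf).symm.trans (b F hf)), neg_one_smul,
      add_neg_cancel]) f v hf
  rwa [lc, neg_one_smul, add_neg_eq_zero] at this

end GDa

open GDa in
/-- row GD -/
theorem gd_row (c : Cx D) (h : L3 c) (d : DEC c) : GD c := by
  refine ⟨⟨h.clm.zero, fun s L hs hL => ⟨0, 0, h.clm.zero, fun _ _ _ => ?_⟩,
    fun _ _ => Completion.coe_zero.symm⟩, fun P P' y R R' z a p r =>
    ⟨h.clm.addf _ _ _ _ a p.cf r.cf, fun s L hs hL => ?_, fun f hf => ?_⟩,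
    fun _ _ _ _ _ => uniq h, fun a P P' y p => ⟨h.clm.dff _ _ a p.cf, fun s L hs hL => ?_,
      fun f hf => ?_⟩, fun _ _ _ _ _ => GDa.al h,
    fun P P' y p => (vv h.ext (d.s _ _ p.cf)).imp fun z hz =>
      ⟨d.s _ _ p.cf, fun s L hs hL => ?_, hz⟩,
    fun w P P' y hw p => (vv h.ext (d.w w _ _ hw p.cf)).imp fun z hz =>
      ⟨d.w w _ _ hw p.cf, fun s L hs hL => ?_, hz⟩,
    fun b P P' y p => (vv h.ext (d.k b _ _ p.cf)).imp fun z hz =>
      ⟨d.k b _ _ p.cf, fun s L hs hL => ?_, hz⟩⟩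
  · simpa using (ue_smul hs hL 0 0 (0 : D)).symm
  · obtain ⟨P1, P1', a1, a2⟩ := p.gc s L hs hL
    obtain ⟨R1, R1', b1, b2⟩ := r.gc s L hs hL
    exact ⟨_, _, h.clm.addf _ _ _ _ a a1 b1, fun f v hf => by
      rw [lc, lc, a2 f v hf, b2 f v hf, ue_add hs hL, ue_smul hs hL]⟩
  · rw [lc, Completion.coe_add, Completion.coe_smul, ← p.vv f hf, ← r.vv f hf]
    rfl
  · obtain ⟨_, _, a1, a2⟩ := p.gc s L hs hL
    exact ⟨_, _, h.clm.dff _ _ _ a1, h.cov.df s L 0 a _ _ hs hL a2⟩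
  · have k : HasCompactSupport (KDa.dS a f) := hf.fderiv_apply ℝ a
    rw [Df, ← KDa.ev_dS, ← p.vv _ k]
    rfl
  · obtain ⟨_, _, a1, a2⟩ := p.gc s L hs hL
    have e := h.cov.sg s L 0 _ _ _ _ _ hs hL kil_d a1.l p.cf.l a2
    rw [h.pk.xd s L hs hL] at e
    exact ⟨_, _, d.s _ _ a1, e⟩
  · obtain ⟨_, _, a1, a2⟩ := p.gc s L hs hL
    have k := (h.mat.cnj L w hL hw).2
    have e := h.cov.sg s L 0 _ _ _ _ _ hs hL (h.pk.kw _ k) a1.l p.cf.l a2
    rw [h.pk.xw s L _ w hs hL (by rw [← mm_assoc, ← mm_assoc, (h.mat.inv L hL).1, one_mm])] at e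
    exact ⟨_, _, d.w _ _ _ k a1, e⟩
  · obtain ⟨_, _, a1, a2⟩ := p.gc s L hs hL
    have e := h.cov.kb s L (s⁻¹ • b) _ _ _ _ hs hL a1.toC0 p.cf.toC0 a2
    rw [smul_inv_smul₀ hs.ne'] at e
    exact ⟨_, _, d.k _ _ _ a1, e⟩

end

end Vale.Agent.P352X.CA
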