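import Vale.Agent.P352X.CA.Alg

/-!
# P352X, block CA, row TEN: tensor identities
-/

set_option linter.all false

namespace Vale.Agent.P352X.CA

open Vale.Agent.P352 Vale.Agent.P352.GF Finset

noncomputable section

namespace Ten

variable {W : Type*} [AddCommGroup W] [Module ℂ W] {k : ℕ}

/-- one factor of the tensor representation is replaced -/
def kk (L w : Ix → V) (y : (Fin k → Ix) → W) (μ : Fin k → Ix) : W :=
  ∑ i, ∑ ν : Fin k → Ix, (((∏ j ∈ univ.erase i, L (ν j) (μ j)) * w (ν i) (μ i) : ℝ) : ℂ) • y ν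

theorem tl_one (y : (Fin k → Ix) → W) : tl GF.one y = y := by
  funext μ
  rw [tl, sum_eq_single μ]
  · simp [GF.one, bas]
  · intro ν _ h
    obtain ⟨i, hi⟩ := Function.ne_iff.1 h
    rw [prod_eq_zero (mem_univ i) (by simp [GF.one, bas, hi.symm]), Complex.ofReal_zero, zero_smul]
  · exact fun h => absurd (mem_univ _) h

theorem tl_mul (L L' : Ix → V) (y : (Fin k → Ix) → W) : tl L (tl L' y) = tl (mm L' L) y := by
  funext μ
  simp only [tl, mm, smul_sum, Fintype.prod_sum, Complex.ofReal_sum, sum_smul, smul_smul,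
    prod_mul_distrib, Complex.ofReal_mul]
  rw [sum_comm]
  simp only [mul_comm]

theorem prod_upd (f : Fin k → Ix → ℝ) (μ : Fin k → Ix) (i : Fin k) (n : Ix) :
    ∏ j, f j (Function.update μ i n j) = (∏ j ∈ univ.erase i, f j (μ j)) * f i n := by
  rw [← prod_erase_mul _ _ (mem_univ i), Function.update_self]
  exact congrArg (· * _) (prod_congr rfl fun j hj => by
    rw [Function.update_of_ne (ne_of_mem_erase hj)])

theorem gw_tl (L w : Ix → V) (y : (Fin k → Ix) → W) : gw w (tl L y) = kk L (mm L w) y := by
  funext μ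
  refine sum_congr rfl fun i _ => ?_
  simp only [tl, mm, smul_sum, mul_sum, Complex.ofReal_sum, sum_smul,
    smul_smul]
  rw [sum_comm]
  refine sum_congr rfl fun ν _ => sum_congr rfl fun n _ => ?_
  rw [prod_upd fun j => L (ν j)]
  push_cast
  congr 1
  ring

/-- exchange of the `i`-th entry with a spare index -/
def sw (i : Fin k) : (Fin k → Ix) × Ix ≃ (Fin k → Ix) × Ix :=
  Function.Involutive.toPerm (fun p => (Function.update p.1 i p.2, p.1 i)) fun p => by simp

theorem tl_gw (L w : Ix → V) (y : (Fin k → Ix) → W) : tl L (gw w y) = kk L (mm w L) y := by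
  funext μ
  simp only [tl, gw, smul_sum]
  rw [sum_comm]
  refine sum_congr rfl fun i _ => ?_
  rw [← Fintype.sum_prod_type', ← (sw i).sum_comp, Fintype.sum_prod_type]
  refine sum_congr rfl fun ν _ => ?_
  simp only [mm, mul_sum, Complex.ofReal_sum, sum_smul, smul_smul]
  refine sum_congr rfl fun n _ => ?_
  change ((∏ j, L (Function.update ν i n j) (μ j) : ℝ) *
    (w (ν i) (Function.update ν i n i) : ℝ) : ℂ) •
      y (Function.update (Function.update ν i n) i (ν i)) = _
  rw [prod_upd fun j m => L m (μ j), Function.update_idem, Function.update_eq_self,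
    Function.update_self]
  push_cast
  congr 1
  ring

theorem mm_one (w : Ix → V) : mm GF.one w = w := by
  funext m n
  simp [mm, GF.one, bas]

end Ten

open Ten

/-- row TEN -/
theorem ten_row (W : Type*) [AddCommGroup W] [Module ℂ W] : TEN W where
  one _ := tl_one
  mul _ := tl_mul
  int _ L w w' y h := by rw [gw_tl, tl_gw, h]
  lin _ w w' r y μ := by
    simp only [gw, Pi.add_apply, Pi.smul_apply, smul_eq_mul, Complex.ofReal_add,
      Complex.ofReal_mul, add_smul, sum_add_distrib, smul_sum, smul_smul]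
  cons _ L y ν := by
    simp only [tl, smul_sum, smul_smul]
    rw [← Fintype.sum_prod_type', ← (Fin.consEquiv fun _ => Ix).sum_comp]
    refine sum_congr rfl fun p _ => ?_
    rw [Fin.prod_univ_succ, Complex.ofReal_mul]
    rfl

/-- row TEN, second part -/
theorem tder_row : TDER := fun k L w φ φ' μ h0 hL hφ => by
  have d := HasDerivAt.fun_sum (u := univ) fun (ν : Fin k → Ix) _ =>
    (HasDerivAt.fun_finset_prod (u := univ) fun i _ => hL (ν i) (μ i)).ofReal_comp.mul (hφ ν)
  refine d.congr_deriv ?_
  rw [sum_add_distrib, h0]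
  congr 1
  · rw [← tl_one (φ 0), gw_tl, mm_one, tl_one, kk, sum_comm]
    simp only [smul_eq_mul, Complex.ofReal_sum, sum_mul]
  · exact congrFun (tl_one φ') μ

end

end Vale.Agent.P352X.CA
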