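import Vale.Agent.P352X.CA.Spec
import Vale.Agent.P352X.CA.TEN

/-!
# P352X, block CA: the tensor fields of the theory; covariance of the extended fields
-/

set_option linter.all false

open Filter Topology
open scoped SchwartzMap ComplexConjugate

namespace Vale.Agent.P352X.CA

open Vale.Agent.P352 Vale.Agent.P352.GF Vale.Agent.P352.BW Vale.Agent.P352.H246
open Vale.Agent.P352.H496 Vale.Agent.P352.H755
open TPD (pS TT pS_apply)
open UniformSpace (Completion)

noncomputable section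

variable {D : Type*} [NormedAddCommGroup D] [InnerProductSpace ℂ D]

namespace INI

theorem sim_one (s : ℝ) (x : V) : sim s GF.one 0 x = s • x := by
  funext n
  simp [sim, GF.one, bas]

variable {s : ℝ} {L : Ix → V}

theorem cs_sim (hs : 0 < s) (hL : IsLor L) {f : Fn} (hf : H755.CS f) :
    H755.CS fun x => f (sim s L 0 x) :=
  ⟨Grp.test_sim hs hL 0 hf.1, by
    simp only [← H755.simE_apply hs hL]
    exact hf.2.comp_homeomorph (H755.simE s L hs hL).toContinuousLinearEquiv.toHomeomorph⟩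

theorem ev_pS (hs : 0 < s) (hL : IsLor L) (f : Sch) :
    ev (pS s L f) = fun x => ev f (sim s L 0 x) := funext (pS_apply hs hL f)

theorem cv (c : Cx D) {k : ℕ} {d : ℂ} {Φ : (Fin k → Ix) → Fld D} (h : IsTc c.Q k d Φ) (hs : 0 < s)
    (hL : IsLor L) {f : Fn} (hf : IsTest f) (v : D) (μ : Fin k → Ix) :
    Φ μ f (c.Q.U s L 0 v) = (s : ℂ) ^ (4 - d) •
      tl L (fun ν => c.Q.U s L 0 (Φ ν (fun x => f (sim s L 0 x)) v)) μ := by
  have h1 := Vale.Agent.P352.isLor_one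
  have e : ∀ w, c.Q.U s GF.one 0 (c.Q.U 1 L 0 w) = c.Q.U s L 0 w := fun w => by
    rw [c.mul s _ 0 1 L 0 w hs one_pos h1 hL]
    simp [sim_one]
  have e' : ∀ x, sim s GF.one 0 (sim 1 L 0 x) = sim s L 0 x := fun x => by
    rw [sim_one]
    funext n
    simp [sim]
  rw [← e, h.2 μ s f _ hs hf, h.1.2 μ L _ v hL (Grp.test_sim hs h1 0 hf), tl,
    ← ueI_apply hs h1, map_sum]
  simp only [map_smul, ueI_apply, e, e']

end INI

open INI

theorem ini_row (c : Cx D) (h : L4 c) (x : Ops c) (f0 : Sch) : INI x f0 := by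
  intro k d Φ Φ' hΦ hb
  have cf : ∀ μ, c.CF (Φ μ) (Φ' μ) := fun μ => h.clb _ _ (hb μ).1 (hb μ).2.1 (hb μ).2.2
  choose y hy using fun μ => h.ext.vac _ _ c.Q.vac (cf μ).l (cf μ).jl
  have gd : ∀ μ, c.Gd (Φ μ) (Φ' μ) (y μ) := fun μ => ⟨cf μ, fun s L hs hL =>
    ⟨_, _, h.clm.sumf _ (fun ν => (s : ℂ) ^ (d - 4) * ((∏ i, linv L (ν i) (μ i) : ℝ) : ℂ)) _ _ cf,
      fun f v hf => by
        have e := congrFun ((ten_row D).mul k (linv L) L fun ν =>
          c.Q.U s L 0 (Φ ν (fun x => f (sim s L 0 x)) v)) μ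
        rw [(h.mat.inv L hL).1, (ten_row D).one] at e
        rw [← e, tl]
        refine Finset.sum_congr rfl fun ν _ => ?_
        rw [cv c hΦ hs hL hf.1, smul_smul, mul_right_comm,
          ← Complex.cpow_add _ _ (by exact_mod_cast hs.ne')]
        simp⟩, hy μ⟩
  refine ⟨fun μ => ⟨y μ, (x.mem _).2 ⟨_, _, gd μ⟩⟩, gd, fun s L μ hs hL =>
    Subtype.ext (h.ext.extv _ _ fun f hf => ?_)⟩
  have e := cv c hΦ hs hL ⟨f, rfl⟩ c.Q.vac μ
  rw [c.Q.U_vac s L 0 hs hL] at e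
  have hf' : HasCompactSupport (pS s L f) := by
    have := (cs_sim hs hL ⟨⟨f, rfl⟩, hf⟩).2
    rwa [← ev_pS hs hL] at this
  simp only [tl, Ops.dat, Submodule.coe_smul, Submodule.coe_sum, x.hal s L _ hs hL,
    ContinuousLinearMap.smul_apply, ContinuousLinearMap.sum_apply, ContinuousLinearMap.comp_apply,
    hy _ _ hf', hy _ _ hf, Ug_apply _ hs hL, ue_coe hs hL, ev_pS hs hL]
  rw [e, tl, ← Completion.coe_toComplL (𝕜 := ℂ)]
  simp only [map_smul, map_sum]

theorem cvp_row (c : Cx D) (h : L4 c) (x : Ops c) (f0 : Sch) : CVP x f0 := by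
  rintro k d P P' y A Ψ Ψ' gd mu loc hΨ μ s L _ v z hs hL ⟨f, rfl⟩
  refine congrFun (h.ext.ext ℂ
    (fun f => inner ℂ (c.Q.U s L 0 z : Completion D) (Ψ μ (ev f) (c.Q.U s L 0 v)))
    (fun f => ∑ ν : Fin k → Ix, (s : ℂ) ^ (4 - d) * (∏ i, L (ν i) (μ i) : ℝ) *
      inner ℂ (z : Completion D) (Ψ ν (fun x => ev f (sim s L 0 x)) v))
    (continuous_const.inner ((loc μ).cont _)) (continuous_finsetSum _ fun ν _ => ?_)
    fun f hf => ?_) f
  · simp only [← ev_pS hs hL]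
    exact continuous_const.mul (continuous_const.inner (((loc ν).cont v).comp (pS s L).continuous))
  have hf1 : H755.CS (ev f) := ⟨⟨f, rfl⟩, hf⟩
  choose R R' hR hC using fun ν => h.gd.al s L _ _ _ hs hL (gd ν)
  have e := h.gd.uniq _ _ _ _ _ (gd μ).cf (gd μ).vv (h.clm.sumf _
    (fun ν => (s : ℂ) ^ (4 - d) * ((∏ i, L (ν i) (μ i) : ℝ) : ℂ)) _ _ fun ν => (hR ν).cf)
    (fun g hg => by
      rw [mu s L μ hs hL, ← Completion.coe_toComplL (𝕜 := ℂ), map_sum]
      simp only [tl, Ops.dat, Submodule.coe_smul, Submodule.coe_sum, x.hal s L _ hs hL,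
        ContinuousLinearMap.smul_apply, ContinuousLinearMap.sum_apply, (hR _).vv g hg, map_smul,
        Finset.smul_sum, smul_smul, Completion.coe_toComplL]) _ (c.Q.U s L 0 v) hf1
  rw [hΨ _ _ _ hf1, e, Completion.inner_coe, inner_sum]
  refine Finset.sum_congr rfl fun ν _ => ?_
  rw [hC ν _ v hf1, inner_smul_right, c.Q.U_inner _ _ _ _ _ hs hL, hΨ _ _ _ (cs_sim hs hL hf1),
    Completion.inner_coe]

end

end Vale.Agent.P352X.CA
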