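import Vale.Agent.P352X.CA.Spec

/-!
# P352X, block CA, row LFT: from the vacuum to the operators
-/

set_option linter.all false

open scoped SchwartzMap ComplexConjugate

namespace Vale.Agent.P352X.CA

open Vale.Agent.P352 Vale.Agent.P352.GF Vale.Agent.P352.BW Vale.Agent.P352.H246
open Vale.Agent.P352.H496 Vale.Agent.P352.H755
open TPD (TT)
open Complex (I)

noncomputable section

variable {D : Type*} [NormedAddCommGroup D] [InnerProductSpace ℂ D] {c : Cx D}

namespace LFT

theorem cs_xg {f : Fn} (hf : CS f) (k : Ix) : CS (xg k f) := cs_mul hf (Mq.coord k)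

/-- multiplication by an affine function -/
theorem aff {P P' : Fld D} (h : c.F0 P P') {f : Fn} (hf : CS f) (v : D) (α : ℂ) (β : Ix → ℂ) :
    P (fun x => (α + ∑ k, β k * x k) * f x) v = α • P f v + ∑ k, β k • P (xg k f) v := by
  have z : P (fun _ => 0) v = 0 := by
    have := h.lin _ _ 1 v cs_zero cs_zero
    simpa using this
  have c0 := cs_add cs_zero hf α
  have c1 := cs_add c0 (cs_xg hf 0) (β 0)
  have c2 := cs_add c1 (cs_xg hf 1) (β 1)
  have c3 := cs_add c2 (cs_xg hf 2) (β 2)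
  have := h.lin _ _ (β 3) v c3 (cs_xg hf 3)
  rw [h.lin _ _ _ v c2 (cs_xg hf 2), h.lin _ _ _ v c1 (cs_xg hf 1), h.lin _ _ _ v c0 (cs_xg hf 0),
    h.lin _ _ _ v cs_zero hf, z, zero_add] at this
  rw [Fin.sum_univ_four fun k => β k • P (xg k f) v, ← add_assoc, ← add_assoc, ← add_assoc, ← this]
  congr 1
  funext x
  simp only [Fin.sum_univ_four, xg]
  ring

theorem un (h : L4 c) {ι : Type} [Fintype ι] (z : ι → ℂ) {P P' : ι → Fld D} {y : ι → TT D}
    (hP : ∀ i, c.Gd (P i) (P' i) (y i)) {R R' : Fld D} {Y : TT D} (hR : c.Gd R R' Y)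
    (e : Y = ∑ i, z i • y i) {f : Fn} (v : D) (hf : CS f) : R f v = ∑ i, z i • P i f v :=
  h.gd.uniq _ _ _ _ Y hR.cf hR.vv (h.clm.sumf ι z P P' fun i => (hP i).cf) (fun g hg => by
    rw [e, ContinuousLinearMap.sum_apply, ← UniformSpace.Completion.coe_toComplL (𝕜 := ℂ), map_sum]
    refine Finset.sum_congr rfl fun i _ => ?_
    rw [map_smul, ContinuousLinearMap.smul_apply, (hP i).vv g hg]
    rfl) f v hf

theorem tr {w : Ix → V} (h : As w) (n : Ix) : w n n = 0 := by
  have := h n n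
  unfold eta at this
  split_ifs at this <;> linarith

theorem bas_dot (k : Ix) (b : V) : GF.mdot (bas k 1) b = eta k * b k := by
  simp [GF.mdot, bas]

theorem wd_eq (x b : V) (m n : Ix) : wd x b m n = ∑ k, wd (bas k 1) b m n * x k := by
  simp only [wd, bas, sub_mul, Finset.sum_sub_distrib, mul_ite, ite_mul, mul_zero, zero_mul,
    Finset.sum_ite_eq, Finset.mem_univ, if_true]
  ring

end LFT

open LFT in
theorem lft_row (c : Cx D) (h : L4 c) (x : Ops c) : LFT x := by
  intro k Δ P P' y X a b r w hP hS hM hK hX μ f v hf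
  have eS {f : Fn} (hf : CS f) : Sg c.t Xd (P μ) f v = (Δ : ℂ) • P μ f v := by
    simpa using un h (fun _ : Unit => (Δ : ℂ)) (fun _ => hP μ) (x.hS _ _ _ (hP μ))
      (by simp [hS]) v hf
  have eW {w : Ix → V} (hw : As w) {f : Fn} (hf : CS f) : Sg c.t (Xw w) (P μ) f v =
      -∑ i, ∑ n, (w n (μ i) : ℂ) • P (Function.update μ i n) f v := by
    simpa [Fintype.sum_prod_type] using un h (fun q : Fin k × Ix => -(w q.2 (μ q.1) : ℂ))
      (fun q => hP (Function.update μ q.1 q.2)) (x.hM w _ _ _ hw (hP μ))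
      (by simp [hM w μ hw, gw, Fintype.sum_prod_type]) v hf
  have eK : c.Kb b (P μ) f v = 0 := by
    simpa using un h (fun _ : Empty => (0 : ℂ)) (fun _ => hP μ) (x.hK b _ _ _ (hP μ))
      (by simp [hK]) v hf
  have e1 := h.dec.dec X a b r w _ _ f v hX (hP μ).cf hf
  simp only [Cx.Tb, eS hf, eS (cs_xg hf _), eW hX.1 hf, eW (h.mat.aswd _ _) (cs_xg hf _), eK,
    bas_dot] at e1
  have A (ν) (m n : Ix) : P ν (fun x => pd n (fun y => (X m y : ℂ)) x * f x) v =
      ((r * GF.one n m + w n m : ℝ) : ℂ) • P ν f v + ∑ l,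
        ((2 * (eta l * b l) * GF.one n m + wd (bas l 1) b n m : ℝ) : ℂ) • P ν (xg l f) v := by
    rw [← aff (hP ν).cf.l hf]
    congr 1
    funext x
    rw [h.pk.d1 X a b r w n m x hX, wd_eq x, GF.mdot]
    simp only [Fin.sum_univ_four]
    push_cast
    ring
  have B : P μ (fun x => (∑ n, pd n (fun y => (X n y : ℂ)) x) * f x) v =
      ((4 * r : ℝ) : ℂ) • P μ f v + ∑ l, ((8 * (eta l * b l) : ℝ) : ℂ) • P μ (xg l f) v := by
    rw [← aff (hP μ).cf.l hf]
    congr 1
    funext x
    simp only [h.pk.d1 X a b r w _ _ x hX, tr hX.1, tr (h.mat.aswd _ _), GF.mdot, GF.one, bas,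
      if_true, Fin.sum_univ_four]
    push_cast
    ring
  have C (i : Fin k) : ∑ n, P (Function.update μ i n)
      (fun x => pd n (fun y => (X (μ i) y : ℂ)) x * f x) v =
      ((r : ℂ) • P μ f v + ∑ l, ((2 * (eta l * b l) : ℝ) : ℂ) • P μ (xg l f) v) +
      (∑ n, (w n (μ i) : ℂ) • P (Function.update μ i n) f v +
        ∑ l, ∑ n, (wd (bas l 1) b n (μ i) : ℂ) • P (Function.update μ i n) (xg l f) v) := by
    have o1 (s : ℝ) (g : Fn) : ∑ n, ((s * GF.one n (μ i) : ℝ) : ℂ) •
        P (Function.update μ i n) g v = (s : ℂ) • P μ g v := by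
      rw [Finset.sum_eq_single (μ i) (fun n _ hn => by simp [GF.one, bas, hn.symm]) (by simp)]
      simp [GF.one, bas]
    simp only [A, Complex.ofReal_add, add_smul, Finset.sum_add_distrib, o1]
    rw [Finset.sum_comm, Finset.sum_comm (f := fun n l => (wd (bas l 1) b n (μ i) : ℂ) • _)]
    simp only [o1]
    abel
  have e2 : Phi c.t X (P μ) f v = I • (∑ n, P μ (pd n fun x => X n x * f x) v -
      Sg c.t X (P μ) f v) := by
    rw [Sg, sub_add_cancel_left, smul_neg, smul_smul, Complex.I_mul_I, neg_smul, one_smul, neg_neg]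
  rw [e2, e1, rhs, B]
  simp only [C, Finset.sum_add_distrib, Finset.sum_const, Finset.card_univ, Fintype.card_fin,
    Finset.sum_neg_distrib]
  rw [Finset.sum_comm (f := fun (i : Fin k) (l : Ix) => ∑ n, (wd (bas l 1) b n (μ i) : ℂ) • _)]
  congr 1
  simp only [Fin.sum_univ_four (f := fun l => _ • P μ (xg l f) v),
    Fin.sum_univ_four (f := fun l => _ • _ • P μ (xg l f) v)]
  push_cast
  module

end

end Vale.Agent.P352X.CA
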