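import Vale.Agent.P352X.CA.Alg

/-!
# P352X, block CA, rows LO1 and QA: the invariance of the scalar product, differentiated
-/

set_option linter.all false

open scoped ComplexConjugate

namespace Vale.Agent.P352X.CA

open Vale.Agent.P352 Vale.Agent.P352.GF Vale.Agent.P352.H246
open TPD (Lsc Lg)
open Complex (I)

variable {W H : Type*} [AddCommGroup W] [Module ℂ W] [NormedAddCommGroup H]
  [InnerProductSpace ℂ H] (A : Dat W H)

namespace LO1

variable {k : ℕ}

theorem tl_l (L : Ix → V) (y : (Fin k → Ix) → W) (μ) (z : W) :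
    A.ii (tl L y μ) z = tl L (fun α => A.ii (y α) z) μ := by
  simp only [Dat.ii, tl, map_sum, map_smul, sum_inner, inner_smul_left, Complex.conj_ofReal,
    smul_eq_mul]

theorem tl_r (L : Ix → V) (y : W) (z : (Fin k → Ix) → W) (μ) :
    A.ii y (tl L z μ) = tl L (fun α => A.ii y (z α)) μ := by
  simp only [Dat.ii, tl, map_sum, map_smul, inner_sum, inner_smul_right, smul_eq_mul]

theorem gw_l (w : Ix → V) (y : (Fin k → Ix) → W) (μ) (z : W) :
    A.ii (gw w y μ) z = gw w (fun α => A.ii (y α) z) μ := by
  simp only [Dat.ii, gw, map_sum, map_smul, sum_inner, inner_smul_left, Complex.conj_ofReal,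
    smul_eq_mul]

theorem gw_r (w : Ix → V) (y : W) (z : (Fin k → Ix) → W) (μ) :
    A.ii y (gw w z μ) = gw w (fun α => A.ii y (z α)) μ := by
  simp only [Dat.ii, gw, map_sum, map_smul, inner_sum, inner_smul_right, smul_eq_mul]

theorem mue {d : ℂ} {y : (Fin k → Ix) → W} (h : A.Ax) (hy : A.Mu k d y) (μ) (e : ℝ) :
    y μ = Complex.exp (e * (4 - d)) • A.al (Real.exp e) GF.one (y μ) := by
  have := hy (Real.exp e) GF.one μ (Real.exp_pos e) isLor_one
  rwa [h.ten.one, Complex.cpow_def_of_ne_zero (by exact_mod_cast (Real.exp_pos e).ne'),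
    ← Complex.ofReal_log (Real.exp_pos e).le, Real.log_exp] at this

end LO1

open LO1

theorem lo1_row (h : A.Ax) : A.LO1 := fun k k' y z μ ν hy hz => by
  have as : As w0 := fun m n => by
    simp only [w0, Pi.smul_apply, smul_eq_mul, mul_left_comm (eta _)]
    rw [h.mat.aswd _ _ m n, mul_neg]
  have d := fun α β => h.der (fun _ => 1) (fun e => Lg (e • e2 0)) 0 w0 (y α) (z β) rfl h.mat.lg0
    (fun e => ⟨one_pos, (Grp.lga _).1⟩) as (hasDerivAt_const _ _) h.mat.lgd
  have d2 := h.tder k _ w0 _ _ μ h.mat.lg0 h.mat.lgd fun α =>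
    h.tder k' _ w0 _ _ ν h.mat.lg0 h.mat.lgd (d α)
  simp only [← tl_r, ← tl_l, ← gw_r, ← gw_l, ← hy _ _, ← hz _ _] at d2
  have e := d2.unique (hasDerivAt_const _ _)
  have m := h.hM w0 as (y μ) (z ν)
  simp only [h.mat.lg0, h.one] at e
  simp only [Dat.ii, LinearMap.sub_apply, LinearMap.smul_apply, map_add, map_sub, inner_add_left,
    inner_add_right, inner_sub_left, inner_sub_right, zero_smul, zero_add, Complex.ofReal_zero,
    mul_zero, sub_zero] at e m ⊢
  linear_combination e + m

theorem qa_row (h : A.Ax) : A.QA := fun d d' y hy z hz => by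
  induction hy using Submodule.span_induction with
  | zero => simp [Dat.ii]
  | add a b _ _ ha hb =>
    simp only [Dat.ii, map_add, map_sub, smul_add, inner_add_left, inner_sub_left] at ha hb ⊢
    linear_combination ha + hb
  | smul c a _ ha =>
    simp only [Dat.ii, map_smul, map_sub, inner_smul_left, inner_sub_left] at ha ⊢
    linear_combination conj c * ha
  | mem _ hy =>
  obtain ⟨k, y, μ, hy, rfl⟩ := hy
  induction hz using Submodule.span_induction with
  | zero => simp [Dat.ii]
  | add a b _ _ ha hb =>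
    simp only [Dat.ii, map_add, map_sub, smul_add, inner_add_right, inner_sub_right] at ha hb ⊢
    linear_combination ha + hb
  | smul c a _ ha =>
    simp only [Dat.ii, map_smul, map_sub, inner_smul_right, inner_sub_right] at ha ⊢
    linear_combination c * ha
  | mem _ hz =>
  obtain ⟨k', z, ν, hz, rfl⟩ := hz
  have d1 := h.der Real.exp (fun _ => GF.one) 1 0 (y μ) (z ν) Real.exp_zero rfl
    (fun e => ⟨Real.exp_pos e, isLor_one⟩) (fun m n => by simp)
    (by simpa using Real.hasDerivAt_exp 0) fun m n => hasDerivAt_const _ _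
  have d2 := (((hasDerivAt_id (0 : ℝ)).ofReal_comp.mul_const (8 - conj d - d')).cexp).fun_mul d1
  have c : ∀ e : ℝ, Complex.exp (e * (8 - conj d - d')) * A.ii (A.al (Real.exp e) GF.one (y μ))
      (A.al (Real.exp e) GF.one (z ν)) = A.ii (y μ) (z ν) := fun e => by
    conv_rhs => rw [mue A h hy μ e, mue A h hz ν e]
    simp only [Dat.ii, map_smul, inner_smul_left, inner_smul_right, ← Complex.exp_conj, map_mul,
      map_sub, Complex.conj_ofReal, map_ofNat, ← mul_assoc, ← Complex.exp_add]
    congr 2
    ring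
  simp only [id, c] at d2
  have e := d2.unique (hasDerivAt_const _ _)
  have m := h.hS (y μ) (z ν)
  simp only [Real.exp_zero, h.one, Dat.ii, LinearMap.sub_apply, LinearMap.smul_apply, map_sub,
    map_smul, inner_sub_left, inner_sub_right, inner_smul_left, inner_smul_right, one_smul,
    Pi.zero_apply, add_zero, Complex.ofReal_zero, Complex.ofReal_one, zero_mul, Complex.exp_zero,
    mul_one, one_mul, map_ofNat] at e m ⊢
  linear_combination e + m

end Vale.Agent.P352X.CA
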