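import Vale.Agent.P352X.CA.Alg

/-!
# P352X, block CA, rows LO2 and LOR: the Lorentz charges act geometrically
-/

set_option linter.all false

namespace Vale.Agent.P352X.CA

open Vale.Agent.P352 Vale.Agent.P352.GF Vale.Agent.P352.H246
open TPD (Lsc Lg)

noncomputable section

variable {W H : Type*} [AddCommGroup W] [Module ℂ W] [NormedAddCommGroup H]
  [InnerProductSpace ℂ H]

namespace LO2

variable {k : ℕ} {A : Dat W H} {w w' L : Ix → V} {y : (Fin k → Ix) → W}

theorem map_tl (T : W →ₗ[ℂ] W) (L : Ix → V) (y : (Fin k → Ix) → W) (μ) :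
    T (tl L y μ) = tl L (fun ν => T (y ν)) μ := by simp only [tl, map_sum, map_smul]

theorem map_gw (T : W →ₗ[ℂ] W) (w : Ix → V) (y : (Fin k → Ix) → W) (μ) :
    T (gw w y μ) = gw w (fun ν => T (y ν)) μ := by simp only [gw, map_sum, map_smul]

theorem tl_add (L : Ix → V) (y z : (Fin k → Ix) → W) (μ) :
    tl L (fun ν => y ν + z ν) μ = tl L y μ + tl L z μ := by
  simp only [tl, smul_add, Finset.sum_add_distrib]

theorem tl_smul (c : ℂ) (L : Ix → V) (y : (Fin k → Ix) → W) (μ) :
    tl L (fun ν => c • y ν) μ = c • tl L y μ := by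
  simp only [tl, Finset.smul_sum, smul_comm c]

theorem gw_smul (c : ℂ) (w : Ix → V) (y : (Fin k → Ix) → W) (μ) :
    gw w (fun ν => c • y ν) μ = c • gw w y μ := by
  simp only [gw, Finset.smul_sum, smul_comm c]

theorem as_lin (h : As w) (h' : As w') (r : ℝ) : As (w + r • w') := fun m n => by
  simp only [Pi.add_apply, Pi.smul_apply, smul_eq_mul]
  linear_combination h m n + r * h' m n

theorem as_zero : As 0 := fun m n => by simp

theorem as_smul (h : As w) (r : ℝ) : As (r • w) := by simpa using as_lin as_zero h r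

theorem lg (e : ℝ) : IsLor (Lg (e • e2 0)) := (Grp.lga _).1

theorem lsc {s : ℝ} (h : 0 < s) : IsLor (Lsc 1 s) := (Grp.lsc one_pos h).1

/-- the difference of the charge and the generator -/
def df (A : Dat W H) (w : Ix → V) (y : (Fin k → Ix) → W) (μ : Fin k → Ix) : W :=
  A.M w (y μ) + gw w y μ

variable (h : A.Ax)
include h

theorem df_lin (hw : As w) (hw' : As w') (r : ℝ) (μ) :
    df A (w + r • w') y μ = df A w y μ + (r : ℂ) • df A w' y μ := by
  rw [df, df, df, h.Mlin _ _ _ _ hw hw', h.ten.lin, smul_add]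
  abel

theorem df_zero (μ) : df A 0 y μ = 0 := by
  simpa using df_lin (y := y) h as_zero as_zero 1 μ

theorem df_smul (hw : As w) (r : ℝ) (μ) : df A (r • w) y μ = (r : ℂ) • df A w y μ := by
  simpa [df_zero h] using df_lin (y := y) h as_zero hw r μ

theorem as_w0 : As w0 := as_smul (h.mat.aswd _ _) _

/-- covariance of the difference -/
theorem cov {c : ℂ} {s : ℝ} (s0 : 0 < s) (hL : IsLor L) (hw : As w) (hw' : As w')
    (e : mm L w = mm w' L) (hy : ∀ μ, y μ = c • tl L (fun ν => A.al s L (y ν)) μ) (μ) :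
    df A w y μ = c • tl L (fun ν => A.al s L (df A w' y ν)) μ := by
  have e1 : gw w y μ = c • tl L (fun ν => A.al s L (gw w' y ν)) μ := by
    conv_lhs => rw [funext hy]
    rw [gw_smul, h.ten.int _ _ _ _ _ e]
    simp only [map_gw]
  have e2 : A.M w (y μ) = c • tl L (fun ν => A.al s L (A.M w' (y ν))) μ := by
    conv_lhs => rw [hy]
    simp only [map_smul, map_tl, h.alM s L w w' _ s0 hL hw hw' e]
  simp only [df, map_add, tl_add, smul_add, e1, e2]

theorem gc (hy : A.Gc y) : A.Gc (df A w0 y) := fun e μ =>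
  (cov h one_pos (lg e) (as_w0 h) (as_w0 h) (h.mat.lgw e)
    (fun μ => (hy e μ).trans (one_smul ℂ _).symm) μ).trans (one_smul ℂ _)

end LO2

open LO2

/-- row LO2 -/
theorem lo2_row (A : Dat W H) (h : A.Ax) (kil : A.KIL) (l : A.LO1) : A.LO2 := by
  intro k d y μ hy
  have g : ∀ n, A.Gc ((df A w0)^[n] y) := fun n => by
    induction n with
    | zero => exact fun e μ => by simpa using hy 1 _ μ one_pos (lg e)
    | succ n ih => exact Function.iterate_succ_apply' _ n y ▸ gc h ih
  have t : ∀ (s : ℝ), 0 < s → ∀ n μ, (df A w0)^[n] y μ =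
      ((Real.sqrt s : ℂ) ^ (4 - d) * (Real.sqrt s : ℂ) ^ n) • tl (Lsc 1 s)
        (fun ν => A.al (Real.sqrt (1 * s)) (Lsc 1 s) ((df A w0)^[n] y ν)) μ := fun s s0 n => by
    have s1 : 0 < Real.sqrt (1 * s) := Real.sqrt_pos.2 (by linarith)
    induction n with
    | zero => exact fun μ => by simpa using hy _ _ μ s1 (lsc s0)
    | succ n ih =>
      intro μ
      rw [Function.iterate_succ_apply', cov h s1 (lsc s0) (as_w0 h)
        (as_smul (as_w0 h) _) (h.mat.lsw s s0) ih]
      simp only [df_smul h (as_w0 h), map_smul, tl_smul, smul_smul, pow_succ, mul_assoc]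
  have z : ∀ n, (df A w0)^[n + 1] y = 0 → df A w0 y = 0 := fun n => by
    induction n with
    | zero => exact id
    | succ n ih =>
      refine fun e => ih (funext fun μ => h.inj ?_)
      have := l _ _ _ _ μ μ (g n) (g (n + 1))
      rw [Function.iterate_succ_apply'] at e
      change A.ii (df A w0 _ μ) _ + A.ii _ (df A w0 _ μ) = 0 at this
      rw [e, ← Function.iterate_succ_apply' (df A w0)] at this
      simpa [Dat.ii] using this
  obtain ⟨n, hn⟩ := exists_nat_gt (d.re + k)
  exact eq_neg_of_add_eq_zero_left (congrFun (z n (kil.tw k _ d (n + 1)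
    (by push_cast; linarith) fun s μ s0 _ => t s s0 _ μ)) μ)

/-- row LOR -/
theorem lor_row (A : Dat W H) (h : A.Ax) (m : A.MUL) (l : A.LO2) : A.LOR := by
  have geo : ∀ k d y w μ, A.Mu k d y → As w → A.M w (y μ) = -gw w y μ := by
    intro k d y w μ hy hw
    let S : Submodule ℝ (Ix → V) :=
      { carrier := {w | As w ∧ ∀ μ, df A w y μ = 0}
        zero_mem' := ⟨as_zero, df_zero h⟩
        add_mem' := fun {a b} ha hb => ⟨by simpa using as_lin ha.1 hb.1 1, fun μ => by
          simpa [ha.2, hb.2] using df_lin (y := y) h ha.1 hb.1 1 μ⟩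
        smul_mem' := fun r a ha => ⟨as_smul ha.1 r, fun μ => by
          rw [df_smul h ha.1, ha.2, smul_zero]⟩ }
    refine eq_neg_of_add_eq_zero_left ((h.mat.spw S (fun L hL => ⟨h.mat.aswd _ _, fun μ => ?_⟩)
      w hw).2 μ)
    have e : ∀ ν, df A (wd (ex 0) va) y ν = 0 := fun ν => by
      rw [show wd (ex 0) va = (2 : ℝ) • w0 by rw [w0, smul_smul]; simp, df_smul h (as_w0 h), df,
        l k d y ν hy, neg_add_cancel, smul_zero]
    rw [cov h one_pos hL (h.mat.aswd _ _) (h.mat.aswd _ _) (h.mat.wd L _ _ hL)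
      fun μ => hy 1 L μ one_pos hL]
    simp [e, tl]
  refine ⟨geo, fun d w hw y hy => ?_, fun d w hw y hy => ?_⟩
  · refine (Submodule.span_le (p := (A.Wd d).comap (A.M w))).2 ?_ hy
    rintro _ ⟨k, y, μ, hy, rfl⟩
    change A.M w (y μ) ∈ A.Wd d
    rw [geo k d y w μ hy hw]
    exact neg_mem (sum_mem fun i _ => sum_mem fun n _ => Submodule.smul_mem _ _
      (Submodule.subset_span ⟨k, y, _, hy, rfl⟩))
  · refine LinearMap.eqOn_span (f := A.S ∘ₗ A.M w) (g := A.M w ∘ₗ A.S) ?_ hy
    rintro _ ⟨k, y, μ, hy, rfl⟩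
    change A.S (A.M w (y μ)) = A.M w (A.S (y μ))
    rw [geo k d y w μ hy hw, geo k d _ w μ (m.S k d y hy) hw, map_neg, map_gw]

end

end Vale.Agent.P352X.CA
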