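import Vale.Agent.P352X.CA.Alg

/-!
# P352X, block CA, row MAT: matrix identities
-/

set_option linter.all false

namespace Vale.Agent.P352X.CA

open Vale.Agent.P352 Vale.Agent.P352.GF Vale.Agent.P352.H246
open TPD (Lsc Lg)

noncomputable section

namespace Mat

theorem e0' : eta 0 = 1 := rfl
theorem e1 : eta 1 = -1 := rfl
theorem e2' : eta 2 = -1 := rfl
theorem e3 : eta 3 = -1 := rfl

theorem sq (m : Ix) : eta m * eta m = 1 := by
  unfold eta
  split_ifs <;> norm_num

theorem ex_eq : ex 0 = ![0, 0, 1, 0] := by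
  funext m
  fin_cases m <;> simp [ex, tv, pt, e2, va, vb]

theorem one_eq : GF.one = ![![1, 0, 0, 0], ![0, 1, 0, 0], ![0, 0, 1, 0], ![0, 0, 0, 1]] := by
  funext m n
  fin_cases m <;> fin_cases n <;> simp [GF.one, bas]

theorem w0_eq : w0 = ![![0, 0, 1, 0], ![0, 0, -1, 0], ![1, 1, 0, 0], ![0, 0, 0, 0]] := by
  funext m n
  fin_cases m <;> fin_cases n <;> simp [w0, wd, ex_eq, va, e0', e1, e2', e3]

theorem Lg_eq (e : ℝ) : Lg (e • e2 0) = ![![1 + e ^ 2 / 2, e ^ 2 / 2, e, 0],
    ![-(e ^ 2 / 2), 1 - e ^ 2 / 2, -e, 0], ![e, e, 1, 0], ![0, 0, 0, 1]] := by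
  have h : tv ((1 / 2 : ℝ) • e • e2 0) = ![0, 0, e / 2, 0] := by
    funext m
    fin_cases m <;> simp [tv, pt, e2, va, vb]
    ring
  rw [Lg, h]
  funext m n
  simp only [H746.nrt, Pi.add_apply, Pi.sub_apply, Pi.smul_apply, bas]
  fin_cases m <;> fin_cases n <;>
    simp [va, GF.mdot, Fin.sum_univ_four, e0', e1, e2', e3] <;> ring

theorem Lsc_eq (r s : ℝ) : Lsc r s = ![![(√(r / s) + √(s / r)) / 2, (√(r / s) - √(s / r)) / 2, 0, 0],
    ![(√(r / s) - √(s / r)) / 2, (√(r / s) + √(s / r)) / 2, 0, 0], ![0, 0, 1, 0], ![0, 0, 0, 1]] := by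
  rw [Lsc]
  generalize √(r / s) = x
  generalize √(s / r) = y
  funext m n
  simp only [H755.bst, Pi.add_apply, Pi.smul_apply, bas]
  fin_cases m <;> fin_cases n <;> simp [va, vb, e0', e1, e2', e3] <;> ring

theorem as_cnj (L w : Ix → V) (h : As w) : As (mm (mm L w) (linv L)) := fun m n => by
  have e : ∀ m n, eta n * mm (mm L w) (linv L) m n = ∑ k, ∑ j, L m j * (eta k * w j k) * L n k :=
    fun m n => by
      simp only [mm, linv, Finset.mul_sum, Finset.sum_mul]
      exact Finset.sum_congr rfl fun k _ => Finset.sum_congr rfl fun j _ => by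
        linear_combination (L m j * (eta k * w j k) * L n k) * sq n
  rw [e, e, Finset.sum_comm, ← Finset.sum_neg_distrib]
  refine Finset.sum_congr rfl fun j _ => ?_
  rw [← Finset.sum_neg_distrib]
  exact Finset.sum_congr rfl fun k _ => by rw [h j k]; ring

theorem linv_linv (L : Ix → V) : linv (linv L) = L := by
  funext m n
  simp only [linv]
  linear_combination (eta n * eta n * L m n) * sq m + L m n * sq n

theorem row {L : Ix → V} (h : IsLor L) (b : V) (m : Ix) :
    ∑ k, L m k * (eta k * sim 1 L 0 b k) = eta m * b m := by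
  have e : ∑ k, L m k * (eta k * sim 1 L 0 b k) = ∑ j, b j * GF.mdot (L m) (L j) := by
    simp only [sim, GF.mdot, Pi.zero_apply, zero_add, one_mul, Finset.mul_sum]
    rw [Finset.sum_comm]
    exact Finset.sum_congr rfl fun j _ => Finset.sum_congr rfl fun k _ => by ring
  simp [e, h.1, bas, mul_comm]

/-- the rotations -/
def R (σ : ℝ) : Fin 3 → Ix → V :=
  ![![![1, 0, 0, 0], ![0, σ, 0, 0], ![0, 0, 1, 0], ![0, 0, 0, σ]],
    ![![1, 0, 0, 0], ![0, 0, σ, 0], ![0, 0, 0, 1], ![0, σ, 0, 0]],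
    ![![1, 0, 0, 0], ![0, 0, 0, σ], ![0, 1, 0, 0], ![0, 0, σ, 0]]]

theorem R_lor {σ : ℝ} (h : σ * σ = 1) (i : Fin 3) : IsLor (R σ i) := by
  refine ⟨fun m n => ?_, ?_, ?_⟩
  · fin_cases i <;> fin_cases m <;> fin_cases n <;>
      simp [R, GF.mdot, bas, Fin.sum_univ_four, e0', e1, e2', e3, h]
  · fin_cases i <;> simp [R, o]
  · change Matrix.det (Matrix.of (R σ i)) = 1
    rw [Matrix.det_succ_row_zero]
    fin_cases i <;> simp [R, Matrix.det_fin_three, Fin.sum_univ_four, h]

theorem sim_va (L : Ix → V) : sim 1 L 0 va = L 0 + L 1 := by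
  funext n
  simp [sim, va, Fin.sum_univ_four]

theorem sim_ex (L : Ix → V) : sim 1 L 0 (ex 0) = L 2 := by
  funext n
  simp [sim, ex_eq, Fin.sum_univ_four]

end Mat

open Mat in
/-- row MAT -/
theorem mat_row : MAT where
  inv L h := by
    constructor <;> funext m n
    · have e : mm L (linv L) m n = eta n * GF.mdot (L m) (L n) := by
        simp only [mm, linv, GF.mdot, Finset.mul_sum]
        exact Finset.sum_congr rfl fun k _ => by ring
      rw [e, h.1, GF.one, bas, bas]
      split_ifs with k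
      · rw [k, Mat.sq]
      · rw [mul_zero]
    · have e : mm (linv L) L m n = eta m * ∑ k, eta k * L k m * L k n := by
        simp only [mm, linv, Finset.mul_sum]
        exact Finset.sum_congr rfl fun k _ => by ring
      rw [e, lor_transpose h, GF.one, bas, bas]
      split_ifs with k
      · rw [Mat.sq]
      · rw [mul_zero]
  sim L L' := by
    funext m n
    simp [GF.sim, mm]
  aswd a b m n := by
    simp only [wd]
    ring
  cnj L w _ h := ⟨as_cnj L w h, by simpa only [linv_linv] using as_cnj (linv L) w h⟩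
  wd L a b h := by
    funext m n
    have e : mm L (wd (GF.sim 1 L 0 a) (GF.sim 1 L 0 b)) m n =
        2 * (∑ k, L m k * (eta k * GF.sim 1 L 0 b k)) * GF.sim 1 L 0 a n -
          2 * (∑ k, L m k * (eta k * GF.sim 1 L 0 a k)) * GF.sim 1 L 0 b n := by
      simp only [mm, wd, Finset.mul_sum, Finset.sum_mul, ← Finset.sum_sub_distrib]
      exact Finset.sum_congr rfl fun k _ => by ring
    rw [e, row h, row h]
    simp only [mm, wd, GF.sim, Pi.zero_apply, zero_add, one_mul, Finset.mul_sum,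
      ← Finset.sum_sub_distrib]
    exact Finset.sum_congr rfl fun k _ => by ring
  lg0 := by
    rw [Lg_eq, one_eq]
    simp
  lgd m n := by
    have e : (fun e : ℝ => Lg (e • e2 0) m n) = fun e : ℝ =>
        GF.one m n + e * w0 m n + e ^ 2 * (eta m * va m * va n / 2) := by
      funext e
      rw [Lg_eq, one_eq, w0_eq]
      fin_cases m <;> fin_cases n <;> simp [va, e0', e1, e2', e3] <;> ring
    rw [e]
    simpa using (((hasDerivAt_id (0 : ℝ)).mul_const (w0 m n)).const_add (GF.one m n)).fun_add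
      ((hasDerivAt_pow 2 (0 : ℝ)).mul_const (eta m * va m * va n / 2))
  lgw e := by
    rw [Lg_eq, w0_eq]
    funext m n
    fin_cases m <;> fin_cases n <;> simp [mm, Fin.sum_univ_four] <;> ring
  lsw s hs := by
    have h : √s * √(1 / s) = 1 := by
      rw [← Real.sqrt_mul hs.le, mul_one_div_cancel hs.ne', Real.sqrt_one]
    rw [Lsc_eq, w0_eq, div_one]
    generalize √(1 / s) = x at h
    funext m n
    fin_cases m <;> fin_cases n <;> simp [mm, Fin.sum_univ_four] <;> linarith
  lsb s m n hs h1 := by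
    have h0 : 0 < √s := Real.sqrt_pos.2 hs
    have h2 : √s ≤ 1 := Real.sqrt_le_one.2 h1
    have h3 : 1 ≤ (√s)⁻¹ := (one_le_inv₀ h0).2 h2
    rw [Lsc_eq, div_one, one_div, Real.sqrt_inv, div_eq_mul_inv 2, abs_le]
    generalize (√s)⁻¹ = x at h3
    fin_cases m <;> fin_cases n <;> simp <;> (try constructor) <;> linarith
  ls1 r hr := by
    rw [Lsc_eq, div_self hr.ne', one_eq]
    simp
  spw S h w hw := by
    have a := fun i => h _ (R_lor (one_mul 1) i)
    have b := fun i => h _ (R_lor (σ := -1) (by norm_num) i)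
    simp only [sim_va, sim_ex] at a b
    convert S.add_mem (S.add_mem
      (S.add_mem (S.smul_mem ((w 0 2 + w 2 1) / 4) (a 0)) (S.smul_mem ((w 0 2 - w 2 1) / 4) (b 0)))
      (S.add_mem (S.smul_mem ((w 0 3 + w 3 2) / 4) (a 1)) (S.smul_mem ((w 0 3 - w 3 2) / 4) (b 1))))
      (S.add_mem (S.smul_mem ((w 0 1 + w 1 3) / 4) (a 2)) (S.smul_mem ((w 0 1 - w 1 3) / 4) (b 2)))
    funext m n
    have k := hw m n
    fin_cases m <;> fin_cases n <;> simp [wd, R, e0', e1, e2', e3] at k ⊢ <;> linarith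
  spv S h := by
    have a := fun i => h _ (R_lor (one_mul 1) i)
    have b := fun i => h _ (R_lor (σ := -1) (by norm_num) i)
    simp only [sim_va] at a b
    refine eq_top_iff.2 fun v _ => ?_
    convert S.add_mem (S.add_mem
      (S.add_mem (S.smul_mem ((v 0 + v 1) / 2) (a 0)) (S.smul_mem ((v 0 - v 1) / 2) (b 0)))
      (S.smul_mem (v 2 / 2) (S.sub_mem (a 1) (b 1)))) (S.smul_mem (v 3 / 2) (S.sub_mem (a 2) (b 2)))
    funext n
    fin_cases n <;> simp [R] <;> ring

end

end Vale.Agent.P352X.CA
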