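import Vale.Agent.P352X.CA.Spec
import Vale.Agent.P352X.Api3d

/-!
# P352X, block CA, row NUL: test functions whose Fourier transform vanishes on the cone
-/

set_option linter.all false

open MeasureTheory Filter Topology
open scoped SchwartzMap ComplexConjugate ContDiff Nat

namespace Vale.Agent.P352X.CA

open Vale.Agent.P352 Vale.Agent.P352.GF Vale.Agent.P352.BW Vale.Agent.P352.H246
open Vale.Agent.P352.H496 Vale.Agent.P352.H755
open Complex (I)

noncomputable section

namespace NL

theorem st_tg : Real.smoothTransition.HasTemperateGrowth := by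
  have hs : ContDiff ℝ ∞ Real.smoothTransition := Real.smoothTransition.contDiff
  refine Function.HasTemperateGrowth.of_fderiv (k := 0) (C := 1) ?_
    (hs.differentiable (by simp)) fun x => ?_
  · refine HasCompactSupport.hasTemperateGrowth ?_ (hs.fderiv_right (m := ∞) (by simp))
    refine HasCompactSupport.intro (K := Set.Icc 0 1) isCompact_Icc fun x hx => ?_
    rcases not_and_or.1 hx with h | h
    · have : Real.smoothTransition =ᶠ[𝓝 x] fun _ => 0 :=
        mem_of_superset (Iio_mem_nhds (not_le.1 h)) fun y hy =>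
          Real.smoothTransition.zero_of_nonpos (le_of_lt hy)
      rw [this.fderiv_eq]; simp
    · have : Real.smoothTransition =ᶠ[𝓝 x] fun _ => 1 :=
        mem_of_superset (Ioi_mem_nhds (not_le.1 h)) fun y hy =>
          Real.smoothTransition.one_of_one_le (le_of_lt hy)
      rw [this.fderiv_eq]; simp
  · rw [Real.norm_of_nonneg (Real.smoothTransition.nonneg x)]
    simpa using Real.smoothTransition.le_one x

/-- a smooth positive part -/
def ph (u : ℝ) : ℝ := u * Real.smoothTransition u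

theorem ph_tg : ph.HasTemperateGrowth := Function.HasTemperateGrowth.id'.mul st_tg

theorem ph_zero {u : ℝ} (h : u ≤ 0) : ph u = 0 := by
  rw [ph, Real.smoothTransition.zero_of_nonpos h, mul_zero]

theorem ph_nonneg (u : ℝ) : 0 ≤ ph u := by
  rcases le_total u 0 with h | h
  · exact (ph_zero h).ge
  · exact mul_nonneg h (Real.smoothTransition.nonneg u)

theorem ph_ge (u : ℝ) : u - 1 ≤ ph u := by
  rcases le_total u 1 with h | h
  · linarith [ph_nonneg u]
  · rw [ph, Real.smoothTransition.one_of_one_le h]; linarith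

/-- equal to the energy on the cone, and growing everywhere -/
def hh (p : V) : ℝ := p o + ∑ m, (ph (p m - p o) + ph (-p m - p o))

/-- coordinates -/
def pj (m : Ix) : V →L[ℝ] ℝ := ContinuousLinearMap.proj m

theorem co_tg (m : Ix) : (fun p : V => p m).HasTemperateGrowth := (pj m).hasTemperateGrowth

theorem hh_tg : (fun p => -hh p).HasTemperateGrowth := by
  refine Function.HasTemperateGrowth.neg (f := hh) ((co_tg o).add ?_)
  refine Function.HasTemperateGrowth.sum (f := fun m (p : V) => ph (p m - p o) + ph (-p m - p o))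
    fun m _ => ?_
  exact (ph_tg.comp ((co_tg m).sub (co_tg o))).add (ph_tg.comp ((co_tg m).neg.sub (co_tg o)))

theorem hh_ge (p : V) : ‖p‖ ≤ hh p + 1 := by
  have h (m : Ix) : |p m| ≤ hh p + 1 := by
    have h1 : ph (p m - p o) + ph (-p m - p o) ≤ ∑ m, (ph (p m - p o) + ph (-p m - p o)) :=
      Finset.single_le_sum (f := fun m => ph (p m - p o) + ph (-p m - p o))
        (fun i _ => add_nonneg (ph_nonneg _) (ph_nonneg _)) (Finset.mem_univ m)
    have h2 := ph_ge (p m - p o)
    have h3 := ph_ge (-p m - p o)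
    have h4 := ph_nonneg (p m - p o)
    have h5 := ph_nonneg (-p m - p o)
    rw [hh, abs_le]
    constructor <;> linarith
  exact (pi_norm_le_iff_of_nonneg ((abs_nonneg _).trans (h o))).2 h

theorem abs_le {p : V} (hp : p ∈ Cn) (m : Ix) : |p m| ≤ p o := by
  obtain ⟨h0, h1⟩ := hp
  rw [mdot_eq] at h1
  refine abs_le_of_sq_le_sq ?_ h0
  fin_cases m <;> simp only [o, Fin.zero_eta, Fin.mk_one, Fin.reduceFinMk, Fin.isValue] <;>
    nlinarith [sq_nonneg (p 1), sq_nonneg (p 2), sq_nonneg (p 3)]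

theorem hh_cone {p : V} (hp : p ∈ Cn) : hh p = p o := by
  rw [hh, Finset.sum_eq_zero, add_zero]
  intro m _
  have := _root_.abs_le.1 (abs_le hp m)
  rw [ph_zero (by linarith), ph_zero (by linarith), add_zero]

/-- the Schwartz function `exp (-hh)` -/
def G : 𝓢(V, ℝ) where
  toFun := Real.exp ∘ fun p => -hh p
  smooth' := Real.contDiff_exp.comp hh_tg.1
  decay' j n := by
    obtain ⟨k, C, C0, hC⟩ := hh_tg.norm_iteratedFDeriv_le_uniform n
    refine ⟨n ! * (1 + C) ^ n * (Real.exp 2 * (j + k * n)!), fun x => ?_⟩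
    have x0 := norm_nonneg x
    have D1 : 1 ≤ (1 + C) * (1 + ‖x‖) ^ k :=
      one_le_mul_of_one_le_of_one_le (by linarith) (one_le_pow₀ (by linarith))
    have b := norm_iteratedFDeriv_comp_le (N := ∞) (n := n) Real.contDiff_exp hh_tg.1
      (by exact_mod_cast le_top) x (C := Real.exp (-hh x)) (D := (1 + C) * (1 + ‖x‖) ^ k)
      (fun i _ => by
        rw [norm_iteratedFDeriv_eq_norm_iteratedDeriv, iteratedDeriv_eq_iterate,
          Real.iter_deriv_exp, Real.norm_of_nonneg (Real.exp_pos _).le])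
      (fun i h1 h2 => ((hC i h2 x).trans (by gcongr; linarith)).trans
        (le_self_pow₀ D1 (by omega)))
    have e1 : Real.exp (-hh x) ≤ Real.exp 2 * Real.exp (-(1 + ‖x‖)) := by
      rw [← Real.exp_add]; gcongr; linarith [hh_ge x]
    have e2 : (1 + ‖x‖) ^ (j + k * n) * Real.exp (-(1 + ‖x‖)) ≤ (j + k * n)! := by
      have := Real.pow_div_factorial_le_exp (1 + ‖x‖) (by linarith) (j + k * n)
      rw [div_le_iff₀ (by positivity)] at this
      rw [Real.exp_neg, ← div_eq_mul_inv, div_le_iff₀ (Real.exp_pos _)]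
      exact this.trans_eq (mul_comm _ _)
    calc _ ≤ (1 + ‖x‖) ^ j * (n ! * (Real.exp 2 * Real.exp (-(1 + ‖x‖))) *
          ((1 + C) * (1 + ‖x‖) ^ k) ^ n) := by
          refine mul_le_mul (by gcongr; linarith) (b.trans (by gcongr)) (norm_nonneg _)
            (by positivity)
      _ = n ! * (1 + C) ^ n * (Real.exp 2 *
          ((1 + ‖x‖) ^ (j + k * n) * Real.exp (-(1 + ‖x‖)))) := by
          rw [mul_pow, ← pow_mul, pow_add]; ring
      _ ≤ _ := by gcongr

theorem ex : ∃ f0 : Sch, Z0 (ev f0) := by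
  refine ⟨ftS.symm (G.postcompCLM Complex.ofRealCLM), fun p hp => ?_⟩
  rw [ft_symm]
  show ((Real.exp (-hh p) : ℝ) : ℂ) = _
  rw [hh_cone hp]; push_cast; rfl

theorem dir {Φ : V → ℂ} {p v : V} (hΦ : DifferentiableAt ℝ Φ p)
    (hz : ∀ t : ℝ, 0 ≤ t → Φ (p + t • v) = 0) : fderiv ℝ Φ p v = 0 := by
  have h1 : HasDerivAt (fun t : ℝ => Φ (p + t • v)) (fderiv ℝ Φ p v) 0 :=
    hΦ.hasFDerivAt.hasLineDerivAt v
  have h2 : HasDerivWithinAt (fun t : ℝ => Φ (p + t • v)) 0 (Set.Ici 0) 0 :=
    (hasDerivWithinAt_const (0 : ℝ) (Set.Ici 0) (0 : ℂ)).congr hz (hz 0 le_rfl)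
  exact (uniqueDiffWithinAt_Ici (0 : ℝ)).eq_deriv _ h1.hasDerivWithinAt h2

theorem mem (m : Ix) {p : V} (hp : p ∈ Cn) {t : ℝ} (ht : 0 ≤ t) :
    p + t • (bas o 1 + bas m 1) ∈ Cn := by
  have a := _root_.abs_le.1 (abs_le hp m)
  obtain ⟨h0, h1⟩ := hp
  rw [mdot_eq] at h1
  simp only [o] at a h0
  refine ⟨?_, ?_⟩
  · fin_cases m <;> simp [bas, o] <;> positivity
  · rw [mdot_eq]
    fin_cases m <;> simp [bas, o] at a ⊢ <;> nlinarith [mul_nonneg ht h0]

/-- a function that vanishes on the cone has vanishing derivatives there -/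
theorem fd_zero {Φ : V → ℂ} {p : V} (hp : p ∈ Cn) (hΦ : DifferentiableAt ℝ Φ p)
    (hz : ∀ q ∈ Cn, Φ q = 0) (m : Ix) : fderiv ℝ Φ p (bas m 1) = 0 := by
  have h (m : Ix) := dir (v := bas o 1 + bas m 1) hΦ fun t ht => hz _ (mem m hp ht)
  have h0 := h o
  have h1 := h m
  rw [map_add] at h0 h1
  linear_combination h1 - h0 / 2

theorem ft_xg {f : Fn} (hf : IsTest f) (n : Ix) (p : V) :
    ft (H496.xg n f) p = -I * eta n * fderiv ℝ (ft f) p (bas n 1) := by
  have e : (eta n : ℂ) * eta n = 1 := by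
    simp only [eta]; split_ifs <;> simp
  have e2 (z : V) : GF.mdot (bas n 1) z = eta n * z n := by
    fin_cases n <;> simp [mdot_eq, bas, eta, o]
  simp only [fderiv_ft hf, e2, Complex.ofReal_mul, mul_assoc, ft_mul]
  show ft (fun z => (z n : ℂ) * f z) p = _
  linear_combination (ft (fun z => (z n : ℂ) * f z) p) * (eta n * eta n * Complex.I_mul_I - e)

theorem test_xg {f : Fn} (hf : IsTest f) (n : Ix) : IsTest (H496.xg n f) :=
  test_lin (pj n) hf

theorem dft {f : Fn} (hf : IsTest f) (p : V) : DifferentiableAt ℝ (ft f) p :=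
  (test_smooth (test_ft hf)).differentiable (by simp) p

end NL

open NL

theorem nul_row : NUL where
  ex := NL.ex
  pd m f hf h p hp := by rw [ft_pd hf, h p hp, mul_zero]
  xg m f hf h p hp := by rw [ft_xg hf, fd_zero hp (dft hf p) h, mul_zero]
  z0 m f hf h p hp := by
    have d : HasFDerivAt (fun q : V => Complex.exp (-(q o : ℂ))) (Complex.exp (-(p o : ℂ)) •
        -(Complex.ofRealCLM ∘L pj o)) p := (Complex.ofRealCLM ∘L pj o).hasFDerivAt.neg.cexp
    have z := fd_zero hp ((dft hf p).sub d.differentiableAt)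
      (fun q hq => sub_eq_zero.2 (h q hq)) m
    rw [((dft hf p).hasFDerivAt.sub d).fderiv, ContinuousLinearMap.sub_apply, sub_eq_zero] at z
    have t2 : IsTest fun x => I * e0 m * f x :=
      test_mul (u := fun _ => I * e0 m) (Function.HasTemperateGrowth.const _) hf
    rw [ft_sub (test_xg hf m) t2, ft_mul, ft_xg hf, h p hp, z]
    fin_cases m <;> simp [e0, bas, eta, o, pj]

end

end Vale.Agent.P352X.CA
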