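import Vale.Agent.P352X.CA.Spec

/-!
# P352X, block CA, row PK: conformal Killing fields and similitudes
-/

set_option linter.all false

open Filter Topology
open scoped ContDiff

namespace Vale.Agent.P352X.CA

open Vale.Agent.P352 Vale.Agent.P352.GF Vale.Agent.P352.H246 Vale.Agent.P352.H755
open Vale.Agent.P352.SubConf (IsKil)

noncomputable section

namespace Pk

/-- a row vector times a matrix -/
def vm (x : V) (L : Ix → V) : V := fun n => ∑ m, x m * L m n

theorem sim_eq (s : ℝ) (L : Ix → V) (a x : V) : sim s L a x = a + s • vm x L := rfl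

theorem sim0 (s : ℝ) (L : Ix → V) (x : V) : sim s L 0 x = s • vm x L := by
  rw [sim_eq, zero_add]

theorem sim1 (L : Ix → V) (x : V) : sim 1 L 0 x = vm x L := by rw [sim0, one_smul]

theorem vm_vm (x : V) (L L' : Ix → V) : vm (vm x L) L' = vm x (mm L L') := by
  funext n
  simp only [vm, mm, Finset.sum_mul, Finset.mul_sum]
  rw [Finset.sum_comm]
  exact Finset.sum_congr rfl fun _ _ => Finset.sum_congr rfl fun _ _ => by ring

theorem vm_one (x : V) : vm x GF.one = x := by
  funext n
  simp [vm, GF.one, bas]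

theorem vm_add (x y : V) (L : Ix → V) : vm (x + y) L = vm x L + vm y L := by
  funext n
  simp only [vm, Pi.add_apply, add_mul, Finset.sum_add_distrib]

theorem vm_sub (x y : V) (L : Ix → V) : vm (x - y) L = vm x L - vm y L := by
  funext n
  simp only [vm, Pi.sub_apply, sub_mul, Finset.sum_sub_distrib]

theorem vm_smul (c : ℝ) (x : V) (L : Ix → V) : vm (c • x) L = c • vm x L := by
  funext n
  simp only [vm, Pi.smul_apply, smul_eq_mul, Finset.mul_sum, mul_assoc]

theorem vm_bas (n : Ix) (t : ℝ) (L : Ix → V) : vm (bas n t) L = t • L n := by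
  funext k
  simp [vm, bas]

theorem dot_l (c : ℝ) (x y : V) : GF.mdot (c • x) y = c * GF.mdot x y := by
  simp only [GF.mdot, Pi.smul_apply, smul_eq_mul, Finset.mul_sum]
  exact Finset.sum_congr rfl fun _ _ => by ring

theorem dot_r (c : ℝ) (x y : V) : GF.mdot x (c • y) = c * GF.mdot x y := by
  simp only [GF.mdot, Pi.smul_apply, smul_eq_mul, Finset.mul_sum]
  exact Finset.sum_congr rfl fun _ _ => by ring

theorem dot_vm {L : Ix → V} (h : IsLor L) (x y : V) : GF.mdot (vm x L) (vm y L) = GF.mdot x y := by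
  have e : GF.mdot (vm x L) (vm y L) = ∑ m, ∑ n, x m * y n * GF.mdot (L m) (L n) := by
    simp only [GF.mdot, vm, Finset.mul_sum, Finset.sum_mul]
    rw [Finset.sum_comm]
    refine (Finset.sum_congr rfl fun n _ => Finset.sum_comm).trans (Finset.sum_comm.trans ?_)
    exact Finset.sum_congr rfl fun _ _ => Finset.sum_congr rfl fun _ _ =>
      Finset.sum_congr rfl fun _ _ => by ring
  rw [e, GF.mdot]
  refine Finset.sum_congr rfl fun m _ => ?_
  simp [h.1, bas]
  ring

theorem pk_eq (s : ℝ) (L : Ix → V) (a : V) (X : Ix → V → ℝ) (n : Ix) (x : V) :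
    pk s L a X n x = (s⁻¹ • vm (fun m => X m (sim s L a x)) (linv L)) n := rfl

theorem linv_one : linv GF.one = GF.one := by
  funext m n
  simp only [linv, GF.one, bas]
  by_cases h : m = n
  · rw [h, if_pos rfl, mul_one]
    unfold eta
    split_ifs <;> norm_num
  · rw [if_neg h, mul_zero, if_neg (Ne.symm h)]

theorem line {G : Fn} {z : V} (h : DifferentiableAt ℝ G z) (v : V) :
    HasDerivAt (fun t : ℝ => G (z + t • v)) (fderiv ℝ G z v) 0 := by
  have h1 : HasDerivAt (fun t : ℝ => z + t • v) v 0 := by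
    simpa using ((hasDerivAt_id (0 : ℝ)).smul_const v).const_add z
  exact HasFDerivAt.comp_hasDerivAt_of_eq (0 : ℝ) h.hasFDerivAt h1 (by simp)

theorem pd_eq {G : Fn} {z : V} (h : DifferentiableAt ℝ G z) (m : Ix) :
    pd m G z = fderiv ℝ G z (GF.one m) := by
  have e : ∀ t : ℝ, (fun n => z n + bas m t n) = z + t • GF.one m := fun t => by
    funext n
    simp [GF.one, bas]
  simp only [pd, e]
  exact (line h (GF.one m)).deriv

theorem div (M : MAT) {s : ℝ} {L : Ix → V} (a : V) (hs : 0 < s) (hL : IsLor L) (G : Ix → Fn)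
    (hG : ∀ m, Differentiable ℝ (G m)) (x : V) :
    ∑ n, pd n (fun y => ((s⁻¹ : ℝ) : ℂ) * ∑ m, G m (sim s L a y) * (linv L m n : ℝ)) x =
      ∑ n, pd n (G n) (sim s L a x) := by
  have h1 : ∀ n, pd n (fun y => ((s⁻¹ : ℝ) : ℂ) * ∑ m, G m (sim s L a y) * (linv L m n : ℝ)) x =
      ∑ m, fderiv ℝ (G m) (sim s L a x) (linv L m n • L n) := fun n => by
    have e : ∀ t : ℝ, sim s L a (fun k => x k + bas n t k) = sim s L a x + t • (s • L n) :=
      fun t => by
        rw [show (fun k => x k + bas n t k) = x + bas n t from rfl, sim_eq, sim_eq, vm_add, vm_bas,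
          smul_add, smul_comm s t, add_assoc]
    simp only [pd, e]
    have := (HasDerivAt.fun_sum (u := Finset.univ) fun m _ =>
      (line (hG m (sim s L a x)) (s • L n)).mul_const ((linv L m n : ℝ) : ℂ)).const_mul
        ((s⁻¹ : ℝ) : ℂ)
    refine this.deriv.trans ?_
    rw [Finset.mul_sum]
    refine Finset.sum_congr rfl fun m _ => ?_
    have s0 : (s : ℂ) ≠ 0 := Complex.ofReal_ne_zero.2 hs.ne'
    rw [map_smul, map_smul, Complex.real_smul, Complex.real_smul, Complex.ofReal_inv]
    field_simp
  simp only [h1]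
  rw [Finset.sum_comm]
  refine Finset.sum_congr rfl fun m _ => ?_
  rw [← map_sum, pd_eq (hG m _), ← (M.inv L hL).2]
  congr 1

theorem tg_co (m : Ix) : Function.HasTemperateGrowth fun z : V => z m :=
  (ContinuousLinearMap.proj (R := ℝ) (φ := fun _ : Ix => ℝ) m).hasTemperateGrowth

end Pk

open Pk in
/-- row PK -/
theorem pk_row (M : MAT) : PK where
  kil s L a X hs hL hX := by
    obtain ⟨a', b, r, w, hw, h⟩ := kil_transl hX a
    refine ⟨s⁻¹ • vm a' (linv L), s • vm b (linv L), r, mm (mm L w) (linv L),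
      (M.cnj L w hL hw).1, fun n x => ?_⟩
    have e : (fun m => X m (sim s L a x)) = a' + r • s • vm x L + s • vm (vm x L) w +
        (2 * GF.mdot b (s • vm x L)) • s • vm x L -
          GF.mdot (s • vm x L) (s • vm x L) • b := by
      funext m
      rw [sim_eq, add_comm a, ← vm_smul s (vm x L) w]
      exact h m _
    have e2 : GF.mdot b (vm x L) = GF.mdot (vm b (linv L)) x := by
      rw [← dot_vm hL (vm b (linv L)), vm_vm, (M.inv L hL).2, vm_one]
    rw [pk_eq, e]
    simp only [vm_add, vm_sub, vm_smul, vm_vm, (M.inv L hL).1, vm_one, dot_l, dot_r, dot_vm hL, e2,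
      Pi.add_apply, Pi.sub_apply, Pi.smul_apply, smul_eq_mul]
    have s0 := hs.ne'
    rw [show ∑ m, x m * mm (mm L w) (linv L) m n = vm x (mm (mm L w) (linv L)) n from rfl]
    field_simp
  xb s L b hs hL := by
    funext n x
    have e : (fun m => Xb (sim 1 L 0 b) m (sim s L 0 x)) =
        (2 * GF.mdot (vm b L) (s • vm x L)) • s • vm x L -
          GF.mdot (s • vm x L) (s • vm x L) • vm b L := by
      rw [sim1, sim0]
      rfl
    rw [pk_eq, e]
    simp only [Xb, vm_sub, vm_smul, vm_vm, (M.inv L hL).1, vm_one, dot_l, dot_r, dot_vm hL,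
      Pi.sub_apply, Pi.smul_apply, smul_eq_mul]
    have s0 := hs.ne'
    field_simp
  xd s L hs hL := by
    funext n x
    rw [pk_eq, show (fun m => Xd m (sim s L 0 x)) = sim s L 0 x from rfl, sim0, vm_smul, vm_vm,
      (M.inv L hL).1, vm_one, inv_smul_smul₀ hs.ne']
    rfl
  xw s L w w' hs hL h := by
    funext n x
    rw [pk_eq, show (fun m => Xw w m (sim s L 0 x)) = vm (sim s L 0 x) w from rfl, sim0, vm_smul,
      vm_smul, vm_vm x L w, h, ← vm_vm x w' L, vm_vm (vm x w'), (M.inv L hL).1, vm_one,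
      inv_smul_smul₀ hs.ne']
    rfl
  tr a X := by
    funext n x
    rw [pk_eq, linv_one, vm_one, inv_one, one_smul, sim_eq, vm_one, one_smul, add_comm]
  div s L a X f x hs hL hX hf := by
    obtain ⟨g, rfl⟩ := hf
    rw [← div M a hs hL (fun n y => (X n y : ℂ) * ev g y) (fun m => ?_) x]
    · refine Finset.sum_congr rfl fun n _ => ?_
      congr 1
      funext y
      simp only [pk, Complex.ofReal_mul, Complex.ofReal_sum, Finset.sum_mul, mul_assoc]
      congr 1
      exact Finset.sum_congr rfl fun _ _ => by ring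
    · exact (Complex.ofRealCLM.differentiable.comp
        ((contDiff_kil hX m).differentiable (by simp))).mul g.differentiable
  kc a := kil_c a
  kw w hw := ⟨0, 0, 0, w, hw, fun n x => by simp [Xw, GF.mdot]⟩
  tg X n hX := by
    obtain ⟨a, b, r, w, -, h⟩ := hX
    rw [show X n = _ from funext (h n)]
    have c := fun t : ℝ => Function.HasTemperateGrowth.const (E := V) t
    have d : ∀ u : V → V, (∀ m, Function.HasTemperateGrowth fun x => u x m) →
        Function.HasTemperateGrowth fun x => GF.mdot (u x) x := fun u hu =>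
      .sum fun m _ => ((c _).mul (hu m)).mul (tg_co m)
    exact ((((c _).add ((c _).mul (tg_co n))).add (.sum fun m _ => (tg_co m).mul (c _))).add
      (((c _).mul (d (fun _ => b) fun m => c _)).mul (tg_co n))).sub ((d _ tg_co).mul (c _))
  d1 X a b r w m n x h := by
    refine (kil_dr h.2 m n x).ofReal_comp.deriv.trans (congrArg _ ?_)
    simp only [wd, GF.one, bas]
    ring

end

end Vale.Agent.P352X.CA
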