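import Vale.Agent.P352X.CA.Alg

/-!
# P352X, block CA, row PRI: the primary part by orthogonal projection
-/

set_option linter.all false

open Filter Topology
open scoped ComplexConjugate

namespace Vale.Agent.P352X.CA

open Vale.Agent.P352 Vale.Agent.P352.GF Vale.Agent.P352.H246
open Complex (I)

noncomputable section

variable {W H : Type*} [AddCommGroup W] [Module ℂ W] [NormedAddCommGroup H]
  [InnerProductSpace ℂ H]

namespace PRI

/-- orthogonal projection to a finite dimensional subspace -/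
theorem proj (A : Dat W H) (R : Submodule ℂ W) [FiniteDimensional ℂ R] (y : W) :
    ∃ r ∈ R, ∀ z ∈ R, A.ii (y - r) z = 0 := by
  obtain ⟨w, hw, hv⟩ := Submodule.HasOrthogonalProjection.exists_orthogonal
    (K := R.map A.ip) (A.ip y)
  obtain ⟨r, hr, rfl⟩ := Submodule.mem_map.1 hw
  refine ⟨r, hr, fun z hz => ?_⟩
  unfold Dat.ii
  rw [map_sub]
  exact Submodule.inner_left_of_mem_orthogonal (Submodule.mem_map_of_mem hz) hv

/-- a family which vanishes from some index on has a finite dimensional supremum -/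
theorem fd_sup (N : ℕ → Submodule ℂ W) (n : ℕ) (h0 : ∀ j, n ≤ j → N j = ⊥)
    (hf : ∀ j, FiniteDimensional ℂ (N j)) : FiniteDimensional ℂ (⨆ j, N j : Submodule ℂ W) := by
  have e : (⨆ j, N j : Submodule ℂ W) ≤ ⨆ j : Fin n, N j := by
    refine iSup_le fun j => ?_
    by_cases hj : j < n
    · exact le_iSup (fun j : Fin n => N j) ⟨j, hj⟩
    · rw [h0 j (not_lt.1 hj)]; exact bot_le
  exact Submodule.finiteDimensional_of_le e

/-- a linear map which sends every member of a family to `R` sends the supremum to `R` -/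
theorem map_sup (N : ℕ → Submodule ℂ W) (T : W →ₗ[ℂ] W) (R : Submodule ℂ W)
    (h : ∀ j, ∀ z ∈ N j, T z ∈ R) : ∀ z ∈ (⨆ j, N j : Submodule ℂ W), T z ∈ R := by
  have : (⨆ j, N j : Submodule ℂ W) ≤ R.comap T := iSup_le fun j z hz => h j z hz
  exact fun z hz => this hz

end PRI

open PRI in
theorem pri_row (A : Dat W H) (h : A.Ax) (a : A.ADJ) (dl : A.DIL) (t : A.TOW) : A.PRI := by
  intro d y hy
  obtain ⟨N, n, hy0, hn, hN⟩ := t d y hy
  have hf : ∀ j, FiniteDimensional ℂ (N j) := fun j => (hN j).1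
  have hW : ∀ j, N j ≤ A.Wd (d - j) := fun j => (hN j).2.1
  have hK : ∀ j b, ∀ z ∈ N j, A.K b z ∈ N (j + 1) := fun j => (hN j).2.2.1
  have hP : ∀ j a, ∀ z ∈ N (j + 1), A.P a z ∈ N j := fun j => (hN j).2.2.2.1
  have hM : ∀ j w, As w → ∀ z ∈ N j, A.M w z ∈ N j := fun j => (hN j).2.2.2.2
  have hS : ∀ j, ∀ z ∈ N j, A.S z = (((d - j).re : ℝ) : ℂ) • z := fun j z hz => dl _ z (hW j hz)
  set U : Submodule ℂ W := ⨆ j, N (j + 1) with hU
  set D : Submodule ℂ W := Submodule.span ℂ {z | ∃ a, ∃ x ∈ N 1, z = A.P a x} with hD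
  have hNU : ∀ j, N (j + 1) ≤ U := fun j => le_iSup (fun j => N (j + 1)) j
  have hD0 : D ≤ N 0 := by
    refine Submodule.span_le.2 ?_
    rintro _ ⟨a, x, hx, rfl⟩
    exact hP 0 a x hx
  have hDs : D ≤ A.Ds d := by
    refine Submodule.span_mono ?_
    rintro _ ⟨a, x, hx, rfl⟩
    refine ⟨a, x, ?_, rfl⟩
    have := hW 1 hx
    rwa [Nat.cast_one] at this
  haveI : FiniteDimensional ℂ U :=
    fd_sup (fun j => N (j + 1)) n (fun j hj => hn _ (by omega)) (fun j => hf _)
  haveI : FiniteDimensional ℂ D := by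
    haveI := hf 0
    exact Submodule.finiteDimensional_of_le hD0
  obtain ⟨r, hr, hor⟩ := proj A (U ⊔ D) y
  obtain ⟨u, hu, r0, hr0, rfl⟩ := Submodule.mem_sup.1 hr
  have hp0 : y - r0 ∈ N 0 := (N 0).sub_mem hy0 (hD0 hr0)
  -- the adjoint of `K b` maps `U` to `U ⊔ D`
  have hadj : ∀ b, ∀ z ∈ U, -A.K b z - (4 * I * b o) • A.S z -
      (2 * I) • A.M (wd e0 b) z - (4 : ℂ) • A.P (th b) z ∈ U ⊔ D := by
    intro b z hz
    have := map_sup (fun j => N (j + 1)) (-A.K b - (4 * I * b o) • A.S -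
      (2 * I) • A.M (wd e0 b) - (4 : ℂ) • A.P (th b)) (U ⊔ D) ?_ z hz
    · simpa using this
    intro j x hx
    simp only [LinearMap.sub_apply, LinearMap.neg_apply, LinearMap.smul_apply]
    refine Submodule.sub_mem _ (Submodule.sub_mem _ (Submodule.sub_mem _ ?_ ?_) ?_) ?_
    · exact Submodule.neg_mem _ (Submodule.mem_sup_left (hNU _ (hK _ b x hx)))
    · rw [hS _ x hx]
      exact Submodule.smul_mem _ _ (Submodule.smul_mem _ _ (Submodule.mem_sup_left (hNU _ hx)))
    · exact Submodule.smul_mem _ _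
        (Submodule.mem_sup_left (hNU _ (hM _ _ (h.mat.aswd _ _) x hx)))
    · refine Submodule.smul_mem _ _ ?_
      cases j with
      | zero => exact Submodule.mem_sup_right (Submodule.subset_span ⟨_, x, hx, rfl⟩)
      | succ j => exact Submodule.mem_sup_left (hNU _ (hP _ _ x hx))
  refine ⟨y - r0, ?_, fun b => ?_, ?_⟩
  · have := hW 0 hp0
    rwa [Nat.cast_zero, sub_zero] at this
  · have k1 : A.K b (y - r0) ∈ N 1 := hK 0 b _ hp0
    have k2 : A.K b u ∈ (⨆ j, N (j + 2) : Submodule ℂ W) :=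
      map_sup (fun j => N (j + 1)) (A.K b) _
        (fun j z hz => le_iSup (fun j => N (j + 2)) j (hK _ b z hz)) u hu
    have k3 : (⨆ j, N (j + 2) : Submodule ℂ W) ≤ U := iSup_le fun j => hNU (j + 1)
    have e : y - (u + r0) = (y - r0) - u := by abel
    have k4 : A.K b (y - (u + r0)) ∈ U := by
      rw [e, map_sub]
      exact U.sub_mem (hNU 0 k1) (k3 k2)
    have k5 : A.K b (y - (u + r0)) = 0 := by
      refine a.pos _ ?_
      rw [a.K]
      exact hor _ (hadj b _ k4)
    rw [e, map_sub, sub_eq_zero] at k5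
    have ind := Module.End.eigenspaces_iSupIndep (R := ℂ) (M := W) A.S
      (((d - ((1 : ℕ) : ℂ)).re : ℝ) : ℂ)
    refine (Submodule.disjoint_def.1 ind) _ ?_ ?_
    · exact Module.End.mem_eigenspace_iff.2 (hS 1 _ k1)
    · rw [k5]
      refine (iSup_le fun j z hz => ?_ : (⨆ j, N (j + 2) : Submodule ℂ W) ≤ _) k2
      have ne : (((d - ((j + 2 : ℕ) : ℂ)).re : ℝ) : ℂ) ≠ (((d - ((1 : ℕ) : ℂ)).re : ℝ) : ℂ) := by
        rw [Ne, Complex.ofReal_inj, Complex.sub_re, Complex.sub_re, Complex.natCast_re,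
          Complex.natCast_re, sub_right_inj, Nat.cast_inj]
        omega
      exact le_iSup₂_of_le (f := fun μ (_ : μ ≠ (((d - ((1 : ℕ) : ℂ)).re : ℝ) : ℂ)) =>
        Module.End.eigenspace A.S μ) _ ne le_rfl
        (Module.End.mem_eigenspace_iff.2 (hS (j + 2) z hz))
  · rw [sub_sub_cancel]
    exact hDs hr0

end

end Vale.Agent.P352X.CA
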