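import Vale.Agent.P352X.CA.Spec

/-!
# P352X, block CA, row PUC: covariance of the charges
-/

set_option linter.all false

open MeasureTheory Filter Topology
open scoped SchwartzMap ComplexConjugate ContDiff

namespace Vale.Agent.P352X.CA

open Vale.Agent.P352 Vale.Agent.P352.GF Vale.Agent.P352.BW Vale.Agent.P352.H246
open Vale.Agent.P352.H496 Vale.Agent.P352.H755
open Vale.Agent.P352.SubConf (IsAdj IsKil)

noncomputable section

variable {D : Type*} [NormedAddCommGroup D] [InnerProductSpace ℂ D] {c : Cx D}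

namespace Puc

variable {s : ℝ} {L : Ix → V}

theorem t_sum (m n : Ix) {ι : Type*} (r : Finset ι) (z : ι → ℂ) {f : ι → Fn}
    (hf : ∀ i, IsTest (f i)) (v : D) :
    c.t m n (fun x => ∑ i ∈ r, z i * f i x) v = ∑ i ∈ r, z i • c.t m n (f i) v := by
  classical
  induction r using Finset.induction_on with
  | empty => simpa using t_zero c.hT m n v
  | insert i r hi ih =>
    simp only [Finset.sum_insert hi, add_comm (z i * _), add_comm (z i • _)]
    rw [c.hT.lin m n _ _ _ v (Grp.test_sum r z hf) (hf i), ih]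

theorem lo_sum {K : Set V} {Y Y' : D → D} (b : BA c) (h : c.Lo K Y Y') {ι : Type*}
    (r : Finset ι) (z : ι → ℂ) (w : ι → D) : Y (∑ i ∈ r, z i • w i) = ∑ i ∈ r, z i • Y (w i) :=
  ext_inner_right ℂ fun y => by simp only [h.adj, sum_inner, inner_smul_left]

theorem sim_sim (hs : 0 < s) (hL : IsLor L) (a x : V) :
    sim s L a (sim s⁻¹ (linv L) (yinv s L a) x) = x := by
  rw [← Grp.sim_mul, linv_id hL, mul_inv_cancel₀ hs.ne', sim_right hs hL, sim_one', add_zero]

theorem UV (hs : 0 < s) (hL : IsLor L) (a : V) (v : D) :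
    c.Q.U s L a (c.Q.U s⁻¹ (linv L) (yinv s L a) v) = v := by
  rw [c.mul s L a s⁻¹ (linv L) _ v hs (inv_pos.2 hs) hL (isLor_linv hL), linv_id hL,
    mul_inv_cancel₀ hs.ne', sim_right hs hL, Uone]

theorem VU (hs : 0 < s) (hL : IsLor L) (a : V) (v : D) :
    c.Q.U s⁻¹ (linv L) (yinv s L a) (c.Q.U s L a v) = v :=
  ext_inner_right ℂ fun y => by
    rw [← c.Q.U_inner s L a _ _ hs hL, UV hs hL, c.Q.U_inner s L a _ _ hs hL]

theorem cont (s : ℝ) (L : Ix → V) (a : V) : Continuous (sim s L a) := by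
  unfold sim
  fun_prop

end Puc

open Puc in
/-- **row PUC** -/
theorem puc_row (c : Cx D) (g : PUG) (b : BA c) : PUC c where
  ch s L a u X v hs hL hu hX := by
    have h1 := fun m n => tstIs (kil_tst hX (hu m) n)
    have h2 : ∀ k l, (fun x => ((eta l * pk s L a X l x * pu s L a u k x : ℝ) : ℂ)) = fun x =>
        ∑ p : Ix × Ix, (L k p.1 * L l p.2 : ℂ) *
          ((eta p.2 * X p.2 (sim s L a x) * u p.1 (sim s L a x) : ℝ) : ℂ) := fun k l => by
      funext x
      have e1 : eta l * eta l = 1 := by unfold eta; split_ifs <;> norm_num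
      have e2 : eta l * pk s L a X l x * pu s L a u k x = ∑ p : Ix × Ix, L k p.1 * L l p.2 *
          (eta p.2 * X p.2 (sim s L a x) * u p.1 (sim s L a x)) := by
        rw [pk, pu, show ∀ A B : ℝ, eta l * (s⁻¹ * A) * (s * B) = B * (eta l * A) from
          fun A B => by field_simp, Finset.mul_sum, Finset.sum_mul_sum, Fintype.sum_prod_type]
        refine Finset.sum_congr rfl fun m _ => Finset.sum_congr rfl fun n _ => ?_
        rw [linv]
        linear_combination (L k m * u m (sim s L a x) * X n (sim s L a x) * eta n * L l n) * e1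
      rw [e2]
      push_cast
      rfl
    have h3 : ∀ F : Ix → Ix → D, c.Q.U s L a (∑ k, ∑ l, F k l) = ∑ k, ∑ l, c.Q.U s L a (F k l) :=
      fun F => by
        change H15.Ulin c.Q hs hL a _ = ∑ k, ∑ l, H15.Ulin c.Q hs hL a _
        simp only [map_sum]
    rw [Cx.Ch, Cx.Ch, smt, smt, h3]
    simp only [c.cov _ _ s L a _ v hs hL (h1 _ _)]
    rw [Grp.sum4]
    refine Finset.sum_congr rfl fun k _ => Finset.sum_congr rfl fun l _ => ?_
    rw [h2, t_sum _ _ _ _ fun p : Ix × Ix => Grp.test_sim hs hL a (h1 p.1 p.2), H15.U_sum hs hL,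
      Fintype.sum_prod_type]
  lo s L a K Y Y' hs hL h := by
    have hs' := inv_pos.2 hs
    have hL' := isLor_linv hL
    refine ⟨fun v => c.Q.U s⁻¹ (linv L) (yinv s L a) (Y (c.Q.U s L a v)),
      fun v => c.Q.U s⁻¹ (linv L) (yinv s L a) (Y' (c.Q.U s L a v)),
      ⟨fun v w => ?_, fun m n f v hf => ?_⟩, fun v => (UV hs hL a _).symm⟩
    · rw [← c.Q.U_inner s L a _ _ hs hL, UV hs hL, h.adj, ← c.Q.U_inner s L a v _ hs hL, UV hs hL]
    · have h1 : tsupport (fun x => f (sim s⁻¹ (linv L) (yinv s L a) x)) ⊆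
          sim s⁻¹ (linv L) (yinv s L a) ⁻¹' tsupport f :=
        closure_minimal (fun x hx => subset_closure hx)
          ((isClosed_tsupport f).preimage (cont _ _ _))
      have h2 : In (Jc K)ᶜ fun x => f (sim s⁻¹ (linv L) (yinv s L a) x) :=
        ⟨Grp.test_sim hs' hL' _ hf.1, (g.cpt _ _ _ _ hs' hL' hf.2.1.isCompact).of_isClosed_subset
          (isClosed_tsupport _) h1, fun x hx hK => hf.2.2 (h1 hx) (by
            rw [g.jc s L a K hs hL, Set.mem_preimage, sim_sim hs hL]; exact hK)⟩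
      have h3 := c.cov m n _ _ (yinv s L a) f (c.Q.U s L a v) hs' hL' hf.1
      rw [VU hs hL] at h3
      rw [c.cov m n _ _ _ f _ hs' hL' hf.1, h3]
      simp only [← Fintype.sum_prod_type', H15.U_sum hs hL, H15.U_sum hs' hL', lo_sum b h,
        UV hs hL, h.loc _ _ _ _ h2]

end

end Vale.Agent.P352X.CA
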