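import Vale.Agent.P352X.CA.Spec

/-!
# P352X, block CA, row PUG: charge densities and similitudes
-/

set_option linter.all false

open MeasureTheory Filter Topology Set
open scoped ContDiff

namespace Vale.Agent.P352X.CA

open Vale.Agent.P352 Vale.Agent.P352.GF Vale.Agent.P352.H246 Vale.Agent.P352.H755

noncomputable section

namespace Pug

variable {s : ℝ} {L : Ix → V} (hs : 0 < s) (hL : IsLor L) (a : V)

/-- the linear part -/
def le : V ≃L[ℝ] V := (H755.simE s L hs hL).toContinuousLinearEquiv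

theorem eq : sim s L a = fun x => a + le hs hL x := by
  funext x n
  simp [le, H755.simE_apply, sim]

/-- the similitude as a homeomorphism -/
def hm : V ≃ₜ V := (le hs hL).toHomeomorph.trans (Homeomorph.addLeft a)

theorem hm_eq : sim s L a = hm hs hL a := eq hs hL a

theorem sub (x y : V) : sim s L a x - sim s L a y = s • sim 1 L 0 (x - y) := by
  funext n
  simp [sim, sub_mul, mul_sub]

include hs hL

theorem md (x y : V) : 0 ≤ GF.mdot (sim s L a x - sim s L a y) (sim s L a x - sim s L a y) ↔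
    0 ≤ GF.mdot (x - y) (x - y) := by
  rw [sub, H755.md_smul, md_smul_l, H15.mdot_sim hL, mul_nonneg_iff_of_pos_left hs,
    mul_nonneg_iff_of_pos_left hs]

theorem jc (K : Set V) : Jc (sim s L a ⁻¹' K) = sim s L a ⁻¹' Jc K := by
  ext z
  refine ⟨fun ⟨x, hx, h⟩ => ⟨_, hx, (md hs hL a z x).2 h⟩, fun ⟨y, hy, h⟩ => ?_⟩
  obtain ⟨x, rfl⟩ : ∃ x, sim s L a x = y := hm_eq hs hL a ▸ (hm hs hL a).surjective y
  exact ⟨x, hy, (md hs hL a z x).1 h⟩

theorem cd : ContDiff ℝ ∞ (sim s L a) := eq hs hL a ▸ contDiff_const.add (le hs hL).contDiff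

theorem dr_sim {Ξ : V → ℝ} (h : Differentiable ℝ Ξ) (m : Ix) (x : V) :
    dr m (fun x => Ξ (sim s L a x)) x = s * ∑ n, L m n * dr n Ξ (sim s L a x) := by
  have d : HasFDerivAt (sim s L a) (le hs hL : V →L[ℝ] V) x :=
    eq hs hL a ▸ (le hs hL).hasFDerivAt.const_add a
  have e : le hs hL (bas m 1) = ∑ n, (s * L m n) • bas n 1 := by
    funext k
    simp [le, H755.simE_apply, sim, bas]
  rw [H755.dr_eq (h.fun_comp ((cd hs hL a).differentiable (by simp))),
    show fderiv ℝ (fun x => Ξ (sim s L a x)) x = _ from ((h _).hasFDerivAt.comp x d).fderiv]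
  simp only [H755.dr_eq h, ContinuousLinearMap.comp_apply, ContinuousLinearEquiv.coe_coe, e,
    map_sum, map_smul, smul_eq_mul, Finset.mul_sum, mul_assoc]

omit hs in
theorem fut {v : V} (h : 0 ≤ GF.mdot v v) (h0 : 0 ≤ v o) : v o ≤ 2 * L o o * sim 1 L 0 v o := by
  have ht := lor_transpose hL 0 0
  have h3 : 0 < L 0 0 := hL.2.1
  simp [GF.mdot, Fin.sum_univ_four, eta, o, bas, sim] at ht h h0 ⊢
  have hc : (v 1 * L 1 0 + v 2 * L 2 0 + v 3 * L 3 0) ^ 2 ≤ v 0 ^ 2 * (L 0 0 ^ 2 - 1) := by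
    refine le_trans ?_ (mul_le_mul (a := v 1 ^ 2 + v 2 ^ 2 + v 3 ^ 2)
      (c := L 1 0 ^ 2 + L 2 0 ^ 2 + L 3 0 ^ 2) (by linarith) (by linarith) (by positivity)
      (by positivity))
    nlinarith [sq_nonneg (v 1 * L 2 0 - v 2 * L 1 0), sq_nonneg (v 1 * L 3 0 - v 3 * L 1 0),
      sq_nonneg (v 2 * L 3 0 - v 3 * L 2 0)]
  have h1 : 1 ≤ L 0 0 ^ 2 := by
    nlinarith [sq_nonneg (L 1 0), sq_nonneg (L 2 0), sq_nonneg (L 3 0)]
  have h2 := abs_le_of_sq_le_sq (a := 2 * L 0 0 * (v 1 * L 1 0 + v 2 * L 2 0 + v 3 * L 3 0))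
    (b := v 0 * (2 * L 0 0 ^ 2 - 1)) (by
      nlinarith [mul_le_mul_of_nonneg_left hc (sq_nonneg (2 * L 0 0)), sq_nonneg (v 0)])
    (mul_nonneg h0 (by linarith))
  linarith [(abs_le.1 h2).1]

theorem far {K : Set V} (hK : IsCompact K) (R : ℝ) : ∃ R', ∀ z ∈ Jc (sim s L a ⁻¹' K),
    (R' ≤ z o → R ≤ sim s L a z o) ∧ (z o ≤ -R' → sim s L a z o ≤ -R) := by
  obtain ⟨C, hC⟩ := hK.exists_bound_of_continuousOn (f := fun x => (x o, (hm hs hL a).symm x o))
    (by fun_prop)
  have l0 : 0 < L o o := hL.2.1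
  have p : 0 ≤ 2 * L o o * (|R| + |C|) / s := by positivity
  refine ⟨|C| + 2 * L o o * (|R| + |C|) / s, fun z ⟨x, hx, h⟩ => ?_⟩
  have b := (hC _ hx).trans (le_abs_self C)
  rw [norm_prod_le_iff, show (hm hs hL a).symm (sim s L a x) = x from
    hm_eq hs hL a ▸ (hm hs hL a).symm_apply_apply x] at b
  have b1 := abs_le.1 b.1
  have b2 := abs_le.1 b.2
  have k : ∀ v : V, 0 ≤ GF.mdot v v → 2 * L o o * (|R| + |C|) / s ≤ v o →
      |R| + |C| ≤ s * sim 1 L 0 v o := fun v h1 h2 => by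
    have := h2.trans (fut hL h1 (p.trans h2))
    rw [div_le_iff₀ hs] at this
    exact le_of_mul_le_mul_left (by linarith) (show 0 < 2 * L o o by positivity)
  have r := le_abs_self R
  refine ⟨fun hz => ?_, fun hz => ?_⟩
  · have e : sim s L a z o - sim s L a x o = s * sim 1 L 0 (z - x) o := congrFun (sub a z x) o
    linarith [k (z - x) h (by rw [Pi.sub_apply]; linarith)]
  · have e : sim s L a x o - sim s L a z o = s * sim 1 L 0 (x - z) o := congrFun (sub a x z) o
    linarith [k (x - z) (by rwa [← neg_sub z, ← neg_one_smul ℝ, H755.md_smul, md_smul_l, neg_mul,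
      neg_mul, one_mul, one_mul, neg_neg]) (by rw [Pi.sub_apply]; linarith)]

theorem den {K : Set V} {u : Ix → V → ℝ} (hK : IsCompact K) (h : Den K u) :
    Den (sim s L a ⁻¹' K) (pu s L a u) := by
  obtain ⟨hu, Ξ, hΞ, ⟨R, hR⟩, e⟩ := h
  obtain ⟨R', hR'⟩ := far hs hL a hK R
  have c := (cd hs hL a).continuous
  have j : ∀ z ∈ Jc (sim s L a ⁻¹' K), sim s L a z ∈ Jc K := fun z hz => by
    rwa [jc hs hL] at hz
  have t : ∀ (r : ℝ) (f : V → ℝ), Tst f → Tst fun x => r * f x := fun r f h =>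
    ⟨contDiff_const.mul h.1, h.2.mul_left⟩
  have t' : ∀ n, Tst fun x => u n (sim s L a x) := fun n => ⟨(hu n).1.comp (cd hs hL a), by
    rw [hm_eq hs hL]
    exact (hu n).2.comp_homeomorph _⟩
  refine ⟨fun m => t _ _ (H496.tst_sum' _ fun n => t _ _ (t' n)), fun x => Ξ (sim s L a x),
    hΞ.comp (cd hs hL a), ⟨R', fun z hz => ?_⟩, fun z hz => ?_⟩
  · have k := hR _ (j z hz)
    exact ⟨fun a => (c.tendsto z).eventually (k.1 ((hR' z hz).1 a)),
      fun a => (c.tendsto z).eventually (k.2 ((hR' z hz).2 a))⟩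
  · refine ((c.tendsto z).eventually (e _ (j z hz))).mono fun x hx m => ?_
    simp only [pu, hx, dr_sim hs hL a (hΞ.differentiable (by simp))]

omit hs hL in
theorem ok {K : Set V} {g : V → ℝ} (h : Ok K g) : Den K (tm g) := by
  obtain ⟨hg, α, hα, h1, h2⟩ := h
  obtain ⟨M, M0, hM⟩ := supp_bd hα
  have c := hα.cont
  have d : ∀ u, HasDerivAt (fun u => ∫ t in (-(M + 1))..u, α t) (α u) u := fun u =>
    intervalIntegral.integral_hasDerivAt_right (c.intervalIntegrable _ _)
      (c.stronglyMeasurableAtFilter _ _) c.continuousAt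
  have c0 : Continuous fun x : V => x o := continuous_apply o
  refine ⟨fun m => ?_, fun x => ∫ t in (-(M + 1))..x o, α t,
    (contDiff_infty_iff_deriv.2 ⟨fun u => (d u).differentiableAt,
      by rw [funext fun u => (d u).deriv]; exact hα.1⟩).comp (contDiff_apply ℝ ℝ o),
    ⟨M + 1, fun z _ => ⟨fun hz => ?_, fun hz => ?_⟩⟩, fun z ⟨y, hy, hz⟩ => ?_⟩
  · unfold tm
    split_ifs
    exacts [hg, tst_zero]
  · filter_upwards [c0.continuousAt.eventually (lt_mem_nhds (show M < z o by linarith))] with x hx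
    rw [intervalIntegral.integral_eq_integral_of_support_subset, h1]
    exact fun t ht => ⟨by linarith [(abs_le.1 (hM t ht)).1], by linarith [(abs_le.1 (hM t ht)).2]⟩
  · filter_upwards [c0.continuousAt.eventually (gt_mem_nhds (show z o < -M by linarith))] with x hx
    rw [intervalIntegral.integral_congr (g := fun _ => 0), intervalIntegral.integral_zero]
    exact fun t ht => by_contra fun k => by
      have := (abs_le.1 (hM t k)).1
      rcases mem_uIcc.1 ht with h | h <;> linarith [h.2]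
  · filter_upwards [isClosed_closure.isOpen_compl.mem_nhds fun k => (h2 z k y hy).not_ge hz]
      with x hx m
    have e : g x = α (x o) := by_contra fun k => hx (subset_closure k)
    unfold tm dr
    split_ifs with k
    · subst k
      simp only [Pi.add_apply, bas, if_true]
      rw [deriv_comp_const_add (fun u => ∫ t in (-(M + 1))..u, α t), add_zero, (d _).deriv, e]
    · simp [bas, Ne.symm k]

end Pug

theorem pug_row : PUG :=
  ⟨fun _ _ a _ hs hL hK => Pug.hm_eq hs hL a ▸ (Pug.hm hs hL a).isCompact_preimage.2 hK,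
    fun _ _ a K hs hL => Pug.jc hs hL a K, fun _ _ a _ _ hs hL hK h => Pug.den hs hL a hK h,
    fun _ _ => Pug.ok⟩

end

end Vale.Agent.P352X.CA
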