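import Vale.Agent.P352X.CA.Spec
import Vale.Agent.P352X.Api2b

/-!
# P352X, block CA, row REL: commutators with derivatives
-/

set_option linter.all false

open MeasureTheory Filter Topology
open scoped SchwartzMap ComplexConjugate ContDiff

namespace Vale.Agent.P352X.CA

open Vale.Agent.P352 Vale.Agent.P352.GF Vale.Agent.P352.BW Vale.Agent.P352.H246
open Vale.Agent.P352.H496 Vale.Agent.P352.H755
open Vale.Agent.P352.SubConf (IsAdj IsKil)
open Complex (I)

noncomputable section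

variable {D : Type*} [NormedAddCommGroup D] [InnerProductSpace ℂ D]

namespace RELp

/-- linear maps on the test functions with compact support -/
def Ln (R : Fn → D) : Prop := ∀ (f g : Fn) (z : ℂ), CS f → CS g →
  R (fun x => f x + z * g x) = R f + z • R g

variable {R : Fn → D} {f : Fn}

theorem Ln.smul (h : Ln R) (hf : CS f) (z : ℂ) : R (fun x => z * f x) = z • R f := by
  have h0 : R (fun _ => 0) = 0 := by simpa using h _ _ 1 cs_zero cs_zero
  simpa [h0] using h _ _ z cs_zero hf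

theorem Ln.sum (h : Ln R) {g : Ix → Fn} (hg : ∀ k, CS (g k)) (z : Ix → ℂ) :
    R (fun x => ∑ k, z k * g k x) = ∑ k, z k • R (g k) := by
  have c0 : CS fun x => z 0 * g 0 x := by simpa using cs_add cs_zero (hg 0) (z 0)
  have c1 := cs_add c0 (hg 1) (z 1)
  simp only [Fin.sum_univ_four]
  rw [h _ _ _ (cs_add c1 (hg 2) _) (hg 3), h _ _ _ c1 (hg 2), h _ _ _ c0 (hg 1), h.smul (hg 0)]

theorem Ln.pd (h : Ln R) (n : Ix) : Ln fun f => R (pd n f) := fun f g z hf hg => by
  have d := Ap.sw_diff hg.1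
  show R _ = R _ + z • R _
  rw [← h _ _ z (cs_pd hf n) (cs_pd hg n)]
  congr 1
  funext x
  rw [← Ap.pd_cmul, ← Ap.dv_bas, ← Ap.dv_bas, ← Ap.dv_bas,
    Ap.dv_add (Ap.sw_diff hf.1 x) ((d x).const_mul z)]

theorem cs_dv (hf : CS f) (a : V) : CS (dv a f) :=
  ⟨Ap.test_dv a hf.1, hf.2.of_isClosed_subset (isClosed_tsupport _) (Ap.tsupport_dv a f)⟩

theorem cs_xg (hf : CS f) (k : Ix) : CS (xg k f) := cs_mul hf (Mq.coord k)

theorem lin4 (T : V → D) (h : ∀ a a' (r : ℝ), T (a + r • a') = T a + (r : ℂ) • T a') (a : V) :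
    ∑ k, (a k : ℂ) • T (bas k 1) = T a := by
  have h0 : T 0 = 0 := by simpa using h 0 0 1
  have h1 : ∀ (r : ℝ) a, T (r • a) = (r : ℂ) • T a := fun r a => by simpa [h0] using h 0 a r
  conv_rhs => rw [← Ap.sum_bas a]
  simp only [Fin.sum_univ_four, h, h1]

theorem dv_xg (hf : CS f) (a : V) (k : Ix) :
    dv a (xg k f) = fun x => xg k (dv a f) x + (a k : ℂ) * f x := funext fun x => by
  have := Ap.dv_mul (f := fun x : V => ((x k : ℝ) : ℂ)) (x := x) (by fun_prop)
    (Ap.sw_diff hf.1 x) a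
  rw [show dv a (fun x : V => ((x k : ℝ) : ℂ)) x = a k from
    Ap.dv_clm (ContinuousLinearMap.proj k) a x] at this
  exact this.trans (add_comm _ _)

variable {c : Cx D} (h : L2 c) {P P' : Fld D} (hP : c.F0 P P') (hf : CS f) (a : V) (v : D)
include h hP hf

theorem phi_df {X : Ix → V → ℝ} (hX : IsKil X) :
    Phi c.t X (Df a P) f v = Phi c.t X P (dv a f) v := by
  obtain ⟨u, hu⟩ := h.ind.ex _ hf.2
  have l := h.ba.fld _ P P' _ hP (cs_dv hf a) subset_rfl
  rw [h.ind.phi _ u X (Df a P) f _ v hf.2 hu hX hf subset_rfl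
    (h.ba.lom _ _ _ _ (Ap.tsupport_dv a f) l),
    h.ind.phi _ u X P _ _ v hf.2 hu hX (cs_dv hf a) (Ap.tsupport_dv a f) l]
  rfl

theorem sg_df {X : Ix → V → ℝ} {a₀ b : V} {r : ℝ} {w : Ix → V} (hX : Kd X a₀ b r w) :
    Sg c.t X (Df a P) f v = Sg c.t X P (dv a f) v + ∑ n, P (pd n fun x => (∑ m, (a m : ℂ) *
      (((r + 2 * GF.mdot b x) * GF.one m n + w m n + wd x b m n : ℝ) : ℂ)) * f x) v := by
  have k : IsKil X := ⟨a₀, b, r, w, hX.1, hX.2⟩
  have ln : Ln fun f => P f v := fun f g z => hP.lin f g z v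
  unfold Sg
  rw [phi_df h hP hf a v k, add_right_comm, ← Finset.sum_add_distrib]
  refine congrArg (· + _) (Finset.sum_congr rfl fun n _ => ?_)
  have q := Mq.kil k n
  have c1 := cs_mul hf q
  have e : (fun x => (∑ m, (a m : ℂ) * (((r + 2 * GF.mdot b x) * GF.one m n + w m n +
      wd x b m n : ℝ) : ℂ)) * f x) = fun x => dv a (fun x => (X n x : ℂ) * f x) x +
        (-1) * ((X n x : ℂ) * dv a f x) := funext fun x => by
    rw [Ap.dv_mul (f := fun x => (X n x : ℂ)) (Complex.ofRealCLM.differentiableAt.comp x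
      (q.1.differentiable (by simp) x)) (Ap.sw_diff hf.1 x), dv]
    simp only [← h.pk.d1 X a₀ b r w _ n x hX]
    ring
  have := ln.pd n _ _ (-1) (cs_dv c1 a) (cs_mul (cs_dv hf a) q)
  beta_reduce at this
  rw [e, this, neg_one_smul, add_neg_cancel_comm_assoc, Df]
  congr 1
  funext x
  rw [← Ap.dv_bas, ← Ap.dv_bas, Ap.dv_comm (Ap.sw_smooth c1.1)]

theorem sg_d : Sg c.t Xd (Df a P) f v =
    Sg c.t Xd P (dv a f) v + ∑ n, (a n : ℂ) • P (pd n f) v := by
  have ln : Ln fun f => P f v := fun f g z => hP.lin f g z v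
  rw [sg_df h hP hf a v (a₀ := 0) (b := 0) (r := 1) (w := 0)
    ⟨by simp [As], by simp [Xd, GF.mdot]⟩]
  refine congrArg (_ + ·) (Finset.sum_congr rfl fun n _ => ?_)
  rw [← (ln.pd n).smul hf]
  simp [wd, GF.mdot, GF.one, bas, apply_ite Complex.ofReal]

theorem sg_w {w : Ix → V} (hw : As w) : Sg c.t (Xw w) (Df a P) f v =
    Sg c.t (Xw w) P (dv a f) v + ∑ n, ((∑ m, a m * w m n : ℝ) : ℂ) • P (pd n f) v := by
  have ln : Ln fun f => P f v := fun f g z => hP.lin f g z v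
  rw [sg_df h hP hf a v (a₀ := 0) (b := 0) (r := 0) (w := w) ⟨hw, by simp [Xw, GF.mdot]⟩]
  refine congrArg (_ + ·) (Finset.sum_congr rfl fun n _ => ?_)
  rw [← (ln.pd n).smul hf]
  simp [wd, GF.mdot]

theorem tb_df (e b : V) : c.Tb e b (Df a P) f v = c.Tb e b P (dv a f) v +
    ∑ n, ((2 * GF.mdot e b * a n + ∑ m, a m * wd e b m n : ℝ) : ℂ) • P (pd n f) v := by
  unfold Cx.Tb
  rw [sg_d h hP hf, sg_w h hP hf a v (h.mat.aswd e b)]
  simp only [Complex.ofReal_add, add_smul, Finset.sum_add_distrib, Complex.ofReal_mul (_ * _),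
    mul_smul, ← Finset.smul_sum, smul_add]
  abel

theorem sg_b (b : V) : Sg c.t (Xb b) (Df a P) f v = Sg c.t (Xb b) P (dv a f) v + ∑ k, ∑ n,
    ((2 * GF.mdot (bas k 1) b * a n + ∑ m, a m * wd (bas k 1) b m n : ℝ) : ℂ) •
      P (pd n (xg k f)) v := by
  have ln : Ln fun f => P f v := fun f g z => hP.lin f g z v
  rw [sg_df h hP hf a v (a₀ := 0) (b := b) (r := 0) (w := 0) ⟨by simp [As], by simp [Xb]⟩,
    Finset.sum_comm]
  refine congrArg (_ + ·) (Finset.sum_congr rfl fun n _ => ?_)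
  rw [← (ln.pd n).sum (cs_xg hf)]
  congr 2
  funext x
  fin_cases n <;>
    simp [xg, wd, GF.mdot, GF.one, bas, Fin.sum_univ_four] <;> ring

end RELp

open RELp in
theorem rel_row (c : Cx D) (h : L2 c) : REL c where
  s a P P' f v hP hf := by
    have ln : Ln fun f => P f v := fun f g z => hP.l.lin f g z v
    rw [sg_d h hP.l hf, ← ln.sum (cs_pd hf)]
    rfl
  k a b P P' f v hP hf := by
    unfold Cx.Kb
    have e : ∀ k, c.Tb (bas k 1) b P (dv a (xg k f)) v = c.Tb (bas k 1) b P (xg k (dv a f)) v +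
        (a k : ℂ) • c.Tb (bas k 1) b P f v := fun k => by
      rw [dv_xg hf, (h.sg.tb _ b P P' hP).l.lin _ _ _ v (cs_xg (cs_dv hf a) k) hf]
    rw [sg_b h hP.l hf, ← lin4 (fun a => c.Tb a b P f v)
      (fun a a' r => h.sg.tba a a' r b P P' f v hP.l hf) a]
    simp only [tb_df h hP.l (cs_xg hf _), e, Finset.sum_add_distrib]
    abel

end

end Vale.Agent.P352X.CA
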