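import Vale.Agent.P352X.CA.Alg

/-!
# P352X, block CA, row TOW: finite dimensional towers
-/

set_option linter.all false

namespace Vale.Agent.P352X.CA

open Vale.Agent.P352 Vale.Agent.P352.GF Vale.Agent.P352.H246

noncomputable section

variable {W H : Type*} [AddCommGroup W] [Module ℂ W] [NormedAddCommGroup H]
  [InnerProductSpace ℂ H]

namespace Tow

/-- finite dimensional spaces that are spanned by multiplets of dimension `d` -/
def Gd (A : Dat W H) (d : ℂ) (N : Submodule ℂ W) : Prop := FiniteDimensional ℂ N ∧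
  N ≤ Submodule.span ℂ {z | ∃ k y μ, A.Mu k d y ∧ (∀ ν, y ν ∈ N) ∧ z = y μ}

/-- the image of a space under a vector of operators -/
def op (R : V → W →ₗ[ℂ] W) (N : Submodule ℂ W) : Submodule ℂ W := ⨆ m, N.map (R (bas m 1))

variable {A : Dat W H} {d : ℂ} {N N' : Submodule ℂ W}

theorem eta2 (m : Ix) : (eta m : ℂ) * (eta m : ℂ) = 1 := by
  unfold eta
  split_ifs <;> simp

theorem gd_bot : Gd A d ⊥ := ⟨inferInstance, bot_le⟩

theorem gd_sup (h : Gd A d N) (h' : Gd A d N') : Gd A d (N ⊔ N') := by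
  haveI := h.1
  haveI := h'.1
  refine ⟨inferInstance, sup_le (h.2.trans (Submodule.span_mono ?_))
    (h'.2.trans (Submodule.span_mono ?_))⟩
  · rintro z ⟨k, y, μ, hy, hN, rfl⟩
    exact ⟨k, y, μ, hy, fun ν => Submodule.mem_sup_left (hN ν), rfl⟩
  · rintro z ⟨k, y, μ, hy, hN, rfl⟩
    exact ⟨k, y, μ, hy, fun ν => Submodule.mem_sup_right (hN ν), rfl⟩

theorem gd_le (h : Gd A d N) : N ≤ A.Wd d := by
  refine h.2.trans (Submodule.span_mono ?_)
  rintro z ⟨k, y, μ, hy, -, rfl⟩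
  exact ⟨k, y, μ, hy, rfl⟩

theorem gd_M (l : A.LOR) (h : Gd A d N) {w : Ix → V} (hw : As w) : ∀ z ∈ N, A.M w z ∈ N := by
  refine h.2.trans (b := Submodule.span ℂ _) (c := N.comap (A.M w)) (Submodule.span_le.2 ?_)
  rintro z ⟨k, y, μ, hy, hN, rfl⟩
  change A.M w (y μ) ∈ N
  rw [l.geo k d y w μ hy hw]
  exact N.neg_mem (N.sum_mem fun i _ => N.sum_mem fun n _ => N.smul_mem _ (hN _))

theorem mem_op0 (R : V → W →ₗ[ℂ] W) (m : Ix) {z : W} (hz : z ∈ N) : R (bas m 1) z ∈ op R N :=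
  Submodule.mem_iSup_of_mem m (Submodule.mem_map_of_mem hz)

theorem mem_op {R : V → W →ₗ[ℂ] W} (hR : ∀ a y, R a y = ∑ m, (a m : ℂ) • R (bas m 1) y) (a : V)
    {z : W} (hz : z ∈ N) : R a z ∈ op R N := by
  rw [hR]
  exact Submodule.sum_mem _ fun m _ => Submodule.smul_mem _ _ (mem_op0 R m hz)

theorem gd_op {R : V → W →ₗ[ℂ] W} {d' : ℂ}
    (hR : ∀ k y, A.Mu k d y → A.Mu (k + 1) d' (cons R y)) (h : Gd A d N) : Gd A d' (op R N) := by
  haveI := h.1
  refine ⟨by unfold op; infer_instance, iSup_le fun m => Submodule.map_le_iff_le_comap.2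
    (h.2.trans (Submodule.span_le.2 ?_))⟩
  rintro z ⟨k, y, μ, hy, hN, rfl⟩
  have e : R (bas m 1) (y μ) = (eta m : ℂ) • cons R y (Fin.cons m μ) := by
    simp only [cons, Fin.cons_zero, Fin.tail_cons, smul_smul, eta2, one_smul]
  change R (bas m 1) (y μ) ∈ Submodule.span ℂ _
  rw [e]
  exact Submodule.smul_mem _ _ (Submodule.subset_span ⟨k + 1, cons R y, _, hR k y hy,
    fun ν => Submodule.smul_mem _ _ (mem_op0 R _ (hN _)), rfl⟩)

theorem exists_gd {y : W} (hy : y ∈ A.Wd d) : ∃ N, Gd A d N ∧ y ∈ N := by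
  induction hy using Submodule.span_induction with
  | mem z hz =>
    obtain ⟨k, y, μ, hy, rfl⟩ := hz
    refine ⟨Submodule.span ℂ (Set.range y), ⟨FiniteDimensional.span_of_finite ℂ
      (Set.finite_range y), Submodule.span_mono ?_⟩, Submodule.subset_span ⟨μ, rfl⟩⟩
    rintro _ ⟨ν, rfl⟩
    exact ⟨k, y, ν, hy, fun ρ => Submodule.subset_span ⟨ρ, rfl⟩, rfl⟩
  | zero => exact ⟨⊥, gd_bot, Submodule.zero_mem _⟩
  | add a b _ _ ha hb =>
    obtain ⟨N, hN, ha⟩ := ha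
    obtain ⟨N', hN', hb⟩ := hb
    exact ⟨N ⊔ N', gd_sup hN hN', Submodule.add_mem_sup ha hb⟩
  | smul c a _ ha =>
    obtain ⟨N, hN, ha⟩ := ha
    exact ⟨N, hN, N.smul_mem c ha⟩

/-- the tower over a space of multiplets -/
theorem tower (h : A.Ax) (m : A.MUL) (k : A.KIL) (l : A.LOR) (dl : A.DIL) (n : ℕ) :
    ∀ (d : ℂ) (B : Submodule ℂ W), d.re < n → Gd A d B → ∃ (N : ℕ → Submodule ℂ W) (r : ℕ),
      B ≤ N 0 ∧ (∀ j, r ≤ j → N j = ⊥) ∧ ∀ j : ℕ, Gd A (d - j) (N j) ∧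
        (∀ b, ∀ z ∈ N j, A.K b z ∈ N (j + 1)) ∧ ∀ a, ∀ z ∈ N (j + 1), A.P a z ∈ N j := by
  induction n with
  | zero =>
    intro d B hd hB
    refine ⟨fun _ => ⊥, 0, ?_, fun _ _ => rfl, fun j => ⟨gd_bot, ?_, ?_⟩⟩
    · exact (gd_le hB).trans (k.neg d (by simpa using hd)).le
    · intro b z hz
      rw [(Submodule.mem_bot ℂ).1 hz, map_zero]
      exact Submodule.zero_mem _
    · intro b z hz
      rw [(Submodule.mem_bot ℂ).1 hz, map_zero]
      exact Submodule.zero_mem _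
  | succ n ih =>
    intro d B hd hB
    obtain ⟨N, r, hle, hr, hN⟩ := ih (d - 1) (op A.K B)
      (by simp only [Complex.sub_re, Complex.one_re]; push_cast at hd; linarith)
      (gd_op (fun k y hy => m.K k d y hy) hB)
    have h0 : Gd A (d - 1) (N 0) := by simpa using (hN 0).1
    refine ⟨fun j => Nat.casesOn j (B ⊔ op A.P (N 0)) N, r + 1, le_sup_left, ?_, ?_⟩
    · intro j hj
      obtain ⟨j, rfl⟩ : ∃ i, j = i + 1 := ⟨j - 1, by omega⟩
      exact hr j (by omega)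
    · intro j
      cases j with
      | succ j =>
        refine ⟨?_, (hN j).2⟩
        have e : d - ((j + 1 : ℕ) : ℂ) = d - 1 - j := by push_cast; ring
        rw [e]
        exact (hN j).1
      | zero =>
        refine ⟨?_, fun b => ?_, fun a z hz => Submodule.mem_sup_right (mem_op m.Pe a hz)⟩
        · have e : d - ((0 : ℕ) : ℂ) = d := by simp
          rw [e]
          refine gd_sup hB (gd_op (fun k y hy => ?_) h0)
          simpa using m.P k (d - 1) y hy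
        · change B ⊔ op A.P (N 0) ≤ (N 0).comap (A.K b)
          refine sup_le (fun z hz => hle (mem_op m.Ke b hz)) (iSup_le fun i => ?_)
          rintro _ ⟨z, hz, rfl⟩
          change A.K b (A.P (bas i 1) z) ∈ N 0
          rw [h.KP, dl (d - 1) z (gd_le h0 hz)]
          exact (N 0).sub_mem ((N 0).sub_mem ((hN 0).2.2 _ _ ((hN 0).2.1 b z hz))
            ((N 0).smul_mem _ ((N 0).smul_mem _ hz))) (gd_M l h0 (h.mat.aswd _ _) z hz)

end Tow

/-- row TOW -/
theorem tow_row (A : Dat W H) (h : A.Ax) (m : A.MUL) (k : A.KIL) (l : A.LOR) (d : A.DIL) :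
    A.TOW := by
  intro e y hy
  obtain ⟨B, hB, hyB⟩ := Tow.exists_gd hy
  obtain ⟨n, hn⟩ := exists_nat_gt e.re
  obtain ⟨N, r, hle, hr, hN⟩ := Tow.tower h m k l d n e B hn hB
  exact ⟨N, r, hle hyB, hr, fun j => ⟨(hN j).1.1, Tow.gd_le (hN j).1, (hN j).2.1, (hN j).2.2,
    fun w hw => Tow.gd_M l (hN j).1 hw⟩⟩

end

end Vale.Agent.P352X.CA
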