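import Vale.Agent.P352X.CA.Spec

/-!
# P352X, block CA, row TRA: the translation charges act geometrically
-/

set_option linter.all false

open Filter Topology
open scoped SchwartzMap LineDeriv

namespace Vale.Agent.P352X.CA

open Vale.Agent.P352 Vale.Agent.P352.GF Vale.Agent.P352.H246 Vale.Agent.P352.H496
open Vale.Agent.P352.H755
open UniformSpace (Completion)
open Complex (I)

noncomputable section

variable {D : Type*} [NormedAddCommGroup D] [InnerProductSpace ℂ D] {c : Cx D}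

namespace TRA

lemma sum_pd {P : Fld D} {v : D} (lin : ∀ (f g : Fn) (z : ℂ), CS f → CS g →
    P (fun x => f x + z * g x) v = P f v + z • P g v) (a : V) {f : Fn} (hf : CS f) :
    ∑ n, P (pd n fun x => (Xc a n x : ℂ) * f x) v = P (dv a f) v := by
  have h := fun n => cs_pd (cs_mul hf (Mq.const (a n))) n
  have e : dv a f = fun x => pd 0 (fun x => (a 0 : ℂ) * f x) x + 1 * pd 1 (fun x => (a 1 : ℂ) * f x) x +
      1 * pd 2 (fun x => (a 2 : ℂ) * f x) x + 1 * pd 3 (fun x => (a 3 : ℂ) * f x) x := by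
    funext x
    simp only [dv, Fin.sum_univ_four, pd, deriv_const_mul_field', one_mul]
  rw [e, lin _ _ 1 (cs_add (cs_add (h 0) (h 1) 1) (h 2) 1) (h 3), lin _ _ 1 (cs_add (h 0) (h 1) 1)
    (h 2), lin _ _ 1 (h 0) (h 1)]
  simp only [Fin.sum_univ_four, one_smul, Xc]

lemma fl_dv (a : V) (G : 𝓢(Mink, ℂ)) :
    fl (∂_{(WithLp.toLp 2 a : Mink)} G : 𝓢(Mink, ℂ)) = dv a (fl G) := by
  funext x
  rw [lineDeriv_dir, fl_apply, SchwartzMap.sum_apply]
  simp only [dv, pd_fl]
  rfl

/-- the translation charge generates the translations on the polynomial vectors -/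
lemma der (h : L1 c) (a : V) {Y Y' : D → D} (hY : Al c.Q Set.univ Y Y') : ∃ K, IsCompact K ∧
    ∀ u, Den K u → HasDerivAt (fun t : ℝ => U1 c.Q (t • WithLp.toLp 2 a) (Y c.Q.vac))
      (I • c.dl u (Xc a) Y c.Q.vac) 0 := by
  have k := h.pk.kc a
  induction hY with
  | one =>
    refine ⟨∅, isCompact_empty, fun u _ => ?_⟩
    simp only [U1_vac, Cx.dl, sub_self, smul_zero]
    exact hasDerivAt_const _ _
  | add X X' Y Y' _ _ h1 h2 =>
    obtain ⟨K, k1, h1⟩ := h1
    obtain ⟨K', k2, h2⟩ := h2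
    refine ⟨K ∪ K', k1.union k2, fun u hu => ?_⟩
    simp only [U1_add]
    convert (h1 u (h.ba.mono _ _ u Set.subset_union_left hu)).fun_add
      (h2 u (h.ba.mono _ _ u Set.subset_union_right hu)) using 1
    have := h.ba.chv u _ (X c.Q.vac) (Y c.Q.vac) 1 hu.1 k
    rw [one_smul, one_smul] at this
    rw [← smul_add, Cx.dl, Cx.dl, Cx.dl, this]
    congr 1
    abel
  | smul z X X' _ h1 =>
    obtain ⟨K, k1, h1⟩ := h1
    refine ⟨K, k1, fun u hu => ?_⟩
    simp only [U1_smul]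
    convert (h1 u hu).fun_const_smul z using 1
    have := h.ba.chv u _ (X c.Q.vac) (X c.Q.vac) (z - 1) hu.1 k
    rw [sub_smul, sub_smul, one_smul, one_smul, add_sub_cancel, add_sub_cancel] at this
    rw [smul_comm z, Cx.dl, Cx.dl, this, smul_sub z]
  | fld A B g X X' hA _ hAB hg hX h1 =>
    obtain ⟨K, k1, h1⟩ := h1
    obtain ⟨G, rfl⟩ := exists_fl hg.1
    have g1 : CS (fl G) := ⟨hg.1, hg.2.1⟩
    refine ⟨K ∪ tsupport (fl G), k1.union g1.2.isCompact, fun u hu => ?_⟩
    have h2 := h1 u (h.ba.mono _ _ u Set.subset_union_left hu)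
    have p := hX.pwu (Q := c.Q) .vac
    have lo := h.ba.qf _ A B _ hA hAB g1 subset_rfl
    have h3 := sg_c c.hT hasCut hA g1 a (X c.Q.vac)
    rw [Sg] at h3
    erw [sum_pd (fun f g z hf hg => c.Q.lin A f g z _ hA hf.1 hg.1) a g1,
      h.ind.phi _ u _ A _ _ _ (k1.union g1.2.isCompact) hu k g1 Set.subset_union_right lo] at h3
    convert deriv_fld _ hA (in_univ.1 hg) p ((hasDeriv_dir _ p).unique h2 ▸ pw_Db _ p) h2 using 1
    rw [h.ba.der _ u _ _ _ X _ lo, smul_add, fld_negf hA, fl_dv, fsmul hA hg.1,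
      eq_neg_of_add_eq_zero_right h3]

end TRA

variable (c) in
/-- **TRA** -/
theorem tra_row (h : L2 c) : TRA c := fun a P P' f v hP hf => by
  have k := h.pk.kc a
  have C := h.sg.c0 _ P P' k hP.toC0
  refine h.sep _ _ C.l C.r (fun f hf => PW.orth (Q := c.Q) fun w hw => ?_) f v hf
  obtain ⟨Y, Y', hY, rfl⟩ := gen_iff.2 hw
  obtain ⟨K, k1, hd⟩ := TRA.der h.toL1 a hY
  obtain ⟨K', k2, lo⟩ := h.ba.al Y Y' hY
  have k3 := (k1.union k2).union hf.2.isCompact
  obtain ⟨u, hu⟩ := h.ind.ex _ k3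
  have l1 := h.ba.symm _ _ _ (h.ba.lom _ (K ∪ K' ∪ tsupport f) _ _
    (Set.subset_union_right.trans Set.subset_union_left) lo)
  have h1 := h.vac _ k _ u _ _ k3 hu (h.ba.mul _ _ _ _ _ l1
    (h.ba.fld _ P P' f hP.l hf Set.subset_union_right))
  rw [h.ba.der _ u _ _ _ _ _ l1, inner_add_right, ← lo.adj, ← h.ind.phi _ u _ P f _ _ k3 hu k hf
    Set.subset_union_right (h.ba.fld _ P P' f hP.l hf subset_rfl)] at h1
  have h2 := ((hd u (h.ba.mono _ _ u (Set.subset_union_left.trans Set.subset_union_left) hu)).inner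
    ℂ (hasDerivAt_const 0 (P f c.Q.vac)))
  rw [inner_zero_right, zero_add, inner_smul_left, h.ba.dladj _ u _ _ _ _ _ hu.1 k lo] at h2
  obtain ⟨y, hy⟩ := h.ext.vac P P' c.Q.vac hP.l hP.jl
  obtain ⟨⟨F, rfl⟩, hF⟩ := id hf
  have e : ∀ t : ℝ, ev (ST.tsl (-(t • a)) F) = fun x => ev F (sim 1 GF.one (t • a) x) :=
    fun t => funext fun x => by rw [sim_one']; exact congrArg F (sub_neg_eq_add _ _)
  have e' : ∀ t : ℝ, inner ℂ (U1 c.Q (t • WithLp.toLp 2 a) (Y c.Q.vac)) (P (ev F) c.Q.vac) =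
      (innerSL ℂ ((Y c.Q.vac : D) : Completion D) ∘L y) (ST.tsl (-(t • a)) F) := fun t => by
    have := hP.tl (t • a) _ c.Q.vac hf
    rw [c.Q.U_vac _ _ _ one_pos H496.isLor_one] at this
    rw [this, ContinuousLinearMap.comp_apply, hy _ (show HasCompactSupport (ev _) from
      e t ▸ (cs_transl hf _).2), e, innerSL_apply_apply, Completion.inner_coe]
    exact c.Q.U_inner _ _ _ _ _ one_pos H496.isLor_one
  have h3 := ((innerSL ℂ ((Y c.Q.vac : D) : Completion D) ∘L y).continuous.tendsto _).comp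
    (h.lie.der V (fun _ => 1) (fun t => t • a) 0 a F (KDa.dS a F) (fun t => ST.tsl (-(t • a)) F)
      (hasDerivAt_const _ _) (by simpa using (hasDerivAt_id (0 : ℝ)).smul_const a) rfl
      (zero_smul _ _) (.of_forall fun t x => congrArg F (sub_neg_eq_add _ _)) fun x => by
        rw [ContinuousLinearMap.zero_apply, zero_add]; rfl)
  have h4 := tendsto_nhds_unique (hasDerivAt_iff_tendsto_slope_zero.1 h2) (h3.congr fun t => by
    rw [e', e', Function.comp_apply, ContinuousLinearMap.map_smul_of_tower, map_sub, zero_add,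
      zero_smul, neg_zero]
    congr 3
    exact SchwartzMap.ext fun x => congrArg F (sub_zero x).symm)
  have d : CS (dv a (ev F)) := ⟨⟨_, KDa.ev_dS a F⟩, KDa.ev_dS a F ▸ hF.fderiv_apply ℝ a⟩
  rw [ContinuousLinearMap.comp_apply, hy _ (show HasCompactSupport (ev _) from
    (KDa.ev_dS a F).symm ▸ d.2), KDa.ev_dS, innerSL_apply_apply, Completion.inner_coe] at h4
  rw [inner_eq_zero_symm, Sg, TRA.sum_pd (fun f g z => hP.l.lin f g z _) a hf, inner_add_right,
    inner_smul_right, ← h4, Complex.conj_I]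
  linear_combination I * h1

end

end Vale.Agent.P352X.CA
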