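import Vale.Agent.P352X.CA.Fin
import Vale.Agent.P352X.FSS.Fin
import Vale.Agent.P352X.EB.STR
import Vale.Agent.P352X.EB.TD

/-!
# P352X, block CA: from the standing assumptions to the context
-/

set_option linter.all false

open Filter Topology
open scoped ComplexConjugate

namespace Vale.Agent.P352X.CA

open Vale.Agent.P352 Vale.Agent.P352.GF Vale.Agent.P352.BW Vale.Agent.P352.H246
open Vale.Agent.P352.H496 Vale.Agent.P352.H755 Vale.Agent.P352.H15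
open Vale.Agent.P352.SubConf (IsAdj)
open TPD (Lsc)
open UniformSpace (Completion)

noncomputable section

variable {D : Type*} [NormedAddCommGroup D] [InnerProductSpace ℂ D]

/-- the group law and mixing -/
structure GM (Q : Theory D) : Prop where
  mul : ∀ s L a s' L' a' v, 0 < s → 0 < s' → IsLor L → IsLor L' →
    Q.U s L a (Q.U s' L' a' v) = Q.U (s * s') (fun m => sim 1 L 0 (L' m)) (sim s L a a') v
  mix : ∀ v w : D, Tendsto (fun r : ℝ => inner ℂ w (Q.U (Real.sqrt (r * 1)) (Lsc r 1) 0 v))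
    (𝓝[>] 0) (𝓝 (inner ℂ w Q.vac * inner ℂ Q.vac v))

/-- mixing in the Hilbert space -/
def MixC (Q : Theory D) : Prop := ∀ v w : Completion D,
  Tendsto (fun r : ℝ => inner ℂ w (Ue Q (Real.sqrt (r * 1)) (Lsc r 1) 0 v))
    (𝓝[>] 0) (𝓝 (inner ℂ w (om Q) * inner ℂ (om Q) v))

lemma lsc_pos {r : ℝ} (hr : 0 < r) : 0 < Real.sqrt (r * 1) ∧ IsLor (Lsc r 1) :=
  ⟨Real.sqrt_pos.2 (mul_pos hr one_pos), (Grp.lsc hr one_pos).1⟩

theorem mix_ctx (c : Ctx D) : MixC c.Q := by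
  intro v w
  have hU := ublock c.hN.toRep
  have h1 : inner ℂ (om c.Q) (om c.Q) = 1 := by
    rw [inner_self_eq_norm_sq_to_K, om, Completion.norm_coe, c.Q.norm_vac]
    simp
  set κ : ℂ := inner ℂ (om c.Q) v
  have h0 : inner ℂ c.Om (v - κ • om c.Q) = 0 := by
    show inner ℂ (om c.Q) _ = 0
    rw [inner_sub_right, inner_smul_right, h1, mul_one, sub_self]
  have h := (bas_thm c).wn {r : ℝ // 0 < r} (comap Subtype.val (𝓝 0)) Subtype.val (fun _ => 1)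
    (fun _ => 0) (fun _ => v - κ • om c.Q) _ w (fun r => ⟨r.2, one_pos⟩)
    (Or.inr (Or.inl tendsto_comap)) tendsto_const_nhds h0
  have h2 := ((Complex.continuous_conj.tendsto _).comp h).add_const (inner ℂ w (om c.Q) * κ)
  rw [map_zero, zero_add] at h2
  rw [nhdsWithin, show Set.Ioi (0 : ℝ) = Set.range (Subtype.val : {r : ℝ // 0 < r} → ℝ) from
    Subtype.range_coe_subtype.symm, ← Filter.map_comap, tendsto_map'_iff]
  · refine h2.congr fun r => ?_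
    obtain ⟨p1, p2⟩ := lsc_pos r.2
    have e1 : ∀ z, Ut c.Q 0 z = z := fun z => by
      obtain ⟨W, hW⟩ := hU.lin 1 GF.one 0 one_pos H496.isLor_one
      refine W.injective ?_
      rw [hW, hW, Ut, Ug_apply _ one_pos H496.isLor_one, hU.mul _ _ _ _ _ _ _ one_pos one_pos
        H496.isLor_one H496.isLor_one]
      congr 1
      · exact one_mul 1
      · funext m n
        simp [sim, GF.one, bas]
      · funext n
        simp [sim]
    have e2 : Usc c.Q r 1 (v - κ • om c.Q) =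
        Ue c.Q (Real.sqrt (r * 1)) (Lsc r 1) 0 v - κ • om c.Q := by
      show Ug c.Q (Real.sqrt (r * 1)) (Lsc r 1) 0 _ = _
      rw [map_sub, map_smul, Ug_apply _ p1 p2, Ug_apply _ p1 p2, hU.vac _ _ _ p1 p2]
    simp only [Function.comp_apply, e1, e2, inner_conj_symm, inner_sub_right, inner_smul_right]
    ring

theorem gm_of {Q : Theory D} {A : (V → V) → D → D} (R : Rep Q A) (h : MixC Q) : GM Q :=
  ⟨R.mul, fun v w => by
    have h1 := h v w
    rw [om, Completion.inner_coe, Completion.inner_coe] at h1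
    refine h1.congr' (eventually_nhdsWithin_of_forall fun r hr => ?_)
    obtain ⟨p1, p2⟩ := lsc_pos hr
    show inner ℂ _ (Ue _ _ _ _ _) = _
    rw [(ublock R).coe _ _ _ _ p1 p2, Completion.inner_coe]⟩

theorem GM.enl {Q Q' : Theory D} (h : GM Q) (e : IsEnl Q Q') : GM Q' :=
  ⟨by rw [e.U]; exact h.mul, by rw [e.U, e.vac]; exact h.mix⟩

theorem mix_of (Q : Theory D) (T : Ix → Ix → Fld D) (hT : Q.IsStress T) (A : (V → V) → D → D)
    (hA : ND.PCh Q T A) (hG : TfGen Q) (N : Set V → VonNeumannAlgebra (Completion D))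
    (hN : LNm Q A N) (hU : UVac Q) : MixC Q := by
  obtain ⟨c, rfl, -⟩ := ctx0 Q T hT A hA hG N hN hU
  exact mix_ctx c

/-- the context -/
def cxOf {Q : Theory D} {T t : Ix → Ix → Fld D} (hI : IsImpr Q T t) (hT : Q.IsStress T)
    (g : GM Q) : Cx D :=
  ⟨Q, t, isT_of_impr hI hT,
    fun m n k l f g v hf hg h => sub_eq_zero.1 (hI.self m n k l f g v hf hg h), hI.cov, g.mul, g.mix⟩

variable (D) in
/-- the result of block CA -/
def HH : Prop := ∀ c : Cx D, ∃ (x : Ops c) (f0 : Sch), All x f0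

theorem cft_of (H : HH D) {Q : Theory D} {T t : Ix → Ix → Fld D} (hI : IsImpr Q T t)
    (hT : Q.IsStress T) (g : GM Q) : CFT Q t ∧ ∀ A, Q.bose A → SBC Q A → Desc Q t A :=
  let ⟨_, _, a⟩ := H (cxOf hI hT g)
  ⟨a.cft, fun _ hA h => a.desc hA (a.dg_sum hA h)⟩

theorem tc_enl {Q Q' : Theory D} (e : IsEnl Q Q') {k d Φ} (h : IsTc Q k d Φ) : IsTc Q' k d Φ :=
  ⟨⟨fun μ => e.fld _ (h.1.1 μ), by rw [e.U]; exact h.1.2⟩, fun μ => by
    unfold Dim
    rw [e.U]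
    exact h.2 μ⟩

theorem SBC.enl {Q Q' : Theory D} (e : IsEnl Q Q') {A : Fld D} (h : SBC Q A) : SBC Q' A :=
  let ⟨n, B, hB, h1⟩ := h
  ⟨n, B, fun i => let ⟨k, d, Φ, μ, h2, h3, h4⟩ := hB i
    ⟨k, d, Φ, μ, tc_enl e h2, fun ν => e.bose _ (h3 ν), h4⟩, h1⟩

open EB Fss in
theorem sbc_tf {Q : Theory D} {A : (V → V) → D → D} (R : Rep Q A) (hF : FSS Q) {k : ℕ}
    {Φ : (Fin k → Ix) → Fld D} (h : IsTf Q k Φ) (hb : ∀ μ, Q.bose (Φ μ)) (μ : Fin k → Ix) :
    SBC Q (Φ μ) := by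
  classical
  choose F C hC hs using fun ν => hF (Φ ν) (h.1 ν)
  let G : Finset ℂ := Finset.univ.biUnion F
  have hd : ∀ ν, Dec Q (Φ ν) G (C ν) := fun ν =>
    ⟨fun d => ⟨(hC ν d).1, (hC ν d).2.2.1⟩, fun f v hf => (hs ν f v hf).trans
      (Finset.sum_subset (fun d hd => Finset.mem_biUnion.2 ⟨ν, Finset.mem_univ _, hd⟩)
        fun d _ hd => by rw [(hC ν d).2.2.2 hd]; rfl)⟩
  let E := Fintype.equivFin G
  refine ⟨_, fun j => C μ (E.symm j), fun j => ⟨k, (E.symm j : G), fun ν => C ν (E.symm j : G), μ,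
    ⟨⟨fun ν => (hC ν _).1, fun ν L f v hL hf => ?_⟩, fun ν => (hC ν _).2.2.1⟩,
    fun ν => (hC ν _).2.1 (hb ν), fun _ _ _ => rfl⟩, fun f v hf => ?_⟩
  · obtain ⟨e, he⟩ := E.symm j
    obtain ⟨S, c, hc⟩ := vand' G e
    have fm : ∀ ν f v, IsTest f → C ν e f v =
        ∑ t ∈ S, c t • Fss.dl Q _ (Real.exp_pos t) (Φ ν) f v := fun ν f v hf => by
      simp only [(hd ν).dl R _ hf, Finset.smul_sum, smul_smul]
      rw [Finset.sum_comm, Finset.sum_congr rfl fun d hd => by rw [← Finset.sum_smul, hc d hd]]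
      simp [he]
    let W : D →ₗ[ℂ] D := ⟨⟨Q.U 1 L 0, U_add one_pos hL 0⟩, U_smul one_pos hL 0⟩
    have t1 := Ap.test_sim one_pos hL 0 hf
    show _ = ∑ ν', _ • W _
    simp only [fm _ _ _ t1, fm ν f _ hf, dl_tf R h _ ν hL hf, map_sum, map_smul, Finset.smul_sum]
    rw [Finset.sum_comm]
    exact Finset.sum_congr rfl fun _ _ => Finset.sum_congr rfl fun t _ => smul_comm _ _ _
  · rw [(hd μ).2 f v hf, E.symm.sum_comp fun d : G => C μ d f v,
      Finset.sum_coe_sort G (C μ · f v)]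

theorem final0c (H : HH D) (Q : Theory D) (T : Ix → Ix → Fld D) (hT : Q.IsStress T)
    (A : (V → V) → D → D) (hA : ND.PCh Q T A) (hG : TfGen Q)
    (N : Set V → VonNeumannAlgebra (Completion D)) (hN : LNm Q A N) (hU : UVac Q) :
    (∃ l, IsPot Q T l ∧ ∀ ν, N86.WeakLoc Q fun f => l (pd ν f)) ∧
    (Rec Q → ∃ J, IsVirial Q T J ∧ ∀ Q' : Theory D, IsEnl Q Q' →
      IsImpr Q' T (improveJ T J) ∧ ConfAct Q' (improveJ T J) ∧ CFT Q' (improveJ T J)) := by
  obtain ⟨h1, h2⟩ := final0 Q T hT A hA hG N hN hU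
  refine ⟨h1, fun hR => ?_⟩
  obtain ⟨J, h3, h4⟩ := h2 hR
  exact ⟨J, h3, fun Q' hE => ⟨(h4 Q' hE).1, (h4 Q' hE).2, (cft_of H (h4 Q' hE).1
    (H746.isStress_enl hE hT) ((gm_of hN.toRep (mix_of Q T hT A hA hG N hN hU)).enl hE)).1⟩⟩

theorem final_fssc (H : HH D) (Q : Theory D) (T : Ix → Ix → Fld D) (hT : Stress0 Q T) (hF : FSS Q)
    (A : (V → V) → D → D) (hA : ND.PCh Q T A) (hG : TfGen Q)
    (N : Set V → VonNeumannAlgebra (Completion D)) (hN : LNm Q A N) (hU : UVac Q) (hR : Rec Q) :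
    ∃ T' J, Q.IsStress T' ∧ IsVirial Q T' J ∧ IsImpr Q T (improveJ T' J) ∧
      ConfAct Q (improveJ T' J) ∧ CFT Q (improveJ T' J) ∧ ∀ k Φ μ, IsTf Q k Φ →
        (∀ μ, Q.bose (Φ μ)) → Desc Q (improveJ T' J) (Φ μ) := by
  obtain ⟨T', h1, h2, h3⟩ := fss hN.toRep hF hT hA
  obtain ⟨J, h4, h5⟩ := (final0 Q T' h1 A h2 hG N hN hU).2 hR
  have h6 := h5 Q ⟨rfl, rfl, fun _ h => h, fun _ h => h⟩
  have h7 := cft_of H h6.1 h1 (gm_of hN.toRep (mix_of Q T' h1 A h2 hG N hN hU))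
  exact ⟨T', J, h1, h4, h3 _ h6.1, h6.2, h7.1, fun k Φ μ hΦ hb =>
    h7.2 _ (hb μ) (sbc_tf hN.toRep hF hΦ hb μ)⟩

end

end Vale.Agent.P352X.CA
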