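import Vale.Agent.P352X.CA.W2
import Vale.Agent.P352X.CA.Fin2

/-!
# P352X, block CA: the extension with the local potential
-/

set_option linter.all false

open Filter Topology
open scoped ComplexConjugate

namespace Vale.Agent.P352X.CA

open Vale.Agent.P352 Vale.Agent.P352.GF Vale.Agent.P352.BW Vale.Agent.P352.H246
open Vale.Agent.P352.H496 Vale.Agent.P352.H755 Vale.Agent.P352.H15
open Vale.Agent.P352.SubConf (IsAdj)
open TPD (Lsc)
open UniformSpace (Completion)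

noncomputable section

variable {D : Type*} [NormedAddCommGroup D] [InnerProductSpace ℂ D] {Q : Theory D}
  {A : (V → V) → D → D} {D' : Submodule ℂ (Completion D)} {Q' : Theory D'} {e : Fld D → Fld D'}

theorem gm_ext (R : Rep Q A) (h : MixC Q) (E : Ext Q Q' e) : GM Q' where
  mul := fun s L a s' L' a' v hs hs' hL hL' => Subtype.ext (by
    rw [E.U _ _ _ _ hs hL, E.U _ _ _ _ hs' hL', E.U _ _ _ _ (mul_pos hs hs') (ue_lor hL hL'),
      (ublock R).mul _ _ _ _ _ _ _ hs hs' hL hL'])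
  mix := fun v w => by
    have h1 := h v w
    rw [← E.vac, ← Submodule.coe_inner, ← Submodule.coe_inner] at h1
    refine h1.congr' (eventually_nhdsWithin_of_forall fun r hr => ?_)
    obtain ⟨p1, p2⟩ := lsc_pos hr
    show inner ℂ _ (Ue _ _ _ _ _) = _
    rw [← E.U _ _ _ _ p1 p2]
    rfl

/-- covariance relations pass to the extension -/
theorem ext_cov (R : Rep Q A) (E : Ext Q Q' e) {ι : Type*} [Fintype ι] {B : Fld D}
    {C : ι → Fld D} {κ : ι → ℂ} {s : ℝ} {L : Ix → V} (hs : 0 < s) (hL : IsLor L) {f : Fn}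
    (hf : IsTest f) (hB : Q.fld B) (hC : ∀ i, Q.fld (C i))
    (h : ∀ v, B f (Q.U s L 0 v) = ∑ i, κ i • Q.U s L 0 (C i (fun x => f (sim s L 0 x)) v))
    (v : D') : e B f (Q'.U s L 0 v) =
      ∑ i, κ i • Q'.U s L 0 (e (C i) (fun x => f (sim s L 0 x)) v) := by
  obtain ⟨B', -, hB'⟩ := Q.adj B hB
  choose C' _ hC' using fun i => Q.adj (C i) (hC i)
  have hg := Ap.test_sim hs hL 0 hf
  have hU := ublock R
  obtain ⟨W, hW⟩ := hU.lin s L 0 hs hL
  have h0 : ∀ w, B' (bar f) (Q.U s L 0 w) =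
      ∑ i, conj (κ i) • Q.U s L 0 (C' i (bar fun x => f (sim s L 0 x)) w) := fun w => by
    refine ext_inner_left ℂ fun u => ?_
    rw [← ue_inv R hs hL 0 u, ← hB' f _ _ hf, h, sum_inner, inner_sum]
    refine Finset.sum_congr rfl fun i _ => ?_
    rw [inner_smul_left, inner_smul_right, Q.U_inner _ _ _ _ _ hs hL, Q.U_inner _ _ _ _ _ hs hL,
      hC' i _ _ _ hg]
  refine EB.STRa.ext_dense (u := fun w : D => W w)
    (W.surjective.denseRange.comp Completion.denseRange_coe W.continuous) fun w => ?_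
  have h1 : W w = (Q.U s L 0 w : D) := (hW _).trans (hU.coe s L 0 w hs hL)
  have h2 : ∀ z : D', (Q'.U s L 0 z : Completion D) = W z := fun z =>
    (E.U s L 0 z hs hL).trans (hW _).symm
  have h3 : ∀ z : D, ((Q.U s L 0 z : D) : Completion D) = W z := fun z =>
    (hU.coe s L 0 z hs hL).symm.trans (hW _).symm
  conv_lhs => rw [h1, E.adj B B' f _ _ hB hB' hf, h0, h2]
  simp only [coe_sum, Completion.coe_smul, Submodule.coe_sum, Submodule.coe_smul, inner_sum,
    sum_inner, inner_smul_left, inner_smul_right, h2, h3, W.inner_map_map,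
    fun i => E.adj (C i) (C' i) _ v w (hC i) (hC' i) hg]

theorem tc_ext (R : Rep Q A) (E : Ext Q Q' e) {k d Φ} (h : IsTc Q k d Φ) :
    IsTc Q' k d fun μ => e (Φ μ) :=
  ⟨⟨fun μ => Q'.bose_fld _ (E.fld _ (h.1.1 μ)), fun μ L f v hL hf =>
    ext_cov R E one_pos hL hf (h.1.1 μ) h.1.1 (fun v => h.1.2 μ L f v hL hf) v⟩,
    fun μ s f v hs hf => by
      simpa using ext_cov R E (C := fun _ : Unit => Φ μ) (κ := fun _ => (s : ℂ) ^ (4 - d)) hs
        H496.isLor_one hf (h.1.1 μ) (fun _ => h.1.1 μ)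
        (fun v => by simpa using h.2 μ s f v hs hf) v⟩

theorem tc_scalar {L : Fld D} {d : ℝ} (h : Q.IsScalar L d) : IsTc Q 0 d fun _ => L :=
  ⟨⟨fun _ => Q.bose_fld _ h.1, fun _ M f v hM hf => by
    simpa using h.2.2 1 M 0 f v one_pos hM hf⟩, fun _ s f v hs hf => by
    show L f _ = _
    rw [h.2.2 s _ 0 f v hs H496.isLor_one hf, Complex.ofReal_cpow hs.le]
    push_cast
    rfl⟩

theorem sbc_gen (R : Rep Q A) (E : Ext Q Q' e) {L : Fld D'} {d : ℝ} (hL : Q'.IsScalar L d)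
    (g : EB.Gen Q Q' e L) {B : Fld D'} (hB : Q'.fld B) : SBC Q' B := by
  obtain ⟨-, n, C, hC, h⟩ := g B hB
  refine ⟨n, C, fun i => ?_, fun f v _ => h f v⟩
  rcases hC i with h1 | ⟨_, ⟨k, d, Φ, μ, hΦ, rfl⟩, h1⟩
  · exact ⟨0, d, fun _ => L, default, tc_scalar hL, fun _ => hL.1, fun _ _ _ => by rw [h1]⟩
  · exact ⟨k, d, _, μ, tc_ext R E hΦ, fun ν => E.fld _ (hΦ.1.1 ν), h1⟩

theorem final3c (H : ∀ D' : Submodule ℂ (Completion D), HH D') (Q : Theory D)
    (T : Ix → Ix → Fld D) (hT : Q.IsStress T) (A : (V → V) → D → D) (hA : ND.PCh Q T A)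
    (hD : TdAll Q) (N : Set V → VonNeumannAlgebra (Completion D)) (hN : LNm Q A N) (hU : UVac Q)
    (hE : EBd Q) :
    ∃ (D' : Submodule ℂ (Completion D)) (Q' : Theory D') (e : Fld D → Fld D') (L : Fld D'),
      Ext Q Q' e ∧ Q'.IsStress (fun m n => e (T m n)) ∧ Q'.IsScalar L 2 ∧
      (∀ f v, IsTest f → tr (fun m n => e (T m n)) f v = (3 : ℂ) • L (box f) v) ∧
      ∀ Q'' : Theory D', IsEnl Q' Q'' → IsImpr Q'' (fun m n => e (T m n))
        (improve (fun m n => e (T m n)) L) ∧ ConfAct Q'' (improve (fun m n => e (T m n)) L) ∧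
        CFT Q'' (improve (fun m n => e (T m n)) L) ∧
        ∀ B, Q'.fld B → Desc Q'' (improve (fun m n => e (T m n)) L) B := by
  obtain ⟨D', Q', e, L, h1, h2, h3, h4, h5⟩ := EB.final3g Q T hT A hA hD N hN hU hE
  refine ⟨D', Q', e, L, h1, h2, h3, h4, fun Q'' hE => ?_⟩
  obtain ⟨h6, h7⟩ := EB.scal_row D' Q' _ L h2 h3 h4 Q'' hE
  obtain ⟨h8, h9⟩ := cft_of (H D') h6 (H746.isStress_enl hE h2)
    ((gm_ext hN.toRep (mix_of Q T hT A hA (EB.tfGen_of hD) N hN hU) h1).enl hE)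
  exact ⟨h6, h7, h8, fun B hB => h9 B (hE.bose _ (h5 B hB).1)
    ((sbc_gen hN.toRep h1 h3 h5 hB).enl hE)⟩

theorem final4c (H : ∀ D' : Submodule ℂ (Completion D), HH D') (Q : Theory D)
    (T : Ix → Ix → Fld D) (hT : Stress0 Q T) (A : (V → V) → D → D)
    (hA : ND.PCh Q T A) (hG : TfAll Q) (hF : FSS Q) (N : Set V → VonNeumannAlgebra (Completion D))
    (hN : LNm Q A N) (hU : UVac Q) (hE : EBd Q) :
    ∃ T', Q.IsStress T' ∧ ND.PCh Q T' A ∧
    ∃ (D' : Submodule ℂ (Completion D)) (Q' : Theory D') (e : Fld D → Fld D') (L : Fld D'),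
      Ext Q Q' e ∧ Q'.IsStress (fun m n => e (T' m n)) ∧ Q'.IsScalar L 2 ∧
      (∀ f v, IsTest f → tr (fun m n => e (T' m n)) f v = (3 : ℂ) • L (box f) v) ∧
      ∀ Q'' : Theory D', IsEnl Q' Q'' → IsImpr Q'' (fun m n => e (T' m n))
        (improve (fun m n => e (T' m n)) L) ∧ ConfAct Q'' (improve (fun m n => e (T' m n)) L) ∧
        CFT Q'' (improve (fun m n => e (T' m n)) L) ∧
        ∀ B, Q'.fld B → Desc Q'' (improve (fun m n => e (T' m n)) L) B :=
  let ⟨T', h1, h2, _⟩ := fss hN.toRep hF hT hA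
  ⟨T', h1, h2, final3c H Q T' h1 A h2 (EB.tdAll_of hN.toRep hF hG) N hN hU hE⟩

end

end Vale.Agent.P352X.CA
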