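import Vale.Agent.P352X.CA.Spec

/-!
# P352X, block CA, rows WRD and ACT: limits of the cut off charges
-/

set_option linter.all false

open Filter Topology

namespace Vale.Agent.P352X.CA

open Vale.Agent.P352 Vale.Agent.P352.GF Vale.Agent.P352.H246 Vale.Agent.P352.H755
open Vale.Agent.P352.SubConf (IsKil chg)
open UniformSpace (Completion)
open Complex (I)

variable {D : Type*} [NormedAddCommGroup D] [InnerProductSpace ℂ D] {c : Cx D}

namespace WRD

theorem lim (h : L1 c) {X : Ix → V → ℝ} (hX : IsKil X) {K : Set V} (hK : IsCompact K)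
    {Y Y' : D → D} (hY : c.Lo K Y Y') {F : ℝ → Fn} (hF : IsCutoff F) (w v : D) :
    ∀ᶠ R in atTop, ∃ u, Den K u ∧
      inner ℂ (chg (fun m n => co (c.t m n)) X (F R) w) ((Y v : D) : Completion D) -
        inner ℂ ((Y' w : D) : Completion D) (chg (fun m n => co (c.t m n)) X (F R) v) =
      inner ℂ w (c.dl u X Y v) := by
  filter_upwards [ok_cutoff hF hK] with R ⟨g, hg, e⟩
  have hd := h.pug.ok K g hg
  refine ⟨_, hd, ?_⟩
  have e1 : ∀ z, chg (fun m n => co (c.t m n)) X (F R) z = (c.Ch (tm g) X z : D) := fun z => by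
    rw [e, h.ba.chtm g X z hg.1 hX]
    exact chg_eq c.hT z
  rw [e1, e1, Completion.inner_coe, Completion.inner_coe, h.ba.chadj _ X _ _ hd.1 hX,
    (h.ba.symm _ _ _ hY).adj, Cx.dl, inner_sub_right]

theorem cs_d (h : L1 c) {X : Ix → V → ℝ} (hX : IsKil X) (m n : Ix) :
    ∃ q, Mq q ∧ ∀ x, pd m (fun y => (X n y : ℂ)) x = q x := by
  obtain ⟨a, b, r, w, hX⟩ := hX
  refine ⟨_, ?_, fun x => h.pk.d1 X a b r w m n x hX⟩
  refine (((((Mq.const r).add ((Mq.const 2).mul (Mq.mdot b))).mul (Mq.const (GF.one m n))).add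
    (Mq.const (w m n))).add (((Mq.const (2 * (eta m * b m))).mul (Mq.coord n)).add
      ((Mq.const (-2 * eta m * b n)).mul (Mq.coord m)))).congr fun x => ?_
  simp only [wd]
  ring

theorem coe_sum {ι : Type*} (s : Finset ι) (v : ι → D) :
    ((∑ i ∈ s, v i : D) : Completion D) = ∑ i ∈ s, (v i : Completion D) :=
  map_sum (Completion.toComplL (𝕜 := ℂ) (E := D)) v s

end WRD

open WRD

theorem wrd_row (c : Cx D) (h : L2 c) : WRD c := fun X Y Y' F hX hY hF => by
  obtain ⟨K, hK, l⟩ := h.ba.al Y Y' hY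
  refine tendsto_const_nhds.congr' ?_
  filter_upwards [lim h.toL1 hX hK l hF c.Q.vac c.Q.vac] with R ⟨u, hu, e⟩
  rw [e, h.vac X hX K u Y Y' hK hu l]

theorem act_row (c : Cx D) (h : L1 c) : ACT c := by
  intro X k Δ P P' Ψ Ψ' hX hP hΨ hΦ μ f w v F hf hF
  have hc : CS f := ⟨hf.1, hf.2.1⟩
  have l := h.ba.fld _ _ _ f (hP μ) hc le_rfl
  choose q hq e using cs_d h hX
  have c1 : ∀ n, CS (pd n fun x => X n x * f x) := fun n => cs_pd (cs_mul hc (Mq.kil hX n)) n
  have c2 : CS fun x => (∑ n, pd n (fun y => (X n y : ℂ)) x) * f x := by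
    simpa only [e, Complex.ofReal_sum] using cs_mul hc (Mq.sum fun n => hq n n)
  have c3 : ∀ n m, CS fun x => pd n (fun y => (X m y : ℂ)) x * f x := fun n m => by
    simpa only [e] using cs_mul hc (hq n m)
  refine tendsto_const_nhds.congr' ?_
  filter_upwards [lim h hX hc.2.isCompact l hF w v] with R ⟨u, hu, e1⟩
  rw [(hΨ μ f v hc).1, (hΨ μ _ w (cs_bar hc)).2, e1,
    ← h.ind.phi _ u X (P μ) f _ v hc.2.isCompact hu hX hc le_rfl l, hΦ μ f v hc,
    inner_smul_right, ← Completion.inner_coe w (rhs X k Δ P μ f v), rhs]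
  simp only [fun ν n => (hΨ ν _ v (c1 n)).1, fun ν => (hΨ ν _ v c2).1,
    fun ν n m => (hΨ ν _ v (c3 n m)).1, Completion.coe_add, Completion.coe_sub,
    Completion.coe_smul, coe_sum]

end Vale.Agent.P352X.CA
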