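import Vale.Agent.P352X.CA.W3
import Vale.Agent.P352X.R.LIE
import Vale.Agent.P352X.CA.ADJ
import Vale.Agent.P352X.CA.AX1
import Vale.Agent.P352X.CA.AX2
import Vale.Agent.P352X.CA.BA
import Vale.Agent.P352X.CA.BDR
import Vale.Agent.P352X.CA.CLA
import Vale.Agent.P352X.CA.CLB
import Vale.Agent.P352X.CA.CLJ
import Vale.Agent.P352X.CA.CLM
import Vale.Agent.P352X.CA.COV
import Vale.Agent.P352X.CA.DEC
import Vale.Agent.P352X.CA.DER
import Vale.Agent.P352X.CA.DIL
import Vale.Agent.P352X.CA.GD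
import Vale.Agent.P352X.CA.IND
import Vale.Agent.P352X.CA.INI
import Vale.Agent.P352X.CA.KIL
import Vale.Agent.P352X.CA.LFT
import Vale.Agent.P352X.CA.LO1
import Vale.Agent.P352X.CA.LO2
import Vale.Agent.P352X.CA.MAT
import Vale.Agent.P352X.CA.MUL
import Vale.Agent.P352X.CA.NL
import Vale.Agent.P352X.CA.PK
import Vale.Agent.P352X.CA.PRI
import Vale.Agent.P352X.CA.PUC
import Vale.Agent.P352X.CA.PUG
import Vale.Agent.P352X.CA.QQ
import Vale.Agent.P352X.CA.REL
import Vale.Agent.P352X.CA.RHO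
import Vale.Agent.P352X.CA.SEP
import Vale.Agent.P352X.CA.SG
import Vale.Agent.P352X.CA.TEN
import Vale.Agent.P352X.CA.TOW
import Vale.Agent.P352X.CA.TRA
import Vale.Agent.P352X.CA.UNI
import Vale.Agent.P352X.CA.VAC
import Vale.Agent.P352X.CA.VC0
import Vale.Agent.P352X.CA.WRD
import Vale.Agent.P352X.CA.WSP

/-!
# P352X, block CA: the wiring
-/

set_option linter.all false

namespace Vale.Agent.P352X.CA

open Vale.Agent.P352 Vale.Agent.P352.GF

theorem rowsA {W H : Type*} [AddCommGroup W] [Module ℂ W] [NormedAddCommGroup H]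
    [InnerProductSpace ℂ H] (A : Dat W H) : A.Rows :=
  ⟨mul_row A, kil_row A, lo1_row A, lo2_row A, lor_row A, qa_row A, adj_row A, qk_row A,
    dil_row A, tow_row A, pri_row A, uni_row A, dsc_row A⟩

variable {D : Type*} [NormedAddCommGroup D] [InnerProductSpace ℂ D]

theorem rowsB (c : Cx D) : Rows c :=
  ⟨pug_row, pk_row, nul_row, ba_row c, ind_row c, puc_row c, cla_row c, clj_row c, clb_row c,
    clm_row c, sep_row c, ext_row c, rho_row c, bdr_row c, vc0_row c, vac_row c, sg_row c,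
    tra_row c, cov_row c, rel_row c, qq_row c, wrd_row c, act_row c, dec_row c, gd_row c,
    wsp_row c, ax1_row c, ax2_row c, der_row c, ini_row c, lft_row c, cvp_row c⟩

variable (D) in
theorem hh_thm : HH D := fun c =>
  all_of (rowsB c) mat_row lie_row tder_row (fun x => ten_row x.W) fun x f0 => rowsA (x.dat f0)

end Vale.Agent.P352X.CA
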